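import Mathlib

set_option linter.all false

section
attribute [-instance] ProperSMul.toContinuousSMul IsTopologicalTorsor.toContinuousSMul IdemSemiring.toCanonicallyOrderedAdd IdemSemiring.toMulLeftMono IdemSemiring.toMulRightMono AddQuantale.instAddLeftMono AddQuantale.instAddRightMono Quantale.instMulLeftMono Quantale.instMulRightMono FiniteDimensional.rclike_to_real IsScalarTower.complexToReal FiniteDimensional.complexToReal

/-!
# P227 / C2 : common rotation of odd order `m ≥ 3` in `R³` (definitions)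

`b = π / m`, normals at the angles `j b / r`, everything of period `2 r` (rotation invariance).
-/

open Finset Real MeasureTheory

namespace Vale.Agent.P227.C2

/-- the kernel: `cos (b - b k / r)` for `0 ≤ k < 2 r` -/
noncomputable def ck (b : ℝ) (r : ℕ) (k : ZMod (2 * r)) : ℝ := cos (b - b / r * (k.val : ℝ))

/-- convolution with the kernel -/
noncomputable def cv (b : ℝ) (r : ℕ) [NeZero r] (x : ZMod (2 * r) → ℝ) (i : ZMod (2 * r)) : ℝ :=
  ∑ j, ck b r (i - j) * x j

/-- edge lengths, times `sin (b / r)`, for the support numbers `f` -/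
noncomputable def el (b : ℝ) (r : ℕ) (f : ZMod (2 * r) → ℝ) (j : ZMod (2 * r)) : ℝ :=
  f (j + 1) + f (j - 1) - 2 * cos (b / r) * f j

/-- area, up to the factor `m / (2 sin (b / r))` -/
noncomputable def qa (b : ℝ) (r : ℕ) [NeZero r] (f : ZMod (2 * r) → ℝ) : ℝ :=
  ∑ j, f j * el b r f j

/-- `f` is the sequence of support numbers of the polygon `y.n_j ≤ c j`: the largest sequence
below `c` with nonnegative edge lengths -/
structure IsSupp (b : ℝ) (r : ℕ) (c f : ZMod (2 * r) → ℝ) : Prop where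
  le : ∀ j, f j ≤ c j
  adm : ∀ j, 0 ≤ el b r f j
  max : ∀ g : ZMod (2 * r) → ℝ, (∀ j, g j ≤ c j) → (∀ j, 0 ≤ el b r g j) → ∀ j, g j ≤ f j

/-- the polygon `y.n_j ≤ c j` -/
def poly (b : ℝ) (r : ℕ) (c : ZMod (2 * r) → ℝ) : Set (Fin 2 → ℝ) :=
  {y | ∀ j : ℤ, y 0 * cos (j * (b / r)) + y 1 * sin (j * (b / r)) ≤ c (j : ZMod (2 * r))}

/-- right hand sides of the section at height one of the system
`v x_0 + x'.n_j ≤ G j v`, `v ∈ V` -/
noncomputable def cm {r : ℕ} (V : Finset ℝ) (hV : V.Nonempty) (G : ZMod (2 * r) → ℝ → ℝ)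
    (j : ZMod (2 * r)) : ℝ :=
  V.inf' hV fun v => G j v - v

/-- the polyhedron `v x_0 + x'.n_j ≤ H j v`, `v ∈ V` -/
def pol3 (b : ℝ) (r : ℕ) (V : Finset ℝ) (H : ZMod (2 * r) → ℝ → ℝ) : Set (Fin 3 → ℝ) :=
  {x | ∀ j : ℤ, ∀ v ∈ V,
    x 0 * v + x 1 * cos (j * (b / r)) + x 2 * sin (j * (b / r)) ≤ H (j : ZMod (2 * r)) v}

/-- rotation of angle `θ` about the zeroth axis -/
noncomputable def rot (θ : ℝ) (x : Fin 3 → ℝ) : Fin 3 → ℝ :=
  ![x 0, x 1 * cos θ - x 2 * sin θ, x 1 * sin θ + x 2 * cos θ]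

end Vale.Agent.P227.C2
end

section

/-! P227, C2: algebra of the two kernels (P3, P4, reverse Cauchy-Schwarz, P5). -/

open Finset Real

namespace Vale.Agent.P227.C2

/-! ### the min kernel -/

theorem psd_min {ι : Type*} (n : ℕ) : ∀ (S : Finset ι) (x a : ι → ℝ), S.card ≤ n →
    (∀ i ∈ S, 0 ≤ a i) → 0 ≤ ∑ i ∈ S, ∑ j ∈ S, x i * x j * min (a i) (a j) := by
  classical
  induction n with
  | zero =>
    intro S x a hS _
    have : S = ∅ := by
      rw [← Finset.card_eq_zero]; omega
    simp only [this, sum_empty, sum_const_zero, Std.le_refl]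
  | succ n ih =>
    intro S x a hS ha
    rcases S.eq_empty_or_nonempty with h0 | hne
    · simp only [h0, sum_empty, sum_const_zero, Std.le_refl]
    obtain ⟨i0, hi0, hmin⟩ := S.exists_min_image a hne
    set m := a i0 with hm
    have h1 : ∀ i j, min (a i) (a j) = m + min (a i - m) (a j - m) := by
      intro i j
      rw [← min_add_add_left]
      congr 1 <;> ring
    have h2 : ∑ i ∈ S, ∑ j ∈ S, x i * x j * min (a i) (a j) =
        m * (∑ i ∈ S, x i) ^ 2 + ∑ i ∈ S, ∑ j ∈ S, x i * x j * min (a i - m) (a j - m) := by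
      have : (∑ i ∈ S, x i) ^ 2 = ∑ i ∈ S, ∑ j ∈ S, x i * x j := by
        rw [sq, Finset.sum_mul_sum]
      rw [this, Finset.mul_sum, ← Finset.sum_add_distrib]
      apply Finset.sum_congr rfl
      intro i _
      rw [Finset.mul_sum, ← Finset.sum_add_distrib]
      apply Finset.sum_congr rfl
      intro j _
      rw [h1 i j]
      ring
    have h3 : ∑ i ∈ S, ∑ j ∈ S, x i * x j * min (a i - m) (a j - m) =
        ∑ i ∈ S.erase i0, ∑ j ∈ S.erase i0, x i * x j * min (a i - m) (a j - m) := by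
      rw [← Finset.sum_erase S (a := i0)]
      · apply Finset.sum_congr rfl
        intro i hi
        symm
        apply Finset.sum_erase
        have : min (a i - m) (a i0 - m) = 0 := by
          rw [← hm, sub_self]
          apply min_eq_right
          have := hmin i (Finset.mem_of_mem_erase hi)
          linarith only [this]
        rw [this, mul_zero]
      · apply Finset.sum_eq_zero
        intro j hj
        have : min (a i0 - m) (a j - m) = 0 := by
          rw [← hm, sub_self]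
          apply min_eq_left
          have := hmin j hj
          linarith only [this]
        rw [this, mul_zero]
    rw [h2, h3]
    have h4 := ih (S.erase i0) x (fun i => a i - m) (by
      rw [Finset.card_erase_of_mem hi0]; omega) (by
      intro i hi
      have := hmin i (Finset.mem_of_mem_erase hi)
      linarith only [this])
    have h5 : 0 ≤ m * (∑ i ∈ S, x i) ^ 2 := mul_nonneg (ha i0 hi0) (sq_nonneg _)
    linarith only [h4, h5]

/-- Dirichlet Green kernel of `-(∂² + 1)` on `[0, c]`, `c < π`. -/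
theorem psd_green {ι : Type*} [Fintype ι] {c : ℝ} (hc0 : 0 < c) (hc : c < π) (x s : ι → ℝ)
    (hs : ∀ i, 0 ≤ s i ∧ s i < c) :
    0 ≤ ∑ i, ∑ j, x i * x j * (sin (min (s i) (s j)) * sin (c - max (s i) (s j))) := by
  have hpos : ∀ i, 0 < sin (c - s i) := fun i =>
    sin_pos_of_pos_of_lt_pi (by linarith only [(hs i).2]) (by linarith only [hc, (hs i).1])
  have hnn : ∀ i, 0 ≤ sin (s i) := fun i =>
    sin_nonneg_of_nonneg_of_le_pi (hs i).1 (by linarith [(hs i).2])
  set φ : ι → ℝ := fun i => sin (s i) / sin (c - s i) with hφ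
  have hmono : ∀ i j, s i ≤ s j → φ i ≤ φ j := by
    intro i j hij
    simp only [hφ]
    rw [div_le_div_iff₀ (hpos i) (hpos j)]
    have h1 : sin (s j) * sin (c - s i) - sin (s i) * sin (c - s j) = sin c * sin (s j - s i) := by
      rw [sin_sub, sin_sub, sin_sub]
      nlinarith only []
    have h2 : 0 ≤ sin c := sin_nonneg_of_nonneg_of_le_pi hc0.le hc.le
    have h3 : 0 ≤ sin (s j - s i) := sin_nonneg_of_nonneg_of_le_pi (by linarith only [hij])
      (by linarith only [hc, (hs j).2, (hs i).1])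
    linarith only [mul_nonneg (sub_nonneg.2 h2) (sub_nonneg.2 h3), h1]
  have key : ∀ i j, sin (min (s i) (s j)) * sin (c - max (s i) (s j)) =
      sin (c - s i) * sin (c - s j) * min (φ i) (φ j) := by
    intro i j
    rcases le_total (s i) (s j) with h | h
    · rw [min_eq_left h, max_eq_right h, min_eq_left (hmono i j h)]
      simp only [hφ]
      (clear * - hpos; field_simp [(hpos i).ne'])
    · rw [min_eq_right h, max_eq_left h, min_eq_right (hmono j i h)]
      simp only [hφ]
      (clear * - hpos; field_simp [(hpos j).ne'])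
  have h := psd_min (Finset.univ : Finset ι).card Finset.univ (fun i => x i * sin (c - s i)) φ
    le_rfl (fun i _ => div_nonneg (hnn i) (hpos i).le)
  refine h.trans (le_of_eq ?_)
  apply Finset.sum_congr rfl
  intro i _
  apply Finset.sum_congr rfl
  intro j _
  rw [key i j]
  ring

/-! ### bilinear forms of kernels -/

variable {ι : Type*} [Fintype ι]

/-- `B K x y = ∑ x_i y_j K_ij`. -/
def B (K : ι → ι → ℝ) (x y : ι → ℝ) : ℝ := ∑ i, ∑ j, x i * y j * K i j

theorem B_add_left (K : ι → ι → ℝ) (x x' y : ι → ℝ) :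
    B K (fun i => x i + x' i) y = B K x y + B K x' y := by
  simp only [B, ← sum_add_distrib]
  refine Finset.sum_congr rfl fun i _ => Finset.sum_congr rfl fun j _ => ?_
  ring

theorem B_add_right (K : ι → ι → ℝ) (x y y' : ι → ℝ) :
    B K x (fun i => y i + y' i) = B K x y + B K x y' := by
  simp only [B, ← Finset.sum_add_distrib]
  refine Finset.sum_congr rfl fun i _ => Finset.sum_congr rfl fun j _ => ?_
  ring

theorem B_smul_left (K : ι → ι → ℝ) (c : ℝ) (x y : ι → ℝ) :
    B K (fun i => c * x i) y = c * B K x y := by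
  simp only [B, Finset.mul_sum]
  refine Finset.sum_congr rfl fun i _ => Finset.sum_congr rfl fun j _ => ?_
  ring

theorem B_smul_right (K : ι → ι → ℝ) (c : ℝ) (x y : ι → ℝ) :
    B K x (fun i => c * y i) = c * B K x y := by
  simp only [B, Finset.mul_sum]
  refine Finset.sum_congr rfl fun i _ => Finset.sum_congr rfl fun j _ => ?_
  ring

theorem B_symm {K : ι → ι → ℝ} (hK : ∀ i j, K i j = K j i) (x y : ι → ℝ) :
    B K x y = B K y x := by
  simp only [B]
  rw [Finset.sum_comm]
  refine Finset.sum_congr rfl fun i _ => Finset.sum_congr rfl fun j _ => ?_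
  rw [hK j i]
  ring

theorem B_eq_sum_left (K : ι → ι → ℝ) (x y : ι → ℝ) :
    B K x y = ∑ i, x i * ∑ j, y j * K i j := by
  simp only [B, Finset.mul_sum]
  refine Finset.sum_congr rfl fun i _ => Finset.sum_congr rfl fun j _ => ?_
  ring

/-! ### the abstract hypotheses -/

/-- The properties of the pair of kernels `K = kap (θ_i - θ_j)`, `K' = kap (θ_i - θ_j + b)`
used in (P4) and (P5): `γ = cos b`, `σ = 2 sin b`. -/
structure KHyp (K K' : ι → ι → ℝ) (σ γ : ℝ) : Prop where
  σ_pos : 0 < σ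
  γ_ge : 1 / 3 ≤ γ
  γ_le : γ ≤ 1
  symm : ∀ i j, K i j = K j i
  symm' : ∀ i j, K' i j = K' j i
  lo : ∀ i j, γ ≤ σ * K i j
  hi : ∀ i j, σ * K i j ≤ 1
  lo' : ∀ i j, γ ≤ σ * K' i j
  hi' : ∀ i j, σ * K' i j ≤ 1
  sum_ge : ∀ i j, 1 + γ ≤ σ * K i j + σ * K' i j
  psd : ∀ x : ι → ℝ, B K x x ≤ B K' x x
  lor : ∀ l z : ι → ℝ, 0 < B K l l → B K l l * B K z z ≤ B K l z ^ 2

variable {K K' : ι → ι → ℝ} {σ γ : ℝ}

theorem abs_form_le (C : ι → ι → ℝ) (δ : ℝ) (l η : ι → ℝ) (hl : ∀ i, 0 ≤ l i)
    (hC : ∀ i j, |C i j| ≤ δ) :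
    |∑ i, ∑ j, (l i * η i) * (l j * η j) * C i j| ≤ δ * ((∑ i, l i) * ∑ i, l i * η i ^ 2) := by
  calc |∑ i, ∑ j, (l i * η i) * (l j * η j) * C i j|
      ≤ ∑ i, ∑ j, |(l i * η i) * (l j * η j) * C i j| :=
        (Finset.abs_sum_le_sum_abs _ _).trans
          (Finset.sum_le_sum fun i _ => Finset.abs_sum_le_sum_abs _ _)
    _ ≤ ∑ i, ∑ j, δ * ((l i * l j) * ((η i ^ 2 + η j ^ 2) / 2)) := by
        refine Finset.sum_le_sum fun i _ => Finset.sum_le_sum fun j _ => ?_
        rw [abs_mul, abs_mul, abs_mul, abs_mul, abs_of_nonneg (hl i), abs_of_nonneg (hl j)]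
        have h1 : |η i| * |η j| ≤ (η i ^ 2 + η j ^ 2) / 2 := by
          linarith only [sq_abs (η j), sq_abs (η i), sq_nonneg (|η i| - |η j|)]
        have h2 : 0 ≤ l i * l j := mul_nonneg (hl i) (hl j)
        have h3 : 0 ≤ δ := (abs_nonneg _).trans (hC i j)
        calc l i * |η i| * (l j * |η j|) * |C i j| = (l i * l j) * (|η i| * |η j|) * |C i j| := by
              ring
          _ ≤ (l i * l j) * ((η i ^ 2 + η j ^ 2) / 2) * δ := by
              apply mul_le_mul (mul_le_mul_of_nonneg_left h1 h2) (hC i j) (abs_nonneg _)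
              apply mul_nonneg h2
              (clear * -; positivity)
          _ = _ := by ring
    _ = δ * ((∑ i, l i) * ∑ i, l i * η i ^ 2) := by
        simp only [← Finset.mul_sum]
        congr 1
        have e1 : ∑ i, ∑ j, l i * l j * ((η i ^ 2 + η j ^ 2) / 2) =
            (∑ i, ∑ j, l i * (l j * η j ^ 2)) / 2 + (∑ i, ∑ j, (l i * η i ^ 2) * l j) / 2 := by
          rw [← add_div, ← Finset.sum_add_distrib, Finset.sum_div]
          refine Finset.sum_congr rfl fun i _ => ?_
          rw [← Finset.sum_add_distrib, Finset.sum_div]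
          refine Finset.sum_congr rfl fun j _ => ?_
          ring
        rw [e1, ← Finset.sum_mul_sum, ← Finset.sum_mul_sum]
        ring

/-- (P4) in the form `z_i = l_i β_i`. -/
theorem P4 (h : KHyp K K' σ γ) (l β : ι → ℝ) (hl : ∀ i, 0 ≤ l i) :
    4 * B K l (fun i => l i * β i) ^ 2 ≤ B K l l *
      (2 * B K (fun i => l i * β i) (fun i => l i * β i) +
        ∑ i, l i * β i ^ 2 * ∑ k, l k * (K i k + K' i k)) := by
  have hKpos : ∀ i j, 0 < K i j := by
    intro i j
    have h1 := h.lo i j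
    have h2 := h.γ_ge
    by_contra hcon
    push Not at hcon
    linarith only [mul_nonneg (sub_nonneg.2 hcon) (le_of_lt (sub_pos.2 h.σ_pos)), mul_nonneg (mul_self_nonneg (1 : ℝ)) (sub_nonneg.2 h2), mul_nonneg (mul_self_nonneg (1 : ℝ)) (sub_nonneg.2 h1)]
  have hBB0 : 0 ≤ B K l l := Finset.sum_nonneg fun i _ => Finset.sum_nonneg fun j _ =>
    mul_nonneg (mul_nonneg (hl i) (hl j)) (hKpos i j).le
  rcases hBB0.eq_or_lt with h0 | hBB
  · -- all `l i = 0`
    have hz : ∀ i, l i = 0 := by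
      intro i
      have h1 : ∑ j, l i * l j * K i j = 0 := by
        have := (Finset.sum_eq_zero_iff_of_nonneg (fun i _ => Finset.sum_nonneg fun j _ =>
          mul_nonneg (mul_nonneg (hl i) (hl j)) (hKpos i j).le)).1 h0.symm i (Finset.mem_univ i)
        exact this
      have h2 := (Finset.sum_eq_zero_iff_of_nonneg (fun j _ =>
          mul_nonneg (mul_nonneg (hl i) (hl j)) (hKpos i j).le)).1 h1 i (Finset.mem_univ i)
      have h3 := hKpos i i
      rcases mul_eq_zero.1 h2 with h4 | h4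
      · exact mul_self_eq_zero.1 h4
      · exact absurd h4 h3.ne'
    have : B K l (fun i => l i * β i) = 0 := by
      simp only [B, hz, zero_mul, mul_zero, sum_const_zero]
    rw [this, ← h0]
    simp only [ne_eq, OfNat.ofNat_ne_zero, not_false_eq_true, zero_pow, mul_zero, zero_mul, Std.le_refl]
  set c : ℝ := B K l (fun i => l i * β i) / B K l l with hc
  set η : ι → ℝ := fun i => β i - c with hη
  have hcB : B K l (fun i => l i * β i) = c * B K l l := by
    rw [hc, div_mul_cancel₀ _ hBB.ne']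
  have hβ : (fun i => l i * β i) = fun i => c * l i + l i * η i := by
    funext i
    simp only [hη]
    ring
  have hlη : B K l (fun i => l i * η i) = 0 := by
    have h1 : B K l (fun i => l i * β i) = c * B K l l + B K l (fun i => l i * η i) := by
      rw [hβ, B_add_right, B_smul_right]
    linarith only [hcB, h1]
  have e1 : B K (fun i => l i * β i) (fun i => l i * β i) =
      c ^ 2 * B K l l + B K (fun i => l i * η i) (fun i => l i * η i) := by
    rw [hβ, B_add_right, B_add_left, B_add_left, B_smul_right, B_smul_right, B_smul_left,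
      B_smul_left, B_symm h.symm (fun i => l i * η i) l, hlη]
    ring
  have e2 : B K' (fun i => l i * β i) (fun i => l i * β i) =
      c ^ 2 * B K' l l + 2 * c * B K' l (fun i => l i * η i) +
        B K' (fun i => l i * η i) (fun i => l i * η i) := by
    rw [hβ, B_add_right, B_add_left, B_add_left, B_smul_right, B_smul_right, B_smul_left,
      B_smul_left, B_symm h.symm' (fun i => l i * η i) l]
    ring
  have e3 : ∑ i, l i * β i ^ 2 * ∑ k, l k * (K i k + K' i k) =
      c ^ 2 * (B K l l + B K' l l) + 2 * c * B K' l (fun i => l i * η i) +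
        ∑ i, l i * η i ^ 2 * ∑ k, l k * (K i k + K' i k) := by
    have a1 : ∑ i, l i * ∑ k, l k * (K i k + K' i k) = B K l l + B K' l l := by
      rw [B_eq_sum_left, B_eq_sum_left, ← Finset.sum_add_distrib]
      refine Finset.sum_congr rfl fun i _ => ?_
      rw [← mul_add, ← Finset.sum_add_distrib]
      congr 1
      refine Finset.sum_congr rfl fun k _ => ?_
      ring
    have a2 : ∑ i, l i * η i * ∑ k, l k * (K i k + K' i k) = B K' l (fun i => l i * η i) := by
      have : B K (fun i => l i * η i) l + B K' (fun i => l i * η i) l =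
          B K' l (fun i => l i * η i) := by
        rw [B_symm h.symm (fun i => l i * η i) l, hlη, B_symm h.symm' (fun i => l i * η i) l,
          zero_add]
      rw [← this, B_eq_sum_left, B_eq_sum_left, ← Finset.sum_add_distrib]
      refine Finset.sum_congr rfl fun i _ => ?_
      rw [← mul_add, ← Finset.sum_add_distrib]
      congr 1
      refine Finset.sum_congr rfl fun k _ => ?_
      ring
    rw [← a1, ← a2, Finset.mul_sum, Finset.mul_sum, ← Finset.sum_add_distrib,
      ← Finset.sum_add_distrib]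
    refine Finset.sum_congr rfl fun i _ => ?_
    simp only [hη]
    ring
  -- the residual form
  have hσ := h.σ_pos
  have hres : 0 ≤ 3 * B K (fun i => l i * η i) (fun i => l i * η i) -
      B K' (fun i => l i * η i) (fun i => l i * η i) +
        ∑ i, l i * η i ^ 2 * ∑ k, l k * (K i k + K' i k) := by
    have b1 := abs_form_le (fun i j => 3 * (σ * K i j) - σ * K' i j - (1 + γ)) (2 * (1 - γ)) l η hl
      (by
        intro i j
        have := h.lo i j
        have := h.hi i j
        have := h.lo' i j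
        have := h.hi' i j
        rw [abs_le]
        constructor <;> linarith)
    have b2 : ∑ i, ∑ j, (l i * η i) * (l j * η j) * (3 * (σ * K i j) - σ * K' i j - (1 + γ)) =
        σ * (3 * B K (fun i => l i * η i) (fun i => l i * η i) -
          B K' (fun i => l i * η i) (fun i => l i * η i)) - (1 + γ) * (∑ i, l i * η i) ^ 2 := by
      rw [sq, Finset.sum_mul_sum]
      simp only [B, mul_sum, ← sum_sub_distrib]
      refine Finset.sum_congr rfl fun i _ => Finset.sum_congr rfl fun j _ => ?_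
      ring
    have b3 : (1 + γ) * ((∑ i, l i) * ∑ i, l i * η i ^ 2) ≤
        σ * ∑ i, l i * η i ^ 2 * ∑ k, l k * (K i k + K' i k) := by
      rw [mul_comm (∑ i, l i), Finset.sum_mul_sum]
      simp only [mul_sum]
      refine Finset.sum_le_sum fun i _ => Finset.sum_le_sum fun k _ => ?_
      have h1 : 0 ≤ l i * η i ^ 2 * l k := mul_nonneg (mul_nonneg (hl i) (sq_nonneg _)) (hl k)
      have h2 := h.sum_ge i k
      linarith only [mul_nonneg (sub_nonneg.2 h1) (sub_nonneg.2 h2)]
    rw [b2] at b1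
    have b4 := (abs_le.1 b1).1
    have b5 : 0 ≤ (∑ i, l i) * ∑ i, l i * η i ^ 2 :=
      mul_nonneg (Finset.sum_nonneg fun i _ => hl i)
        (Finset.sum_nonneg fun i _ => mul_nonneg (hl i) (sq_nonneg _))
    have b6 : 0 ≤ (1 + γ) * (∑ i, l i * η i) ^ 2 :=
      mul_nonneg (by linarith only [h.γ_ge]) (sq_nonneg _)
    have b7 : 0 ≤ (3 * γ - 1) * ((∑ i, l i) * ∑ i, l i * η i ^ 2) :=
      mul_nonneg (by linarith only [h.γ_ge]) b5
    have b8 : 0 ≤ σ * (3 * B K (fun i => l i * η i) (fun i => l i * η i) -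
      B K' (fun i => l i * η i) (fun i => l i * η i) +
        ∑ i, l i * η i ^ 2 * ∑ k, l k * (K i k + K' i k)) := by
      linarith only [b7, b6, b4, b3]
    exact nonneg_of_mul_nonneg_right b8 hσ
  have hpsd := h.psd (fun i => l i * β i)
  rw [e1, e2] at hpsd
  rw [hcB, e1, e3]
  have hfin : 4 * (c ^ 2 * B K l l) ≤
      2 * (c ^ 2 * B K l l + B K (fun i => l i * η i) (fun i => l i * η i)) +
        (c ^ 2 * (B K l l + B K' l l) + 2 * c * B K' l (fun i => l i * η i) +
        ∑ i, l i * η i ^ 2 * ∑ k, l k * (K i k + K' i k)) := by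
    linarith only [hres, hpsd]
  calc 4 * (c * B K l l) ^ 2 = B K l l * (4 * (c ^ 2 * B K l l)) := by ring
    _ ≤ _ := mul_le_mul_of_nonneg_left hfin hBB.le

/-- core of (P5). -/
theorem P5core (h : KHyp K K' σ γ) (l δ r : ι → ℝ) (hl : ∀ i, 0 ≤ l i) (hBB : 0 < B K l l)
    (hr : ∀ i, 0 < r i) (hw : ∀ i, 0 < l i → ∑ k, l k * (K i k + K' i k) ≤ 2 * r i) :
    B K δ δ + ∑ i, l i * (∑ j, δ j * K i j) ^ 2 / r i ≤ 2 * B K l δ ^ 2 / B K l l := by
  set g : ι → ℝ := fun i => ∑ j, δ j * K i j with hg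
  set β : ι → ℝ := fun i => g i / r i with hβ
  set z : ι → ℝ := fun i => l i * β i with hz
  have e2 : B K z δ = ∑ i, l i * g i ^ 2 / r i := by
    rw [B_eq_sum_left]
    refine Finset.sum_congr rfl fun i _ => ?_
    simp only [hz, hβ]
    change l i * (g i / r i) * g i = _
    ring
  have h4 := P4 h l β hl
  have h5 : ∑ i, l i * β i ^ 2 * ∑ k, l k * (K i k + K' i k) ≤ 2 * ∑ i, l i * g i ^ 2 / r i := by
    rw [Finset.mul_sum]
    refine Finset.sum_le_sum fun i _ => ?_
    rcases (hl i).eq_or_lt with h0 | h0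
    · rw [← h0]; simp only [zero_mul, zero_div, mul_zero, Std.le_refl]
    have h1 := hw i h0
    have h2 := hr i
    calc l i * β i ^ 2 * ∑ k, l k * (K i k + K' i k) ≤ l i * β i ^ 2 * (2 * r i) :=
          mul_le_mul_of_nonneg_left h1 (mul_nonneg (hl i) (sq_nonneg _))
      _ = 2 * (l i * g i ^ 2 / r i) := by
          simp only [hβ]
          (clear * - h2 h0; field_simp)
  have h6 := h.lor l (fun i => δ i + z i) hBB
  rw [B_add_right, B_add_right, B_add_left, B_add_left, B_symm h.symm δ z, e2] at h6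
  change 4 * B K l z ^ 2 ≤ B K l l * (2 * B K z z +
    ∑ i, l i * β i ^ 2 * ∑ k, l k * (K i k + K' i k)) at h4
  set S := ∑ i, l i * g i ^ 2 / r i with hS
  set BB := B K l l with hBBdef
  have h7 : (B K l δ + B K l z) ^ 2 ≤ 2 * B K l δ ^ 2 + 2 * B K l z ^ 2 := by
    linarith only [sq_nonneg (B K l δ - B K l z)]
  have h8 : 4 * B K l z ^ 2 ≤ BB * (2 * B K z z + 2 * S) :=
    h4.trans (mul_le_mul_of_nonneg_left (by linarith only [h5]) hBB.le)
  have h9 : BB * (B K δ δ + S) ≤ 2 * B K l δ ^ 2 := by linarith only [h8, h7, h6]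
  rw [le_div_iff₀ hBB]
  linarith only [h6, h7, h8]

/-- (P5), the local inequality. -/
theorem P5 (h : KHyp K K' σ γ) (l l' r : ι → ℝ) (hl : ∀ i, 0 ≤ l i) (hBB : 0 < B K l l)
    (hr : ∀ i, 0 < r i) (hw : ∀ i, 0 < l i → ∑ k, l k * (K i k + K' i k) ≤ 2 * r i) :
    B K l' l' ≤ B K l l + 2 * B K l (fun i => l' i - l i) +
      2 * B K l (fun i => l' i - l i) ^ 2 / B K l l -
        ∑ i, l i * (∑ j, (l' j - l j) * K i j) ^ 2 / r i := by
  set δ : ι → ℝ := fun i => l' i - l i with hδ
  have e0 : l' = fun i => l i + δ i := by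
    funext i
    simp only [hδ]
    ring
  have e1 : B K l' l' = B K l l + 2 * B K l δ + B K δ δ := by
    rw [e0, B_add_left, B_add_right, B_add_right, B_symm h.symm δ l]
    ring
  have := P5core h l δ r hl hBB hr hw
  rw [e1]
  linarith

/-- scaling of the kernels -/
theorem KHyp.scale (h : KHyp K K' σ γ) :
    KHyp (fun i j => σ * K i j) (fun i j => σ * K' i j) 1 γ := by
  have hB : ∀ (L : ι → ι → ℝ) (x y : ι → ℝ), B (fun i j => σ * L i j) x y = σ * B L x y := by
    intro L x y
    simp only [B, mul_sum]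
    refine Finset.sum_congr rfl fun i _ => Finset.sum_congr rfl fun j _ => ?_
    ring
  refine ⟨one_pos, h.γ_ge, h.γ_le, fun i j => by rw [h.symm i j], fun i j => by rw [h.symm' i j],
    fun i j => by rw [one_mul]; exact h.lo i j, fun i j => by rw [one_mul]; exact h.hi i j,
    fun i j => by rw [one_mul]; exact h.lo' i j, fun i j => by rw [one_mul]; exact h.hi' i j,
    fun i j => by rw [one_mul, one_mul]; exact h.sum_ge i j, ?_, ?_⟩
  · intro x
    rw [hB, hB]
    exact mul_le_mul_of_nonneg_left (h.psd x) h.σ_pos.le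
  · intro l z hl
    rw [hB] at hl
    have hl' : 0 < B K l l := by
      by_contra hcon
      push Not at hcon
      linarith only [mul_nonneg (sub_nonneg.2 hcon) (le_of_lt (sub_pos.2 h.σ_pos)), hl]
    rw [hB, hB, hB]
    have := h.lor l z hl'
    calc σ * B K l l * (σ * B K z z) = σ ^ 2 * (B K l l * B K z z) := by ring
      _ ≤ σ ^ 2 * B K l z ^ 2 := mul_le_mul_of_nonneg_left this (sq_nonneg _)
      _ = _ := by ring

end Vale.Agent.P227.C2
end

section

/-! P227, C2: the kernel `kap` (mixed areas of rotated regular `m`-gons, `b = π/m`). -/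

open Finset Real

namespace Vale.Agent.P227.C2

/-- `kap b d = cos (b - d) / (2 sin b)` on `[0, 2b]`, extended with period `2b`. -/
noncomputable def kap (b d : ℝ) : ℝ := cos (b * (1 - 2 * Int.fract (d / (2 * b)))) / (2 * sin b)

theorem kap_add_int {b : ℝ} (hb : 0 < b) (d : ℝ) (n : ℤ) : kap b (d + 2 * b * n) = kap b d := by
  unfold kap
  have : (d + 2 * b * n) / (2 * b) = d / (2 * b) + n := by (clear * - hb; field_simp)
  rw [this, Int.fract_add_intCast]

theorem kap_add_period {b : ℝ} (hb : 0 < b) (d : ℝ) : kap b (d + 2 * b) = kap b d := by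
  simpa using kap_add_int hb d 1

theorem kap_of_mem {b d : ℝ} (hb : 0 < b) (h0 : 0 ≤ d) (h1 : d ≤ 2 * b) :
    kap b d = cos (b - d) / (2 * sin b) := by
  rcases h1.eq_or_lt with h | h
  · subst h
    unfold kap
    rw [div_self (by (clear * - hb; positivity))]
    have : Int.fract (1 : ℝ) = 0 := Int.fract_one
    rw [this]
    congr 1
    rw [show b - 2 * b = -b by ring, cos_neg]
    congr 1
    ring
  · unfold kap
    have : Int.fract (d / (2 * b)) = d / (2 * b) := by
      rw [Int.fract_eq_self]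
      exact ⟨by positivity, by rw [div_lt_one (by positivity)]; exact h⟩
    rw [this]
    congr 2
    (clear * - hb; field_simp)

theorem kap_neg {b : ℝ} (hb : 0 < b) (d : ℝ) : kap b (-d) = kap b d := by
  have key : ∀ t : ℝ, 0 ≤ t → t < 2 * b → kap b (-t) = kap b t := by
    intro t h0 h1
    rw [← kap_add_period hb (-t), kap_of_mem hb (by linarith only [h1]) (by linarith only [h0]),
      kap_of_mem hb h0 h1.le, show b - (-t + 2 * b) = -(b - t) by ring, cos_neg]
  set n : ℤ := ⌊d / (2 * b)⌋ with hn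
  set t : ℝ := d - 2 * b * n with ht
  have ht' : t = 2 * b * Int.fract (d / (2 * b)) := by
    rw [ht, Int.fract, ← hn]
    (clear * - hb; field_simp)
  have h0 : 0 ≤ t := by rw [ht']; have := Int.fract_nonneg (d / (2 * b)); (clear * - hb; positivity)
  have h1 : t < 2 * b := by
    rw [ht']
    have := Int.fract_lt_one (d / (2 * b))
    nlinarith only [hb, this]
  have e1 : d = t + 2 * b * n := by rw [ht]; ring
  have e2 : -d = -t + 2 * b * ((-n : ℤ) : ℝ) := by rw [e1]; push_cast; ring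
  rw [e2, kap_add_int hb, key t h0 h1]
  conv_rhs => rw [e1, kap_add_int hb]

theorem kap_abs {b d : ℝ} (hb : 0 < b) (h : |d| ≤ 2 * b) :
    kap b d = cos (b - |d|) / (2 * sin b) := by
  rcases le_total 0 d with h0 | h0
  · rw [abs_of_nonneg h0] at h ⊢
    exact kap_of_mem hb h0 h
  · rw [abs_of_nonpos h0] at h ⊢
    rw [← kap_neg hb d]
    exact kap_of_mem hb (by linarith only [h0]) h

/-- difference kernel -/
noncomputable def kd (b d : ℝ) : ℝ := kap b (d + b) - kap b d

theorem kd_add {b : ℝ} (hb : 0 < b) (d : ℝ) : kd b (d + b) = -kd b d := by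
  unfold kd
  rw [show d + b + b = d + 2 * b by ring, kap_add_period hb]
  ring

theorem kd_add_nat {b : ℝ} (hb : 0 < b) (d : ℝ) (n : ℕ) :
    kd b (d + b * n) = (-1 : ℝ) ^ n * kd b d := by
  induction n with
  | zero => simp
  | succ n ih =>
    rw [show d + b * ((n + 1 : ℕ) : ℝ) = (d + b * n) + b by push_cast; ring, kd_add hb, ih,
      pow_succ]
    ring

theorem kd_add_int {b : ℝ} (hb : 0 < b) (d : ℝ) (n : ℤ) :
    kd b (d + b * n) = (-1 : ℝ) ^ n * kd b d := by
  rcases n.eq_nat_or_neg with ⟨k, rfl | rfl⟩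
  · simpa only [Int.cast_natCast, zpow_natCast] using kd_add_nat hb d k
  · have h := kd_add_nat hb (d + b * ((-(k : ℤ) : ℤ) : ℝ)) k
    have e : d + b * ((-(k : ℤ) : ℤ) : ℝ) + b * (k : ℝ) = d := by push_cast; ring
    rw [e] at h
    rw [h, zpow_neg, zpow_natCast, ← mul_assoc, inv_mul_cancel₀ (by simp only [ne_eq, pow_eq_zero_iff', neg_eq_zero, one_ne_zero, false_and, not_false_eq_true]), one_mul]

theorem kd_abs {b d : ℝ} (hb : 0 < b) (h : |d| ≤ b) :
    kd b d = (cos d - cos (b - |d|)) / (2 * sin b) := by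
  have h' := abs_le.1 h
  unfold kd
  rw [kap_abs hb (by linarith : |d| ≤ 2 * b), kap_of_mem hb (by linarith only [h']) (by linarith),
    show b - (d + b) = -d by ring, cos_neg]
  ring

/-- (K1) -/
theorem kd_eq {b s t : ℝ} (hb : 0 < b) (hb' : b < π) (hs : 0 ≤ s ∧ s ≤ b) (ht : 0 ≤ t ∧ t ≤ b) :
    sin b * kd b (s - t) = sin (min s t) * sin (b - max s t) +
      sin (b / 2 - s) * sin (b / 2 - t) := by
  have hsb : 0 < sin b := sin_pos_of_pos_of_lt_pi hb hb'
  have key : ∀ s t : ℝ, 0 ≤ s → s ≤ b → 0 ≤ t → t ≤ b → t ≤ s →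
      sin b * kd b (s - t) = sin t * sin (b - s) + sin (b / 2 - s) * sin (b / 2 - t) := by
    intro s t h1 h2 h3 h4 h5
    have habs : |s - t| = s - t := abs_of_nonneg (by (clear * - h5; linarith))
    rw [kd_abs hb (by rw [habs]; linarith only [h2, h3]), habs]
    have e1 : sin b * ((cos (s - t) - cos (b - (s - t))) / (2 * sin b)) =
        (cos (s - t) - cos (b - (s - t))) / 2 := by (clear * - hsb; field_simp)
    rw [e1]
    have e2 : 2 * (sin t * sin (b - s)) = cos (b - s - t) - cos (b - (s - t)) := by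
      rw [show b - (s - t) = (b - s) + t by ring, cos_add, cos_sub]
      ring
    have e3 : 2 * (sin (b / 2 - s) * sin (b / 2 - t)) = cos (s - t) - cos (b - s - t) := by
      rw [show s - t = (b / 2 - t) - (b / 2 - s) by ring,
        show b - s - t = (b / 2 - t) + (b / 2 - s) by ring, cos_add, cos_sub]
      ring
    linarith only [e2, e3]
  rcases le_total t s with h | h
  · rw [min_eq_right h, max_eq_left h]
    exact key s t hs.1 hs.2 ht.1 ht.2 h
  · rw [min_eq_left h, max_eq_right h]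
    have := key t s ht.1 ht.2 hs.1 hs.2 h
    have e : kd b (s - t) = kd b (t - s) := by
      rw [kd_abs hb (by rw [abs_le]; constructor <;> linarith only [hs, ht]),
        kd_abs hb (by rw [abs_le]; constructor <;> linarith only [hs, ht]),
        abs_sub_comm, show s - t = -(t - s) by ring, cos_neg]
    rw [e, this]
    ring

/-- (K2) -/
theorem kap_eq {b s t : ℝ} (hb : 0 < b) (hb' : b < π / 2) (hs : 0 ≤ s ∧ s ≤ 2 * b)
    (ht : 0 ≤ t ∧ t ≤ 2 * b) :
    sin (2 * b) * kap b (s - t) = cos (b - s) * cos (b - t) -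
      sin (min s t) * sin (2 * b - max s t) := by
  have hsb : 0 < sin b := sin_pos_of_pos_of_lt_pi hb (by linarith [pi_pos])
  have key : ∀ s t : ℝ, 0 ≤ s → s ≤ 2 * b → 0 ≤ t → t ≤ 2 * b → t ≤ s →
      sin (2 * b) * kap b (s - t) = cos (b - s) * cos (b - t) - sin t * sin (2 * b - s) := by
    intro s t h1 h2 h3 h4 h5
    rw [kap_of_mem hb (by linarith only [h5]) (by linarith only [h2, h3]), sin_two_mul]
    have e1 : 2 * sin b * cos b * (cos (b - (s - t)) / (2 * sin b)) =
        cos b * cos (b - (s - t)) := by field_simp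
    rw [e1]
    have e2 : 2 * (cos b * cos (b - (s - t))) = cos (2 * b - (s - t)) + cos (s - t) := by
      rw [show 2 * b - (s - t) = b + (b - (s - t)) by ring,
        show cos (s - t) = cos (b - (b - (s - t))) by congr 1; ring, cos_add,
        cos_sub b (b - (s - t))]
      ring
    have e3 : 2 * (cos (b - s) * cos (b - t)) = cos (2 * b - s - t) + cos (s - t) := by
      rw [show s - t = (b - t) - (b - s) by ring,
        show 2 * b - s - t = (b - t) + (b - s) by ring, cos_add, cos_sub (b - t) (b - s)]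
      ring
    have e4 : 2 * (sin t * sin (2 * b - s)) = cos (2 * b - s - t) - cos (2 * b - (s - t)) := by
      rw [show 2 * b - (s - t) = (2 * b - s) + t by ring, cos_add, cos_sub]
      ring
    linarith only [e2, e3, e4]
  rcases le_total t s with h | h
  · rw [min_eq_right h, max_eq_left h]
    exact key s t hs.1 hs.2 ht.1 ht.2 h
  · rw [min_eq_left h, max_eq_right h]
    have := key t s ht.1 ht.2 hs.1 hs.2 h
    rw [show s - t = -(t - s) by ring, kap_neg hb, this]
    ring

variable {ι : Type*} [Fintype ι]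

/-- The kernels `kap (θ_i - θ_j)` and `kap (θ_i - θ_j + b)` satisfy `KHyp`. -/
theorem kHyp_kap {b : ℝ} (hb : 0 < b) (hb' : b ≤ π / 3) (θ : ι → ℝ) :
    KHyp (fun i j => kap b (θ i - θ j)) (fun i j => kap b (θ i - θ j + b)) (2 * sin b)
      (cos b) := by
  have hpi := pi_pos
  have hsb : 0 < sin b := sin_pos_of_pos_of_lt_pi hb (by linarith)
  have hs2b : 0 < sin (2 * b) := sin_pos_of_pos_of_lt_pi (by linarith only [hb]) (by linarith only [hb, hb'])
  have hcos : (1 : ℝ) / 2 ≤ cos b := by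
    rw [← cos_pi_div_three]
    exact cos_le_cos_of_nonneg_of_le_pi hb.le (by linarith only [hb, hb']) hb'
  have hlo : ∀ d, cos b ≤ 2 * sin b * kap b d := by
    intro d
    unfold kap
    rw [mul_div_cancel₀ _ (by positivity)]
    have h0 := Int.fract_nonneg (d / (2 * b))
    have h1 := (Int.fract_lt_one (d / (2 * b))).le
    rw [← cos_abs (b * _)]
    apply cos_le_cos_of_nonneg_of_le_pi (abs_nonneg _) (by linarith only [hb, hb'])
    rw [abs_le]
    constructor <;> nlinarith only [hb, h0, h1]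
  have hhi : ∀ d, 2 * sin b * kap b d ≤ 1 := by
    intro d
    unfold kap
    rw [mul_div_cancel₀ _ (by positivity)]
    exact cos_le_one _
  refine ⟨by positivity, by linarith only [hcos], cos_le_one _, ?_, ?_, fun i j => hlo _, fun i j => hhi _,
    fun i j => hlo _, fun i j => hhi _, ?_, ?_, ?_⟩
  · intro i j
    rw [← kap_neg hb]
    congr 1
    ring
  · intro i j
    rw [← kap_neg hb, ← kap_add_period hb]
    congr 1
    ring
  · -- sum_ge
    intro i j
    set d := θ i - θ j with hd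
    set n : ℤ := ⌊d / b⌋ with hn
    set t : ℝ := d - b * n with ht
    have ht' : t = b * Int.fract (d / b) := by
      rw [ht, Int.fract, ← hn]
      (clear * - hb; field_simp)
    have h0 : 0 ≤ t := by rw [ht']; have := Int.fract_nonneg (d / b); (clear * - hb; positivity)
    have h1 : t ≤ b := by
      rw [ht']
      have := Int.fract_lt_one (d / b)
      nlinarith only [hb, this]
    have hsum : ∀ t : ℝ, 0 ≤ t → t ≤ b → 1 + cos b ≤
        2 * sin b * kap b t + 2 * sin b * kap b (t + b) := by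
      intro t h0 h1
      rw [kap_of_mem hb h0 (by linarith only [hb, h1]), kap_of_mem hb (by linarith only [hb, h0]) (by linarith only [h1]),
        mul_div_cancel₀ _ (by positivity), mul_div_cancel₀ _ (by positivity),
        show b - (t + b) = -t by ring, cos_neg]
      have e1 : cos (b - t) + cos t = 2 * cos (b / 2) * cos (b / 2 - t) := by
        rw [show b - t = b / 2 + (b / 2 - t) by ring,
          show cos t = cos (b / 2 - (b / 2 - t)) by congr 1; ring, cos_add, cos_sub (b / 2) (b / 2 - t)]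
        ring
      have e2 : 1 + cos b = 2 * cos (b / 2) * cos (b / 2) := by
        have := cos_sq (b / 2)
        rw [show 2 * (b / 2) = b by ring] at this
        nlinarith only [this]
      have h2 : cos (b / 2) ≤ cos (b / 2 - t) := by
        rw [← cos_abs (b / 2 - t)]
        apply cos_le_cos_of_nonneg_of_le_pi (abs_nonneg _) (by linarith only [hb, hb'])
        rw [abs_le]
        constructor <;> linarith only [h0, h1]
      have h3 : 0 ≤ cos (b / 2) := cos_nonneg_of_mem_Icc ⟨by linarith only [hb, hb'], by linarith only [hb, hb']⟩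
      rw [e1, e2]
      nlinarith only [h2, h3]
    -- the sum is `b`-periodic
    have hper : ∀ x : ℝ, kap b (x + b) + kap b (x + b + b) = kap b x + kap b (x + b) := by
      intro x
      rw [show x + b + b = x + 2 * b by ring, kap_add_period hb]
      ring
    have hpern : ∀ (k : ℕ) (x : ℝ), kap b (x + b * k) + kap b (x + b * k + b) =
        kap b x + kap b (x + b) := by
      intro k
      induction k with
      | zero => intro x; simp
      | succ k ih =>
        intro x
        rw [← ih x, ← hper (x + b * k)]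
        congr 2 <;> (push_cast; ring)
    have hperz : kap b d + kap b (d + b) = kap b t + kap b (t + b) := by
      rcases n.eq_nat_or_neg with ⟨k, hk | hk⟩
      · have e : d = t + b * (k : ℝ) := by
          rw [ht, hk]
          push_cast
          ring
        rw [e]
        exact hpern k t
      · have e : t = d + b * (k : ℝ) := by
          rw [ht, hk]
          push_cast
          ring
        rw [e]
        exact (hpern k d).symm
    have := hsum t h0 h1
    linarith only [mul_eq_zero_of_left (sub_eq_zero.2 hperz) (sin b - (0)), this]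
  · -- psd
    intro x
    have e0 : ∀ i, θ i = b * Int.fract (θ i / b) + b * (⌊θ i / b⌋ : ℝ) := by
      intro i
      rw [Int.fract]
      field_simp
      ring
    set s : ι → ℝ := fun i => b * Int.fract (θ i / b) with hs
    set n : ι → ℤ := fun i => ⌊θ i / b⌋ with hn
    have hs0 : ∀ i, 0 ≤ s i ∧ s i < b := by
      intro i
      have h0 := Int.fract_nonneg (θ i / b)
      have h1 := Int.fract_lt_one (θ i / b)
      simp only [hs]
      exact ⟨by (clear * - hb; positivity), by nlinarith only [hb, h1]⟩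
    have hk : ∀ i j, kap b (θ i - θ j + b) - kap b (θ i - θ j) =
        (-1 : ℝ) ^ (n i) * (-1 : ℝ) ^ (n j) * kd b (s i - s j) := by
      intro i j
      change kd b (θ i - θ j) = _
      have : θ i - θ j = (s i - s j) + b * ((n i - n j : ℤ) : ℝ) := by
        rw [e0 i, e0 j]
        push_cast
        ring
      rw [this, kd_add_int hb, zpow_sub₀ (by norm_num), div_eq_mul_inv]
      congr 2
      rcases Int.even_or_odd (n j) with h | h
      · rw [h.neg_one_zpow]; simp
      · rw [h.neg_one_zpow]; norm_num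
    have h1 := psd_green (c := b) hb (by linarith only [hb, hb']) (fun i => x i * (-1 : ℝ) ^ (n i)) s hs0
    have h2 : 0 ≤ (∑ i, x i * (-1 : ℝ) ^ (n i) * sin (b / 2 - s i)) ^ 2 := sq_nonneg _
    rw [sq, Finset.sum_mul_sum] at h2
    have h3 : 0 ≤ sin b * (B (fun i j => kap b (θ i - θ j + b)) x x -
        B (fun i j => kap b (θ i - θ j)) x x) := by
      calc (0 : ℝ) ≤ _ := add_nonneg h1 h2
        _ = _ := by
          simp only [← sum_add_distrib, B, ← sum_sub_distrib, mul_sum]
          refine Finset.sum_congr rfl fun i _ => Finset.sum_congr rfl fun j _ => ?_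
          rw [← mul_sub, hk i j]
          have := kd_eq hb (by linarith only [hb, hb']) ⟨(hs0 i).1, (hs0 i).2.le⟩ ⟨(hs0 j).1, (hs0 j).2.le⟩
          calc _ = (x i * (-1 : ℝ) ^ (n i)) * (x j * (-1 : ℝ) ^ (n j)) *
                (sin (min (s i) (s j)) * sin (b - max (s i) (s j)) +
                  sin (b / 2 - s i) * sin (b / 2 - s j)) := by ring
            _ = _ := by rw [← this]; ring
    have := nonneg_of_mul_nonneg_right h3 hsb
    linarith only [this]
  · -- lorentzian
    intro l z hBB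
    have e0 : ∀ i, θ i = 2 * b * Int.fract (θ i / (2 * b)) + 2 * b * (⌊θ i / (2 * b)⌋ : ℝ) := by
      intro i
      rw [Int.fract]
      field_simp
      ring
    set s : ι → ℝ := fun i => 2 * b * Int.fract (θ i / (2 * b)) with hs
    set n : ι → ℤ := fun i => ⌊θ i / (2 * b)⌋ with hn
    have hs0 : ∀ i, 0 ≤ s i ∧ s i < 2 * b := by
      intro i
      have h0 := Int.fract_nonneg (θ i / (2 * b))
      have h1 := Int.fract_lt_one (θ i / (2 * b))
      simp only [hs]
      exact ⟨by (clear * - hb; positivity), by nlinarith only [hb, h1]⟩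
    have hk : ∀ i j, kap b (θ i - θ j) = kap b (s i - s j) := by
      intro i j
      have : θ i - θ j = (s i - s j) + 2 * b * ((n i - n j : ℤ) : ℝ) := by
        rw [e0 i, e0 j]
        push_cast
        ring
      rw [this, kap_add_int hb]
    set K : ι → ι → ℝ := fun i j => kap b (θ i - θ j) with hK
    -- `sin (2b) B y y ≤ (∑ y_i cos (b - s_i))²`
    have hneg : ∀ y : ι → ℝ, sin (2 * b) * B K y y ≤ (∑ i, y i * cos (b - s i)) ^ 2 := by
      intro y
      have h1 := psd_green (c := 2 * b) (by linarith only [hb]) (by linarith only [hb, hb']) y s hs0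
      have e1 : sin (2 * b) * B K y y = (∑ i, y i * cos (b - s i)) ^ 2 -
          ∑ i, ∑ j, y i * y j * (sin (min (s i) (s j)) * sin (2 * b - max (s i) (s j))) := by
        rw [sq, Finset.sum_mul_sum]
        simp only [B, Finset.mul_sum, ← Finset.sum_sub_distrib]
        refine Finset.sum_congr rfl fun i _ => Finset.sum_congr rfl fun j _ => ?_
        have h2 := kap_eq (s := s i) (t := s j) hb (by linarith only [hb, hb']) ⟨(hs0 i).1, (hs0 i).2.le⟩
          ⟨(hs0 j).1, (hs0 j).2.le⟩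
        simp only [hK, hk i j]
        calc sin (2 * b) * (y i * y j * kap b (s i - s j)) =
              y i * y j * (sin (2 * b) * kap b (s i - s j)) := by ring
          _ = _ := by rw [h2]; ring
      linarith only [h1, e1]
    set a := ∑ i, l i * cos (b - s i) with ha
    set c := ∑ i, z i * cos (b - s i) with hc
    have hsym : ∀ i j, K i j = K j i := by
      intro i j
      simp only [hK]
      rw [← kap_neg hb]
      congr 1
      ring
    have h1 := hneg l
    have ha2 : 0 < a ^ 2 := lt_of_lt_of_le (mul_pos hs2b hBB) h1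
    have h2 := hneg (fun i => c * l i + -a * z i)
    have e2 : ∑ i, (c * l i + -a * z i) * cos (b - s i) = 0 := by
      have : ∑ i, (c * l i + -a * z i) * cos (b - s i) = c * a + -a * c := by
        rw [ha, hc, Finset.mul_sum, Finset.mul_sum, ← Finset.sum_add_distrib]
        refine Finset.sum_congr rfl fun i _ => ?_
        ring
      rw [this]; ring
    rw [e2] at h2
    have e3 : B K (fun i => c * l i + -a * z i) (fun i => c * l i + -a * z i) =
        c ^ 2 * B K l l - 2 * a * c * B K l z + a ^ 2 * B K z z := by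
      rw [B_add_left (x := fun i => c * l i) (x' := fun i => -a * z i),
        B_add_right (y := fun i => c * l i) (y' := fun i => -a * z i),
        B_add_right (y := fun i => c * l i) (y' := fun i => -a * z i),
        B_smul_left, B_smul_left, B_smul_right, B_smul_left, B_smul_left, B_smul_right,
        B_smul_right, B_smul_right, B_symm hsym z l]
      ring
    rw [e3] at h2
    have h3 : c ^ 2 * B K l l - 2 * a * c * B K l z + a ^ 2 * B K z z ≤ 0 := by
      by_contra hcon
      push Not at hcon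
      have := mul_pos hs2b hcon
      linarith only [h2, this]
    have h4 : a ^ 2 * (B K l l * B K z z) ≤ a ^ 2 * B K l z ^ 2 := by
      linarith only [mul_nonneg (sub_nonneg.2 h3) (le_of_lt (sub_pos.2 hBB)), sq_nonneg (c * B K l l - a * B K l z)]
    exact le_of_mul_le_mul_left h4 ha2

end Vale.Agent.P227.C2
end

section
attribute [-instance] ProperSMul.toContinuousSMul IsTopologicalTorsor.toContinuousSMul IdemSemiring.toCanonicallyOrderedAdd IdemSemiring.toMulLeftMono IdemSemiring.toMulRightMono AddQuantale.instAddLeftMono AddQuantale.instAddRightMono Quantale.instMulLeftMono Quantale.instMulRightMono FiniteDimensional.rclike_to_real IsScalarTower.complexToReal FiniteDimensional.complexToReal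

/-!
# P227 / C2 : the planar second order inequality (helper930; proof helper275)
-/

open Finset Real MeasureTheory

namespace Vale.Agent.P227.C2


theorem ck_intCast {b : ℝ} {r : ℕ} [NeZero r] (hb : 0 < b) (hb' : b < π) (n : ℤ) :
    ck b r (n : ZMod (2 * r)) = 2 * sin b * kap b (b / r * n) := by
  have hr : (0 : ℝ) < r := by exact_mod_cast Nat.pos_of_ne_zero (NeZero.ne r)
  have hr' : (0 : ℤ) < 2 * r := by
    have : 0 < r := Nat.pos_of_ne_zero (NeZero.ne r)
    omega
  have hsb : 0 < sin b := sin_pos_of_pos_of_lt_pi hb hb'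
  have h1 : (((n : ZMod (2 * r)).val : ℤ)) = n % ((2 * r : ℕ) : ℤ) := ZMod.val_intCast n
  have h1' : (((n : ZMod (2 * r)).val : ℝ)) = ((n % (2 * r) : ℤ) : ℝ) := by
    have : (((n : ZMod (2 * r)).val : ℤ) : ℝ) = ((n % ((2 * r : ℕ) : ℤ) : ℤ) : ℝ) := by rw [h1]
    rw [← Int.cast_natCast, this]
    push_cast
    rfl
  have h2 : (n : ℝ) = ((n % (2 * r) : ℤ) : ℝ) + 2 * r * ((n / (2 * r) : ℤ) : ℝ) := by
    have := Int.emod_add_mul_ediv n (2 * r)
    have h3 : ((n % (2 * r) + 2 * r * (n / (2 * r)) : ℤ) : ℝ) = (n : ℝ) := by rw [this]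
    rw [← h3]
    push_cast
    ring
  have h3 : b / r * n = b / r * ((n % (2 * r) : ℤ) : ℝ) + 2 * b * ((n / (2 * r) : ℤ) : ℝ) := by
    rw [h2]
    (clear * - hr hb; field_simp)
  have h4 : 0 ≤ ((n % (2 * r) : ℤ) : ℝ) := by
    exact_mod_cast Int.emod_nonneg n hr'.ne'
  have h5 : ((n % (2 * r) : ℤ) : ℝ) ≤ 2 * r := by
    have := (Int.emod_lt_of_pos n hr').le
    exact_mod_cast this
  rw [h3, kap_add_int hb, kap_of_mem hb (by (clear * - hb hr h4; positivity)) (by
    rw [div_mul_eq_mul_div, div_le_iff₀ hr]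
    linarith only [mul_nonneg (le_of_lt (sub_pos.2 hb)) (sub_nonneg.2 h5)])]
  unfold ck
  rw [h1', mul_div_cancel₀ _ (by (clear * - hsb; positivity))]

theorem kHyp_ck {b : ℝ} {r : ℕ} [NeZero r] (hb0 : 0 < b) (hb3 : b ≤ π / 3) :
    KHyp (fun i j : ZMod (2 * r) => ck b r (i - j))
      (fun i j : ZMod (2 * r) => ck b r (i - j + r)) 1 (cos b) := by
  have hr : (0 : ℝ) < r := by exact_mod_cast Nat.pos_of_ne_zero (NeZero.ne r)
  have h := (kHyp_kap hb0 hb3 (fun i : ZMod (2 * r) => b / r * (i.val : ℝ))).scale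
  have hpi : b < π := by linarith [pi_pos]
  have e1 : ∀ i j : ZMod (2 * r), ck b r (i - j) =
      2 * sin b * kap b (b / r * (i.val : ℝ) - b / r * (j.val : ℝ)) := by
    intro i j
    have : i - j = (((i.val : ℤ) - (j.val : ℤ) : ℤ) : ZMod (2 * r)) := by
      push_cast
      rw [ZMod.natCast_zmod_val, ZMod.natCast_zmod_val]
    rw [this, ck_intCast hb0 hpi]
    congr 2
    push_cast
    ring
  have e2 : ∀ i j : ZMod (2 * r), ck b r (i - j + r) =
      2 * sin b * kap b (b / r * (i.val : ℝ) - b / r * (j.val : ℝ) + b) := by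
    intro i j
    have : i - j + r = (((i.val : ℤ) - (j.val : ℤ) + (r : ℤ) : ℤ) : ZMod (2 * r)) := by
      push_cast
      rw [ZMod.natCast_zmod_val, ZMod.natCast_zmod_val]
    rw [this, ck_intCast hb0 hpi]
    congr 2
    push_cast
    (clear * - hr hb0; field_simp)
  convert h using 1
  · funext i j
    exact e1 i j
  · funext i j
    exact e2 i j

/-- the Green identity -/
theorem cv_el {b : ℝ} {r : ℕ} [NeZero r] (hb0 : 0 < b) (hb' : b < π) (q : ZMod (2 * r) → ℝ)
    (i : ZMod (2 * r)) : cv b r (el b r q) i = 2 * sin b * sin (b / r) * q i := by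
  classical
  have hr0 : 0 < r := Nat.pos_of_ne_zero (NeZero.ne r)
  have hr : (0 : ℝ) < r := by exact_mod_cast hr0
  have hsb : 0 < sin b := sin_pos_of_pos_of_lt_pi hb0 hb'
  have hk : ∀ k : ZMod (2 * r), ck b r (k + 1) + ck b r (k - 1) - 2 * cos (b / r) * ck b r k =
      if k = 0 then 2 * sin b * sin (b / r) else 0 := by
    intro k
    have hkv : k = ((k.val : ℤ) : ZMod (2 * r)) := by
      push_cast
      rw [ZMod.natCast_zmod_val]
    have hlt : k.val < 2 * r := ZMod.val_lt k
    have hle : ((k.val : ℝ)) + 1 ≤ 2 * r := by exact_mod_cast hlt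
    have hv0 : (0 : ℝ) ≤ k.val := Nat.cast_nonneg _
    have a1 : ck b r (k + 1) = cos (b - b / r * (k.val + 1)) := by
      have : k + 1 = (((k.val : ℤ) + 1 : ℤ) : ZMod (2 * r)) := by
        conv_lhs => rw [hkv]
        push_cast
        rfl
      rw [this, ck_intCast hb0 hb', kap_of_mem hb0, mul_div_cancel₀ _ (by (clear * - hsb; positivity))]
      · push_cast; rfl
      · push_cast; (clear * - hb0 hr0; positivity)
      · push_cast
        rw [div_mul_eq_mul_div, div_le_iff₀ hr]
        (clear * - hb0 hle; linarith only [mul_nonneg (le_of_lt (sub_pos.2 hb0)) (sub_nonneg.2 hle)])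
    have a0 : ck b r k = cos (b - b / r * k.val) := rfl
    by_cases hk0 : k = 0
    · rw [if_pos hk0]
      have hval : k.val = 0 := by rw [hk0]; exact ZMod.val_zero
      have a2 : ck b r (k - 1) = cos (b - b / r) := by
        have : k - 1 = ((-1 : ℤ) : ZMod (2 * r)) := by
          rw [hk0]
          push_cast
          ring
        rw [this, ck_intCast hb0 hb']
        have : b / r * ((-1 : ℤ) : ℝ) = -(b / r) := by push_cast; ring
        rw [this, kap_neg hb0, kap_of_mem hb0 (by positivity), mul_div_cancel₀ _ (by positivity)]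
        rw [div_le_iff₀ hr]
        have : (1 : ℝ) ≤ r := by exact_mod_cast hr0
        nlinarith only [hb0, hle]
      rw [a1, a2, a0, hval]
      simp only [Nat.cast_zero, mul_zero, sub_zero, zero_add, mul_one]
      rw [cos_sub]
      ring
    · rw [if_neg hk0]
      have hval : 1 ≤ k.val := by
        rcases Nat.eq_zero_or_pos k.val with h | h
        · exact absurd ((ZMod.val_eq_zero k).1 h) hk0
        · exact h
      have hval' : (1 : ℝ) ≤ k.val := by exact_mod_cast hval
      have a2 : ck b r (k - 1) = cos (b - b / r * (k.val - 1)) := by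
        have : k - 1 = (((k.val : ℤ) - 1 : ℤ) : ZMod (2 * r)) := by
          conv_lhs => rw [hkv]
          push_cast
          rfl
        rw [this, ck_intCast hb0 hb', kap_of_mem hb0, mul_div_cancel₀ _ (by positivity)]
        · push_cast; rfl
        · push_cast
          apply mul_nonneg (by (clear * - hb0 hr0; positivity))
          linarith only [hval']
        · push_cast
          rw [div_mul_eq_mul_div, div_le_iff₀ hr]
          nlinarith only [hb0, hle]
      rw [a1, a2, a0]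
      have e1 : b - b / r * ((k.val : ℝ) + 1) = (b - b / r * k.val) - b / r := by ring
      have e2 : b - b / r * ((k.val : ℝ) - 1) = (b - b / r * k.val) + b / r := by ring
      rw [e1, e2, cos_sub (b - b / r * k.val), cos_add]
      ring
  have s1 : ∑ j, ck b r (i - j) * q (j + 1) = ∑ j, ck b r (i - j + 1) * q j := by
    rw [← Equiv.sum_comp (Equiv.addRight (1 : ZMod (2 * r))) (fun j => ck b r (i - j + 1) * q j)]
    refine Finset.sum_congr rfl fun j _ => ?_
    simp only [Equiv.coe_addRight]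
    congr 2
    ring
  have s2 : ∑ j, ck b r (i - j) * q (j - 1) = ∑ j, ck b r (i - j - 1) * q j := by
    rw [← Equiv.sum_comp (Equiv.subRight (1 : ZMod (2 * r))) (fun j => ck b r (i - j - 1) * q j)]
    refine Finset.sum_congr rfl fun j _ => ?_
    simp only [Equiv.subRight_apply]
    congr 2
    ring
  have s3 : cv b r (el b r q) i = ∑ j, ck b r (i - j) * q (j + 1) +
      ∑ j, ck b r (i - j) * q (j - 1) - ∑ j, 2 * cos (b / r) * ck b r (i - j) * q j := by
    unfold cv el
    rw [← Finset.sum_add_distrib, ← Finset.sum_sub_distrib]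
    refine Finset.sum_congr rfl fun j _ => ?_
    ring
  rw [s3, s1, s2, ← Finset.sum_add_distrib, ← Finset.sum_sub_distrib]
  have s4 : ∀ j, ck b r (i - j + 1) * q j + ck b r (i - j - 1) * q j -
      2 * cos (b / r) * ck b r (i - j) * q j =
      if j = i then 2 * sin b * sin (b / r) * q i else 0 := by
    intro j
    have := hk (i - j)
    have e : ck b r (i - j + 1) * q j + ck b r (i - j - 1) * q j -
      2 * cos (b / r) * ck b r (i - j) * q j =
      (ck b r (i - j + 1) + ck b r (i - j - 1) - 2 * cos (b / r) * ck b r (i - j)) * q j := by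
      ring
    rw [e, this]
    by_cases hij : j = i
    · subst hij
      simp
    · have : i - j ≠ 0 := fun h => hij (sub_eq_zero.1 h).symm
      rw [if_neg this, if_neg hij, zero_mul]
  rw [Finset.sum_congr rfl fun j _ => s4 j, Finset.sum_ite_eq' Finset.univ i]
  simp

/-- the second order inequality for rotation invariant polygons -/
theorem star {b : ℝ} {r : ℕ} [NeZero r] (hb0 : 0 < b) (hb3 : b ≤ π / 3)
    (f q : ZMod (2 * r) → ℝ) (hf : ∀ j, 0 < f j) (hl : ∀ j, 0 ≤ el b r f j) :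
    ∑ j, q j * el b r q j + ∑ j, el b r f j * (q j ^ 2 / ((f j + f (j + r)) / 2)) ≤
      2 * (∑ j, el b r f j * q j) ^ 2 / qa b r f := by
  have hr0 : 0 < r := Nat.pos_of_ne_zero (NeZero.ne r)
  have hr : (0 : ℝ) < r := by exact_mod_cast hr0
  have hr1 : (1 : ℝ) ≤ r := by exact_mod_cast hr0
  have hpi : b < π := by linarith only [hb0, hb3]
  have hsb : 0 < sin b := sin_pos_of_pos_of_lt_pi hb0 hpi
  have hsr : 0 < sin (b / r) := by
    apply sin_pos_of_pos_of_lt_pi (by positivity)
    have : b / r ≤ b := div_le_self hb0.le hr1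
    linarith only [this, hb3, hb0]
  set S : ℝ := 2 * sin b * sin (b / r) with hS
  have hS0 : 0 < S := by (clear * - hsb hsr; positivity)
  have hK := kHyp_ck (r := r) hb0 hb3
  set K : ZMod (2 * r) → ZMod (2 * r) → ℝ := fun i j => ck b r (i - j) with hKdef
  set K' : ZMod (2 * r) → ZMod (2 * r) → ℝ := fun i j => ck b r (i - j + r) with hKdef'
  have hcv : ∀ (x : ZMod (2 * r) → ℝ) i, ∑ j, x j * K i j = cv b r x i := by
    intro x i
    unfold cv
    refine Finset.sum_congr rfl fun j _ => ?_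
    simp only [hKdef]
    ring
  have hB : ∀ x y : ZMod (2 * r) → ℝ, B K x y = ∑ i, x i * cv b r y i := by
    intro x y
    rw [B_eq_sum_left]
    refine Finset.sum_congr rfl fun i _ => ?_
    rw [hcv]
  have hcvl : ∀ i, cv b r (el b r f) i = S * f i := fun i => cv_el hb0 hpi f i
  have hcvx : ∀ i, cv b r (el b r q) i = S * q i := fun i => cv_el hb0 hpi q i
  -- positivity of `B K l l`
  have hBll : B K (el b r f) (el b r f) = S * qa b r f := by
    rw [hB]
    unfold qa
    rw [Finset.mul_sum]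
    refine Finset.sum_congr rfl fun i _ => ?_
    rw [hcvl]
    ring
  have hqa : 0 < qa b r f := by
    unfold qa
    have hnn : ∀ j ∈ (Finset.univ : Finset (ZMod (2 * r))), 0 ≤ f j * el b r f j :=
      fun j _ => mul_nonneg (hf j).le (hl j)
    rcases (Finset.sum_nonneg hnn).eq_or_lt with h0 | h0
    · exfalso
      have hz : ∀ j, el b r f j = 0 := by
        intro j
        have := (Finset.sum_eq_zero_iff_of_nonneg hnn).1 h0.symm j (Finset.mem_univ j)
        rcases mul_eq_zero.1 this with h | h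
        · exact absurd h (hf j).ne'
        · exact h
      have h1 := hcvl 0
      have h2 : cv b r (el b r f) 0 = 0 := by
        unfold cv
        simp [hz]
      rw [h2] at h1
      have := mul_pos hS0 (hf 0)
      linarith only [h1, this]
    · exact h0
  have hBB : 0 < B K (el b r f) (el b r f) := by
    rw [hBll]
    (clear q hr hS K hKdef K' hK hKdef' hcv hB hcvx hBll; positivity)
  have hw : ∀ i, ∑ k, el b r f k * (K i k + K' i k) = 2 * (S * ((f i + f (i + r)) / 2)) := by
    intro i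
    have e1 : ∑ k, el b r f k * K' i k = S * f (i + r) := by
      rw [← hcvl (i + r), ← hcv]
      refine Finset.sum_congr rfl fun k _ => ?_
      simp only [hKdef, hKdef']
      congr 2
      ring
    have e2 : ∑ k, el b r f k * K i k = S * f i := by rw [hcv, hcvl]
    simp only [mul_add, Finset.sum_add_distrib]
    rw [e1, e2]
    ring
  have key := P5core hK (el b r f) (el b r q) (fun i => S * ((f i + f (i + r)) / 2)) hl hBB
    (fun i => by have := hf i; have := hf (i + r); (clear q hl hr hS hS0 K hKdef K' hK hKdef' hcv hB hcvl hcvx hBll hqa hBB hw; positivity)) (fun i _ => (hw i).le)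
  have e1 : B K (el b r q) (el b r q) = S * ∑ j, q j * el b r q j := by
    rw [hB, Finset.mul_sum]
    refine Finset.sum_congr rfl fun i _ => ?_
    rw [hcvx]
    ring
  have e2 : ∑ i, el b r f i * (∑ j, el b r q j * K i j) ^ 2 / (S * ((f i + f (i + r)) / 2)) =
      S * ∑ j, el b r f j * (q j ^ 2 / ((f j + f (j + r)) / 2)) := by
    rw [Finset.mul_sum]
    refine Finset.sum_congr rfl fun i _ => ?_
    rw [hcv, hcvx]
    have h1 : 0 < (f i + f (i + r)) / 2 := by
      have := hf i; have := hf (i + r); (clear b hb0 hb3 q hl hr0 hr hr1 hpi hsb hsr S hS hS0 K hKdef K' hK hKdef' hcv hB hcvl hcvx hBll hqa hBB hw key e1; positivity)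
    (clear * - hS0; field_simp)
  have e3 : B K (el b r f) (el b r q) = S * ∑ j, el b r f j * q j := by
    rw [hB, Finset.mul_sum]
    refine Finset.sum_congr rfl fun i _ => ?_
    rw [hcvx]
    ring
  rw [e1, e2, e3, hBll, ← mul_add] at key
  have e4 : 2 * (S * ∑ j, el b r f j * q j) ^ 2 / (S * qa b r f) =
      S * (2 * (∑ j, el b r f j * q j) ^ 2 / qa b r f) := by
    (clear hr hS K hKdef K' hK hKdef' hcv hB hcvx hBll hBB hw key e1 e2 e3; field_simp)
  rw [e4] at key
  exact le_of_mul_le_mul_left key hS0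

end Vale.Agent.P227.C2
end

section

/-!
# P227 / C2 : concavity of the logarithm of the area along logarithmic families (planar part)
-/

open Finset Real MeasureTheory

namespace Vale.Agent.P227.C2

/-- a function with these upper bounds lies above its chord -/
theorem chord {a p : ℝ → ℝ} {C : ℝ}
    (hp : ∀ t ∈ Set.Icc (0 : ℝ) 1, |p t| ≤ C)
    (h : ∀ s ∈ Set.Icc (0 : ℝ) 1, ∀ t ∈ Set.Icc (0 : ℝ) 1,
      a s ≤ a t + p t * (s - t) + C * |s - t| ^ 3) {t : ℝ} (ht0 : 0 ≤ t) (ht1 : t ≤ 1) :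
    (1 - t) * a 0 + t * a 1 ≤ a t := by
  have hC : 0 ≤ C := (abs_nonneg _).trans (hp 0 (by simp only [Set.mem_Icc, Std.le_refl, zero_le_one, and_self]))
  have hlip : ∀ s ∈ Set.Icc (0 : ℝ) 1, ∀ t ∈ Set.Icc (0 : ℝ) 1, a s - a t ≤ 2 * C * |s - t| := by
    intro s hs t ht
    have h1 := h s hs t ht
    have h2 : |s - t| ≤ 1 := by
      rw [abs_le]
      constructor <;> linarith only [hs.1, ht.2, hs.2, ht.1]
    have h3 : p t * (s - t) ≤ C * |s - t| := by
      calc p t * (s - t) ≤ |p t * (s - t)| := le_abs_self _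
        _ = |p t| * |s - t| := abs_mul _ _
        _ ≤ C * |s - t| := mul_le_mul_of_nonneg_right (hp t ht) (abs_nonneg _)
    have h4 : |s - t| ^ 3 ≤ |s - t| := by
      have := pow_le_of_le_one (abs_nonneg (s - t)) h2 (n := 3) (by norm_num)
      exact this
    have h5 := mul_le_mul_of_nonneg_left h4 hC
    linarith only [h1, h3, h5]
  have hcont : ContinuousOn a (Set.Icc 0 1) := by
    have : LipschitzOnWith (Real.toNNReal (2 * C)) a (Set.Icc 0 1) := by
      apply LipschitzOnWith.of_dist_le_mul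
      intro s hs t ht
      rw [Real.coe_toNNReal _ (by positivity), Real.dist_eq, Real.dist_eq, abs_le]
      have h1 := hlip s hs t ht
      have h2 := hlip t ht s hs
      rw [abs_sub_comm t s] at h2
      constructor <;> linarith
    exact this.continuousOn
  by_contra hneg
  push Not at hneg
  set η : ℝ := (1 - t) * a 0 + t * a 1 - a t with hη
  have hη0 : 0 < η := by linarith only [hneg]
  set c : ℝ → ℝ := fun s => a s - ((1 - s) * a 0 + s * a 1) + η * (s * (1 - s)) with hc
  have hcc : ContinuousOn c (Set.Icc 0 1) := by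
    apply ContinuousOn.add
    · exact hcont.sub (by fun_prop)
    · fun_prop
  obtain ⟨s, hs, hmin⟩ := isCompact_Icc.exists_isMinOn (Set.nonempty_Icc.2 zero_le_one) hcc
  have hct : c t < 0 := by
    have h1 : t * (1 - t) ≤ 1 / 4 := by linarith only [sq_nonneg (t - 1 / 2)]
    have h2 : η * (t * (1 - t)) ≤ η * (1 / 4) := mul_le_mul_of_nonneg_left h1 hη0.le
    simp only [hc]
    linarith only [hneg, h2]
  have hcs : c s < 0 := lt_of_le_of_lt (hmin (⟨ht0, ht1⟩ : t ∈ Set.Icc (0 : ℝ) 1)) hct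
  have hs0 : 0 < s := by
    rcases hs.1.eq_or_lt with h0 | h0
    · exfalso
      rw [← h0] at hcs
      simp only [hc, sub_zero, one_mul, zero_mul, add_zero, sub_self, mul_one, mul_zero, lt_self_iff_false] at hcs
    · exact h0
  have hs1 : s < 1 := by
    rcases hs.2.eq_or_lt with h0 | h0
    · exfalso
      rw [h0] at hcs
      simp only [hc, sub_self, zero_mul, one_mul, zero_add, mul_zero, add_zero, lt_self_iff_false] at hcs
    · exact h0
  set d : ℝ := min (min s (1 - s)) (η / (2 * (C + 1))) with hd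
  have hd0 : 0 < d := by
    apply lt_min (lt_min hs0 (by linarith only [hs1]))
    (clear * - hneg hC; positivity)
  have hd1 : d ≤ s := (min_le_left _ _).trans (min_le_left _ _)
  have hd2 : d ≤ 1 - s := (min_le_left _ _).trans (min_le_right _ _)
  have hd3 : d ≤ η / (2 * (C + 1)) := min_le_right _ _
  have m1 : s + d ∈ Set.Icc (0 : ℝ) 1 := ⟨by linarith only [hs0, hd0], by linarith only [hd2]⟩
  have m2 : s - d ∈ Set.Icc (0 : ℝ) 1 := ⟨by linarith only [hd1], by linarith only [hs1, hd0]⟩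
  have k1 := hmin m1
  have k2 := hmin m2
  have j1 := h _ m1 s hs
  have j2 := h _ m2 s hs
  simp only [Set.mem_ofPred_eq, hc] at k1 k2
  rw [show s + d - s = d by ring, abs_of_pos hd0] at j1
  rw [show s - d - s = -d by ring, abs_neg, abs_of_pos hd0] at j2
  have e1 : η * d ^ 2 ≤ C * d ^ 3 := by linarith only [k2, k1, j2, j1]
  have e2 : η ≤ C * d := by
    have : η * d ^ 2 ≤ (C * d) * d ^ 2 := by linarith only [j1, j2, k1, k2]
    exact le_of_mul_le_mul_right this (by (clear * - hs0 hs1 hneg hC; (clear * - hs0 hs1 hneg hC; positivity)))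
  have e3 : C * d ≤ η / 2 := by
    calc C * d ≤ (C + 1) * d := by linarith only [hd0]
      _ ≤ (C + 1) * (η / (2 * (C + 1))) := mul_le_mul_of_nonneg_left hd3 (by linarith only [hC])
      _ = η / 2 := by (clear * - hC hη0; field_simp)
  linarith only [hneg, e2, e3]

/-- existence of the support numbers -/
theorem exists_supp {b : ℝ} {r : ℕ} [NeZero r] (hb0 : 0 < b) (hb3 : b ≤ π / 3)
    (c : ZMod (2 * r) → ℝ) (hc : ∀ j, 0 < c j) : ∃ f, IsSupp b r c f ∧ ∀ j, 0 < f j := by
  have hr : (1 : ℝ) ≤ r := by exact_mod_cast NeZero.one_le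
  have hd0 : 0 < b / r := by positivity
  have hd3 : b / r ≤ π / 3 := (div_le_self hb0.le hr).trans hb3
  have hcos : 0 < cos (b / r) := cos_pos_of_mem_Ioo ⟨by linarith only [hd0, hb3, hb0], by linarith only [hd3, hb3, hb0]⟩
  have hcos1 : cos (b / r) ≤ 1 := cos_le_one _
  set S : ZMod (2 * r) → Set ℝ := fun j =>
    {x | ∃ g : ZMod (2 * r) → ℝ, (∀ i, g i ≤ c i) ∧ (∀ i, 0 ≤ el b r g i) ∧ g j = x} with hS
  have hbdd : ∀ j, BddAbove (S j) := by
    intro j
    refine ⟨c j, ?_⟩
    rintro x ⟨g, hg, _, rfl⟩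
    exact hg j
  obtain ⟨κ, hκ0, hκ⟩ : ∃ κ : ℝ, 0 < κ ∧ ∀ j, κ ≤ c j := by
    obtain ⟨i, _, hi⟩ := exists_min_image univ c univ_nonempty
    exact ⟨c i, hc i, fun j => hi j (mem_univ j)⟩
  have hκel : ∀ i, 0 ≤ el b r (fun _ => κ) i := by
    intro i
    unfold el
    linarith only [mul_nonneg (sub_nonneg.2 hcos1) (le_of_lt (sub_pos.2 hκ0))]
  have hκS : ∀ j, κ ∈ S j := fun j => ⟨fun _ => κ, hκ, hκel, rfl⟩
  refine ⟨fun j => sSup (S j), ⟨?_, ?_, ?_⟩, ?_⟩
  · intro j
    apply csSup_le ⟨κ, hκS j⟩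
    rintro x ⟨g, hg, _, rfl⟩
    exact hg j
  · intro j
    have h1 : sSup (S j) ≤ (sSup (S (j + 1)) + sSup (S (j - 1))) / (2 * cos (b / r)) := by
      apply csSup_le ⟨κ, hκS j⟩
      rintro x ⟨g, hg, hg', rfl⟩
      rw [le_div_iff₀ (by positivity)]
      have h2 := hg' j
      unfold el at h2
      have h3 : g (j + 1) ≤ sSup (S (j + 1)) := le_csSup (hbdd _) ⟨g, hg, hg', rfl⟩
      have h4 : g (j - 1) ≤ sSup (S (j - 1)) := le_csSup (hbdd _) ⟨g, hg, hg', rfl⟩
      linarith only [h2, h3, h4]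
    rw [le_div_iff₀ (by positivity)] at h1
    unfold el
    linarith only [h1]
  · intro g hg hg' j
    exact le_csSup (hbdd _) ⟨g, hg, hg', rfl⟩
  · intro j
    exact hκ0.trans_le (le_csSup (hbdd _) (hκS j))

/-- complementarity -/
theorem IsSupp.compl {b : ℝ} {r : ℕ} [NeZero r] {c f : ZMod (2 * r) → ℝ} (h : IsSupp b r c f)
    {j : ZMod (2 * r)} (hj : 0 < el b r f j) : f j = c j := by
  by_contra hne
  have hlt : f j < c j := lt_of_le_of_ne (h.le j) hne
  set η : ℝ := min (c j - f j) (el b r f j / 2) with hη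
  have hη0 : 0 < η := lt_min (by linarith only [hlt]) (by linarith only [hj])
  have h1 : η ≤ c j - f j := min_le_left _ _
  have h2 : η ≤ el b r f j / 2 := min_le_right _ _
  set g : ZMod (2 * r) → ℝ := fun i => f i + (if i = j then η else 0) with hg
  have hgc : ∀ i, g i ≤ c i := by
    intro i
    by_cases hi : i = j
    · subst hi
      simp only [hg, if_true]
      linarith only [h1]
    · simp only [hg, hi, if_false, add_zero]
      exact h.le i
  have hnn : ∀ i : ZMod (2 * r), (0 : ℝ) ≤ if i = j then η else 0 := by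
    intro i
    split_ifs
    · exact hη0.le
    · exact le_rfl
  have hgel : ∀ i, 0 ≤ el b r g i := by
    intro i
    have hcos1 : cos (b / r) ≤ 1 := cos_le_one _
    have a1 := hnn (i + 1)
    have a2 := hnn (i - 1)
    have a3 := h.adm i
    unfold el at a3 ⊢
    simp only [hg]
    by_cases hi : i = j
    · subst hi
      unfold el at h2
      simp only [if_true]
      linarith only [mul_nonneg (sub_nonneg.2 hcos1) (le_of_lt (sub_pos.2 hη0)), mul_nonneg (mul_self_nonneg (1 : ℝ)) (sub_nonneg.2 a2), mul_nonneg (mul_self_nonneg (1 : ℝ)) (sub_nonneg.2 a1), mul_nonneg (mul_self_nonneg (1 : ℝ)) (sub_nonneg.2 h2)]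
    · simp only [hi, if_false, add_zero]
      linarith only [a1, a2, a3]
  have := h.max g hgc hgel j
  simp only [hg, if_true] at this
  linarith only [hη0, this]

/-- constants below `c` are below `f` -/
theorem IsSupp.const_le {b : ℝ} {r : ℕ} [NeZero r] {c f : ZMod (2 * r) → ℝ} (h : IsSupp b r c f)
    {κ : ℝ} (hκ0 : 0 ≤ κ) (hκ : ∀ j, κ ≤ c j) (j : ZMod (2 * r)) : κ ≤ f j := by
  refine h.max (fun _ => κ) hκ (fun i => ?_) j
  have hcos1 : cos (b / r) ≤ 1 := cos_le_one _
  unfold el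
  linarith only [mul_nonneg (sub_nonneg.2 hκ0) (sub_nonneg.2 hcos1)]

theorem IsSupp.unique {b : ℝ} {r : ℕ} {c f g : ZMod (2 * r) → ℝ} (h : IsSupp b r c f)
    (h' : IsSupp b r c g) : f = g :=
  funext fun j => le_antisymm (h'.max f h.le h.adm j) (h.max g h'.le h'.adm j)

theorem el_symm {b : ℝ} {r : ℕ} [NeZero r] (f g : ZMod (2 * r) → ℝ) :
    ∑ j, f j * el b r g j = ∑ j, el b r f j * g j := by
  have h1 : ∑ j, f j * g (j + 1) = ∑ j, f (j - 1) * g j := by
    rw [← Equiv.sum_comp (Equiv.addRight (1 : ZMod (2 * r))) fun j => f (j - 1) * g j]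
    simp only [Equiv.coe_addRight, add_sub_cancel_right]
  have h2 : ∑ j, f j * g (j - 1) = ∑ j, f (j + 1) * g j := by
    rw [← Equiv.sum_comp (Equiv.subRight (1 : ZMod (2 * r))) fun j => f (j + 1) * g j]
    simp only [Equiv.subRight_apply, sub_add_cancel]
  have e1 : ∑ j, f j * el b r g j = ∑ j, f j * g (j + 1) + ∑ j, f j * g (j - 1) -
      2 * cos (b / r) * ∑ j, f j * g j := by
    rw [mul_sum, ← sum_add_distrib, ← sum_sub_distrib]
    refine sum_congr rfl fun j _ => ?_
    unfold el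
    ring
  have e2 : ∑ j, el b r f j * g j = ∑ j, f (j + 1) * g j + ∑ j, f (j - 1) * g j -
      2 * cos (b / r) * ∑ j, f j * g j := by
    rw [mul_sum, ← sum_add_distrib, ← sum_sub_distrib]
    refine sum_congr rfl fun j _ => ?_
    unfold el
    ring
  rw [e1, e2, h1, h2]
  ring

theorem qa_add {b : ℝ} {r : ℕ} [NeZero r] (f q : ZMod (2 * r) → ℝ) :
    qa b r (fun j => f j + q j) =
      qa b r f + 2 * ∑ j, el b r f j * q j + ∑ j, q j * el b r q j := by
  have h1 : ∀ j, el b r (fun j => f j + q j) j = el b r f j + el b r q j := by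
    intro j
    unfold el
    ring
  unfold qa
  simp only [h1]
  have h2 := el_symm (b := b) f q
  have h3 : ∑ j, (f j + q j) * (el b r f j + el b r q j) = ∑ j, f j * el b r f j +
      ∑ j, f j * el b r q j + ∑ j, el b r f j * q j + ∑ j, q j * el b r q j := by
    rw [← sum_add_distrib, ← sum_add_distrib, ← sum_add_distrib]
    refine sum_congr rfl fun j _ => ?_
    ring
  rw [h3, h2]
  ring

/-- sum of the edge lengths -/
theorem sum_el {b : ℝ} {r : ℕ} [NeZero r] (f : ZMod (2 * r) → ℝ) :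
    ∑ j, el b r f j = (2 - 2 * cos (b / r)) * ∑ j, f j := by
  have := el_symm (b := b) (fun _ => (1 : ℝ)) f
  simp only [one_mul] at this
  rw [this, mul_sum]
  refine sum_congr rfl fun j _ => ?_
  unfold el
  ring

theorem log_step {A A' z y E : ℝ} (hA : 0 < A) (hA' : 0 < A') (h : A' ≤ A * (1 + z + z ^ 2 / 2 - y))
    (hy0 : 0 ≤ y) (hz : |z| ≤ E) (hy : y ≤ E ^ 2) (hE : E ≤ 1 / 4) :
    log A' ≤ log A + (z - y) + 6 * E ^ 3 := by
  have hE0 : 0 ≤ E := (abs_nonneg z).trans hz
  have hz' := abs_le.1 hz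
  have hE2 : E ^ 2 ≤ E / 4 := by linarith only [mul_nonneg (sub_nonneg.2 hE) (sub_nonneg.2 hE0)]
  have hw : |z - y| ≤ 2 * E := by
    rw [abs_le]
    constructor <;> linarith only [hy, hz', hE2, hy0]
  have hw1 : |z - y| ≤ 1 := by linarith only [hE, hw]
  have h1 := Real.exp_bound hw1 (n := 3) (by norm_num)
  have h2 := (abs_le.1 h1).1
  have h3 : |z - y| ^ 3 ≤ 8 * E ^ 3 := by
    calc |z - y| ^ 3 ≤ (2 * E) ^ 3 := pow_le_pow_left₀ (abs_nonneg _) hw 3
      _ = 8 * E ^ 3 := by ring
  norm_num [Finset.sum_range_succ, Nat.factorial] at h2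
  have hE3 : 0 ≤ E ^ 3 := by positivity
  have h4 : z * y ≤ E ^ 3 := by
    calc z * y ≤ E * y := mul_le_mul_of_nonneg_right hz'.2 hy0
      _ ≤ E * E ^ 2 := mul_le_mul_of_nonneg_left hy hE0
      _ = E ^ 3 := by ring
  have h5 : 1 + z + z ^ 2 / 2 - y ≤ exp (z - y) + 3 * E ^ 3 := by (clear * - h3 h2 hE3 h4; linarith only [sq_nonneg y, h4, hE3, h2, h3])
  have h6 : 1 / 2 ≤ exp (z - y) := by
    have := Real.add_one_le_exp (z - y)
    have := (abs_le.1 hw).1
    (clear A A' hA hA' h hy0 hw hw1 h1 h3 h2 hE3 h4 h5 this; linarith)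
  have h7 : exp (z - y) + 3 * E ^ 3 ≤ exp (z - y + 6 * E ^ 3) := by
    rw [exp_add]
    have h8 := Real.add_one_le_exp (6 * E ^ 3)
    nlinarith only [h8, hE3, h6]
  have h9 : A' ≤ A * exp (z - y + 6 * E ^ 3) :=
    h.trans (mul_le_mul_of_nonneg_left (h5.trans h7) hA.le)
  have h10 := Real.log_le_log hA' h9
  rw [Real.log_mul hA.ne' (exp_pos _).ne', Real.log_exp] at h10
  linarith only [h10]

theorem scalar_step {x : ℝ} (hx : |x| ≤ 1) :
    (exp x - 1) - (exp x - 1) ^ 2 / 2 ≤ x + 2 * |x| ^ 3 := by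
  have h1 := Real.exp_bound hx (n := 3) (by norm_num)
  have h2 := (abs_le.1 h1).2
  norm_num [Finset.sum_range_succ, Nat.factorial] at h2
  have h3 := Real.abs_exp_sub_one_sub_id_le hx
  have h0 : 0 ≤ |x| ^ 3 := by positivity
  have h4 : x ^ 2 - 2 * |x| ^ 3 ≤ (exp x - 1) ^ 2 := by
    set ρ := exp x - 1 - x with hρ
    have e1 : exp x - 1 = x + ρ := by rw [hρ]; ring
    rw [e1]
    have e2 : |x * ρ| ≤ |x| ^ 3 := by
      rw [abs_mul]
      calc |x| * |ρ| ≤ |x| * x ^ 2 := mul_le_mul_of_nonneg_left h3 (abs_nonneg _)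
        _ = |x| ^ 3 := by rw [← sq_abs x]; ring
    have e3 := (abs_le.1 e2).1
    linarith only [sq_nonneg ρ, e3]
  linarith only [h2, h0, h4]

theorem mono_step {q qb fe G : ℝ} (h1 : q ≤ qb) (h2 : qb ≤ fe) (h3 : 0 < fe) (h4 : fe ≤ G) :
    q - q ^ 2 / fe / 2 ≤ qb - qb ^ 2 / (2 * G) := by
  have hG : 0 < G := h3.trans_le h4
  have e1 : q - q ^ 2 / fe / 2 ≤ qb - qb ^ 2 / fe / 2 := by
    have : (qb - qb ^ 2 / fe / 2) - (q - q ^ 2 / fe / 2) = (qb - q) * (2 * fe - qb - q) / (2 * fe) := by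
      field_simp
      ring
    have h5 : 0 ≤ (qb - q) * (2 * fe - qb - q) / (2 * fe) := by
      apply div_nonneg
      · apply mul_nonneg <;> linarith only [h1, h2]
      · positivity
    linarith only [h5, this]
  have e2 : qb ^ 2 / (2 * G) ≤ qb ^ 2 / fe / 2 := by
    rw [div_div, mul_comm fe 2]
    apply div_le_div_of_nonneg_left (sq_nonneg _) (by positivity)
    linarith only [h4]
  linarith only [e1, e2]

/-- the logarithmic family -/
noncomputable def gt {r : ℕ} (G0 G1 : ZMod (2 * r) → ℝ → ℝ) (t : ℝ) (j : ZMod (2 * r)) (v : ℝ) : ℝ :=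
  exp ((1 - t) * log (G0 j v) + t * log (G1 j v))

theorem gt_pos {r : ℕ} (G0 G1 : ZMod (2 * r) → ℝ → ℝ) (t : ℝ) (j : ZMod (2 * r)) (v : ℝ) :
    0 < gt G0 G1 t j v := exp_pos _

theorem gt_eq {r : ℕ} {G0 G1 : ZMod (2 * r) → ℝ → ℝ} {j : ZMod (2 * r)} {v : ℝ}
    (h0 : 0 < G0 j v) (h1 : 0 < G1 j v) (t : ℝ) :
    gt G0 G1 t j v = G0 j v ^ (1 - t) * G1 j v ^ t := by
  rw [gt, exp_add, rpow_def_of_pos h0, rpow_def_of_pos h1, mul_comm (1 - t), mul_comm t]

theorem gt_shift {r : ℕ} (G0 G1 : ZMod (2 * r) → ℝ → ℝ) (s t : ℝ) (j : ZMod (2 * r)) (v : ℝ) :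
    gt G0 G1 s j v = gt G0 G1 t j v * exp ((s - t) * (log (G1 j v) - log (G0 j v))) := by
  rw [gt, gt, ← exp_add]
  congr 1
  ring

/-- everything known about the family -/
structure Fam {r : ℕ} [NeZero r] (b : ℝ) (V : Finset ℝ) (G0 G1 : ZMod (2 * r) → ℝ → ℝ)
    (κ R Λ : ℝ) : Prop where
  hb0 : 0 < b
  hb3 : b ≤ π / 3
  hVs : ∀ v ∈ V, -v ∈ V
  even : ∀ t j, ∀ v ∈ V, gt G0 G1 t (j + r) (-v) = gt G0 G1 t j v
  κ0 : 0 < κ
  low : ∀ t ∈ Set.Icc (0 : ℝ) 1, ∀ j, ∀ v ∈ V, κ ≤ gt G0 G1 t j v - v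
  up : ∀ t ∈ Set.Icc (0 : ℝ) 1, ∀ j, ∀ v ∈ V, gt G0 G1 t j v ≤ R
  lam : ∀ j, ∀ v ∈ V, |log (G1 j v) - log (G0 j v)| ≤ Λ

section fam

variable {r : ℕ} [NeZero r] {b : ℝ} {V : Finset ℝ} {hV : V.Nonempty}
  {G0 G1 : ZMod (2 * r) → ℝ → ℝ} {κ R Λ : ℝ}

omit [NeZero r] in
theorem cm_le (G : ZMod (2 * r) → ℝ → ℝ) (j : ZMod (2 * r)) {v : ℝ} (hv : v ∈ V) :
    cm V hV G j ≤ G j v - v :=
  inf'_le (fun v => G j v - v) hv

omit [NeZero r] in
theorem cm_attained (G : ZMod (2 * r) → ℝ → ℝ) (j : ZMod (2 * r)) :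
    ∃ v ∈ V, cm V hV G j = G j v - v :=
  exists_mem_eq_inf' hV fun v => G j v - v

theorem Fam.R0 (F : Fam b V G0 G1 κ R Λ) (hV : V.Nonempty) : 0 < R := by
  obtain ⟨v, hv⟩ := hV
  exact (gt_pos G0 G1 0 0 v).trans_le (F.up 0 (by simp only [Set.mem_Icc, Std.le_refl, zero_le_one, and_self]) 0 v hv)

theorem Fam.L0 (F : Fam b V G0 G1 κ R Λ) (hV : V.Nonempty) : 0 ≤ Λ := by
  obtain ⟨v, hv⟩ := hV
  exact (abs_nonneg _).trans (F.lam 0 v hv)

theorem Fam.cm_low (F : Fam b V G0 G1 κ R Λ) {t : ℝ} (ht : t ∈ Set.Icc (0 : ℝ) 1)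
    (j : ZMod (2 * r)) : κ ≤ cm V hV (gt G0 G1 t) j := by
  obtain ⟨v, hv, h⟩ := cm_attained (hV := hV) (gt G0 G1 t) j
  rw [h]
  exact F.low t ht j v hv

theorem Fam.cm_up (F : Fam b V G0 G1 κ R Λ) {t : ℝ} (ht : t ∈ Set.Icc (0 : ℝ) 1)
    (j : ZMod (2 * r)) : cm V hV (gt G0 G1 t) j ≤ R := by
  obtain ⟨v, hv, hv0⟩ : ∃ v ∈ V, 0 ≤ v := by
    obtain ⟨v, hv⟩ := hV
    rcases le_total 0 v with h | h
    · exact ⟨v, hv, h⟩
    · exact ⟨-v, F.hVs v hv, by linarith⟩
  have h1 := cm_le (hV := hV) (gt G0 G1 t) j hv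
  have h2 := F.up t ht j v hv
  linarith only [hv0, h1, h2]

theorem Fam.f_low (F : Fam b V G0 G1 κ R Λ) {t : ℝ} (ht : t ∈ Set.Icc (0 : ℝ) 1)
    {f : ZMod (2 * r) → ℝ} (h : IsSupp b r (cm V hV (gt G0 G1 t)) f) (j : ZMod (2 * r)) :
    κ ≤ f j :=
  h.const_le F.κ0.le (fun j => F.cm_low ht j) j

theorem Fam.f_up (F : Fam b V G0 G1 κ R Λ) {t : ℝ} (ht : t ∈ Set.Icc (0 : ℝ) 1)
    {f : ZMod (2 * r) → ℝ} (h : IsSupp b r (cm V hV (gt G0 G1 t)) f) (j : ZMod (2 * r)) :
    f j ≤ R :=
  (h.le j).trans (F.cm_up ht j)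

theorem Fam.scale (F : Fam b V G0 G1 κ R Λ) {s t : ℝ} (hs : s ∈ Set.Icc (0 : ℝ) 1)
    (ht : t ∈ Set.Icc (0 : ℝ) 1) {fs ft : ZMod (2 * r) → ℝ}
    (Ss : IsSupp b r (cm V hV (gt G0 G1 s)) fs) (St : IsSupp b r (cm V hV (gt G0 G1 t)) ft)
    (j : ZMod (2 * r)) : (1 - Λ * R / κ * |s - t|) * ft j ≤ fs j := by
  have hκ := F.κ0
  have hR := F.R0 hV
  have hL := F.L0 hV
  set u : ℝ := 1 - Λ * R / κ * |s - t| with hu
  rcases le_total u 0 with h0 | h0
  · have h1 := F.f_low ht St j
    have h2 := F.f_low hs Ss j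
    nlinarith only [hκ, h2, h0, h1]
  · refine Ss.max (fun i => u * ft i) (fun i => ?_) (fun i => ?_) j
    · have h1 : u * ft i ≤ u * cm V hV (gt G0 G1 t) i := mul_le_mul_of_nonneg_left (St.le i) h0
      obtain ⟨v, hv, h⟩ := cm_attained (hV := hV) (gt G0 G1 s) i
      rw [h, gt_shift G0 G1 s t]
      have h2 := cm_le (hV := hV) (gt G0 G1 t) i hv
      have h3 := F.cm_low (hV := hV) ht i
      have h4 := F.up t ht i v hv
      have h5 := gt_pos G0 G1 t i v
      set g := gt G0 G1 t i v with hg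
      set x := (s - t) * (log (G1 i v) - log (G0 i v)) with hx
      have h6 : -(Λ * |s - t|) ≤ x := by
        have h7 : |x| ≤ Λ * |s - t| := by
          rw [hx, abs_mul, mul_comm]
          exact mul_le_mul_of_nonneg_right (F.lam i v hv) (abs_nonneg _)
        exact (abs_le.1 h7).1
      have h8 := Real.add_one_le_exp x
      have h9 : g * (1 - Λ * |s - t|) ≤ g * exp x :=
        mul_le_mul_of_nonneg_left (by linarith only [h6, h8]) h5.le
      have h10 : g * (Λ * |s - t|) ≤ R * (Λ * |s - t|) :=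
        mul_le_mul_of_nonneg_right h4 (by (clear * - hL; positivity))
      have h11 : R * (Λ * |s - t|) ≤ Λ * R / κ * |s - t| * cm V hV (gt G0 G1 t) i := by
        calc R * (Λ * |s - t|) = Λ * R / κ * |s - t| * κ := by (clear * - hκ hR; field_simp)
          _ ≤ _ := mul_le_mul_of_nonneg_left h3 (by (clear * - hL hR hκ; (clear * - hL hR hκ; positivity)))
      have h12 : u * cm V hV (gt G0 G1 t) i = cm V hV (gt G0 G1 t) i -
          Λ * R / κ * |s - t| * cm V hV (gt G0 G1 t) i := by rw [hu]; ring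
      have h13 : g * (1 - Λ * |s - t|) = g - g * (Λ * |s - t|) := by ring
      linarith only [h11, h10, h9, h2, h1]
    · have h1 := St.adm i
      have h2 : el b r (fun i => u * ft i) i = u * el b r ft i := by
        unfold el
        ring
      rw [h2]
      (clear * - h0 h1; positivity)

theorem Fam.close (F : Fam b V G0 G1 κ R Λ) {s t : ℝ} (hs : s ∈ Set.Icc (0 : ℝ) 1)
    (ht : t ∈ Set.Icc (0 : ℝ) 1) {fs ft : ZMod (2 * r) → ℝ}
    (Ss : IsSupp b r (cm V hV (gt G0 G1 s)) fs) (St : IsSupp b r (cm V hV (gt G0 G1 t)) ft)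
    (j : ZMod (2 * r)) : |fs j - ft j| ≤ Λ * R ^ 2 / κ * |s - t| := by
  have hκ := F.κ0
  have hR := F.R0 hV
  have hL := F.L0 hV
  have h1 := F.scale hs ht Ss St j
  have h2 := F.scale ht hs St Ss j
  rw [abs_sub_comm t s] at h2
  have h3 := F.f_up ht St j
  have h4 := F.f_up hs Ss j
  have h5 : Λ * R / κ * |s - t| * ft j ≤ Λ * R / κ * |s - t| * R :=
    mul_le_mul_of_nonneg_left h3 (by (clear * - hL hR hκ; positivity))
  have h6 : Λ * R / κ * |s - t| * fs j ≤ Λ * R / κ * |s - t| * R :=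
    mul_le_mul_of_nonneg_left h4 (by (clear * - hL hR hκ; (clear * - hL hR hκ; positivity)))
  have h7 : Λ * R / κ * |s - t| * R = Λ * R ^ 2 / κ * |s - t| := by ring
  rw [abs_le]
  constructor <;> linarith

theorem Fam.cosd (F : Fam b V G0 G1 κ R Λ) : 0 < 2 - 2 * cos (b / r) := by
  have hb0 := F.hb0
  have hr : (1 : ℝ) ≤ r := by exact_mod_cast NeZero.one_le
  have hd0 : 0 < b / r := by positivity
  have hd3 : b / r ≤ π / 3 := (div_le_self hb0.le hr).trans F.hb3
  have := cos_lt_cos_of_nonneg_of_le_pi_div_two le_rfl (by linarith only [hd3, hd0]) hd0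
  rw [cos_zero] at this
  linarith only [this]

theorem Fam.qa_low (F : Fam b V G0 G1 κ R Λ) {t : ℝ} (ht : t ∈ Set.Icc (0 : ℝ) 1)
    {f : ZMod (2 * r) → ℝ} (h : IsSupp b r (cm V hV (gt G0 G1 t)) f) :
    κ * ∑ j, el b r f j ≤ qa b r f := by
  unfold qa
  rw [mul_sum]
  exact sum_le_sum fun j _ => mul_le_mul_of_nonneg_right (F.f_low ht h j) (h.adm j)

theorem Fam.sum_el_pos (F : Fam b V G0 G1 κ R Λ) {t : ℝ} (ht : t ∈ Set.Icc (0 : ℝ) 1)
    {f : ZMod (2 * r) → ℝ} (h : IsSupp b r (cm V hV (gt G0 G1 t)) f) :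
    0 < ∑ j, el b r f j := by
  rw [sum_el]
  have := F.cosd
  have : 0 < ∑ j, f j := sum_pos (fun j _ => F.κ0.trans_le (F.f_low ht h j)) univ_nonempty
  positivity

theorem Fam.qa_pos (F : Fam b V G0 G1 κ R Λ) {t : ℝ} (ht : t ∈ Set.Icc (0 : ℝ) 1)
    {f : ZMod (2 * r) → ℝ} (h : IsSupp b r (cm V hV (gt G0 G1 t)) f) : 0 < qa b r f :=
  (mul_pos F.κ0 (F.sum_el_pos ht h)).trans_le (F.qa_low ht h)

theorem Fam.crude (F : Fam b V G0 G1 κ R Λ) {s t : ℝ} (hs : s ∈ Set.Icc (0 : ℝ) 1)
    (ht : t ∈ Set.Icc (0 : ℝ) 1) {fs ft : ZMod (2 * r) → ℝ}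
    (Ss : IsSupp b r (cm V hV (gt G0 G1 s)) fs) (St : IsSupp b r (cm V hV (gt G0 G1 t)) ft) :
    log (qa b r fs) ≤ log (qa b r ft) + 2 * log (R / κ) := by
  have hκ := F.κ0
  have hR := F.R0 hV
  have hc := F.cosd
  have h1 : qa b r fs ≤ R * ((2 - 2 * cos (b / r)) * ∑ _j : ZMod (2 * r), R) := by
    calc qa b r fs ≤ ∑ j, R * el b r fs j :=
          sum_le_sum fun j _ => mul_le_mul_of_nonneg_right (F.f_up hs Ss j) (Ss.adm j)
      _ = R * ((2 - 2 * cos (b / r)) * ∑ j, fs j) := by rw [← mul_sum, sum_el]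
      _ ≤ _ := by
          refine mul_le_mul_of_nonneg_left (mul_le_mul_of_nonneg_left ?_ hc.le) hR.le
          exact sum_le_sum fun j _ => F.f_up hs Ss j
  have h2 : κ * ((2 - 2 * cos (b / r)) * ∑ _j : ZMod (2 * r), κ) ≤ qa b r ft := by
    calc κ * ((2 - 2 * cos (b / r)) * ∑ _j : ZMod (2 * r), κ)
        ≤ κ * ((2 - 2 * cos (b / r)) * ∑ j, ft j) := by
          refine mul_le_mul_of_nonneg_left (mul_le_mul_of_nonneg_left ?_ hc.le) hκ.le
          exact sum_le_sum fun j _ => F.f_low ht St j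
      _ = κ * ∑ j, el b r ft j := by rw [sum_el]
      _ ≤ _ := F.qa_low ht St
  have h3 : qa b r fs ≤ (R / κ) ^ 2 * qa b r ft := by
    refine h1.trans ?_
    calc R * ((2 - 2 * cos (b / r)) * ∑ _j : ZMod (2 * r), R)
        = (R / κ) ^ 2 * (κ * ((2 - 2 * cos (b / r)) * ∑ _j : ZMod (2 * r), κ)) := by
          simp only [sum_const, nsmul_eq_mul]
          (clear s t hs ht fs ft Ss St hc h1 h2; field_simp)
      _ ≤ _ := mul_le_mul_of_nonneg_left h2 (by positivity)
  have h4 := Real.log_le_log (F.qa_pos hs Ss) h3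
  have h5 := F.qa_pos ht St
  rw [Real.log_mul (by positivity) h5.ne', Real.log_pow] at h4
  push_cast at h4
  linarith only [h4]

/-- the main local estimate -/
theorem Fam.step (F : Fam b V G0 G1 κ R Λ) {s t : ℝ} (hs : s ∈ Set.Icc (0 : ℝ) 1)
    (ht : t ∈ Set.Icc (0 : ℝ) 1) {fs ft : ZMod (2 * r) → ℝ}
    (Ss : IsSupp b r (cm V hV (gt G0 G1 s)) fs) (St : IsSupp b r (cm V hV (gt G0 G1 t)) ft)
    {w : ZMod (2 * r) → ℝ} (hw : ∀ j, w j ∈ V)
    (hcw : ∀ j, cm V hV (gt G0 G1 t) j = gt G0 G1 t j (w j) - w j)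
    (q1 : 2 * (Λ * R ^ 2 / κ) / κ * |s - t| ≤ 1 / 4) (q2 : Λ * |s - t| ≤ 1)
    (q3 : 2 * R * Λ * |s - t| ≤ κ) :
    log (qa b r fs) ≤ log (qa b r ft) + 2 / qa b r ft * (∑ j, el b r ft j *
      (gt G0 G1 t j (w j) * (log (G1 j (w j)) - log (G0 j (w j))))) * (s - t) +
      (4 * R * Λ ^ 3 / κ + 6 * (2 * (Λ * R ^ 2 / κ) / κ) ^ 3) * |s - t| ^ 3 := by
  have hκ := F.κ0
  have hR := F.R0 hV
  have hL := F.L0 hV
  set A := qa b r ft with hA
  have hA0 : 0 < A := F.qa_pos ht St
  set S := ∑ j, el b r ft j with hS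
  have hS0 : 0 < S := F.sum_el_pos ht St
  have hSA : κ * S ≤ A := F.qa_low ht St
  set D := Λ * R ^ 2 / κ with hD
  have hD0 : 0 ≤ D := by (clear * - hL hR hκ; positivity)
  set q : ZMod (2 * r) → ℝ := fun j => fs j - ft j with hq
  have hqD : ∀ j, |q j| ≤ D * |s - t| := fun j => F.close hs ht Ss St j
  set σ := ∑ j, el b r ft j * q j with hσ
  set Y := ∑ j, el b r ft j * (q j ^ 2 / ((ft j + ft (j + r)) / 2)) with hY
  have hfe : ∀ j, κ ≤ (ft j + ft (j + r)) / 2 := by
    intro j
    have h1 := F.f_low ht St j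
    have h2 := F.f_low ht St (j + r)
    linarith only [h2, h1]
  have hstar := star (b := b) F.hb0 F.hb3 ft q (fun j => hκ.trans_le (F.f_low ht St j)) St.adm
  have hadd := qa_add (b := b) ft q
  have hfs : (fun j => ft j + q j) = fs := by
    funext j
    simp [hq]
  rw [hfs] at hadd
  -- the quadratic bound
  have hA' : qa b r fs ≤ A * (1 + 2 * σ / A + (2 * σ / A) ^ 2 / 2 - Y / A) := by
    have h1 : A * (1 + 2 * σ / A + (2 * σ / A) ^ 2 / 2 - Y / A) = A + 2 * σ + 2 * σ ^ 2 / A - Y := by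
      (clear * - hA0; field_simp)
    rw [h1, hadd]
    (clear s hs Ss w hw hcw q2 q3 hR hL hA hA0 S hS hS0 hSA D q1 hD hD0 hq hqD hσ hfe hadd hfs h1; linarith only [hstar, hY])
  have hσb : |σ| ≤ S * (D * |s - t|) := by
    rw [hσ, hS, sum_mul]
    refine (abs_sum_le_sum_abs _ _).trans (sum_le_sum fun j _ => ?_)
    rw [abs_mul, abs_of_nonneg (St.adm j)]
    exact mul_le_mul_of_nonneg_left (hqD j) (St.adm j)
  have hz : |2 * σ / A| ≤ 2 * D / κ * |s - t| := by
    rw [abs_div, abs_of_pos hA0, abs_mul, abs_two, div_le_iff₀ hA0]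
    calc 2 * |σ| ≤ 2 * (S * (D * |s - t|)) := by linarith only [hσb]
      _ = 2 * D / κ * |s - t| * (κ * S) := by (clear * - hκ hS0; field_simp)
      _ ≤ 2 * D / κ * |s - t| * A := mul_le_mul_of_nonneg_left hSA (by (clear * - hL hR hκ; positivity))
  have hY0 : 0 ≤ Y := by
    refine sum_nonneg fun j _ => mul_nonneg (St.adm j) (div_nonneg (sq_nonneg _) ?_)
    exact hκ.le.trans (hfe j)
  have hYb : Y / A ≤ (2 * D / κ * |s - t|) ^ 2 := by
    rw [div_le_iff₀ hA0]
    calc Y ≤ ∑ j, el b r ft j * ((D * |s - t|) ^ 2 / κ) := by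
          refine sum_le_sum fun j _ => mul_le_mul_of_nonneg_left ?_ (St.adm j)
          refine div_le_div₀ (sq_nonneg _) ?_ hκ (hfe j)
          rw [← sq_abs]
          exact pow_le_pow_left₀ (abs_nonneg _) (hqD j) 2
      _ = S * ((D * |s - t|) ^ 2 / κ) := by rw [← sum_mul]
      _ ≤ 4 * (S * ((D * |s - t|) ^ 2 / κ)) := by
          have : 0 ≤ S * ((D * |s - t|) ^ 2 / κ) := by (clear * - hS0 hκ; positivity)
          linarith only [this]
      _ = (2 * D / κ * |s - t|) ^ 2 * (κ * S) := by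
          field_simp
          ring
      _ ≤ (2 * D / κ * |s - t|) ^ 2 * A := mul_le_mul_of_nonneg_left hSA (by (clear * -; positivity))
  have hlog := log_step hA0 (F.qa_pos hs Ss) hA' (div_nonneg hY0 hA0.le) hz hYb q1
  -- the first order term
  have hterm : ∀ j, el b r ft j * (q j - q j ^ 2 / ((ft j + ft (j + r)) / 2) / 2) ≤
      el b r ft j * ((s - t) * (gt G0 G1 t j (w j) * (log (G1 j (w j)) - log (G0 j (w j)))) +
        2 * R * Λ ^ 3 * |s - t| ^ 3) := by
    intro j
    rcases (St.adm j).eq_or_lt with h0 | h0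
    · rw [← h0, zero_mul, zero_mul]
    refine mul_le_mul_of_nonneg_left ?_ h0.le
    have hc := St.compl h0
    rw [hcw j] at hc
    set g := gt G0 G1 t j (w j) with hg
    set x := (s - t) * (log (G1 j (w j)) - log (G0 j (w j))) with hx
    have hg0 : 0 < g := gt_pos _ _ _ _ _
    have hgR : g ≤ R := F.up t ht j _ (hw j)
    have hxL : |x| ≤ Λ * |s - t| := by
      rw [hx, abs_mul, mul_comm]
      exact mul_le_mul_of_nonneg_right (F.lam j _ (hw j)) (abs_nonneg _)
    have hx1 : |x| ≤ 1 := hxL.trans q2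
    have e1 : q j ≤ g * (exp x - 1) := by
      have h1 := Ss.le j
      have h2 := cm_le (hV := hV) (gt G0 G1 s) j (hw j)
      rw [gt_shift G0 G1 s t] at h2
      simp only [hq]
      linarith only [hc, h1, h2]
    have e2 : g * (exp x - 1) ≤ (ft j + ft (j + r)) / 2 := by
      have h1 := Real.abs_exp_sub_one_le hx1
      have h2 : exp x - 1 ≤ 2 * (Λ * |s - t|) := by
        have := le_abs_self (exp x - 1)
        linarith only [hxL, h1, this]
      have h3 : g * (exp x - 1) ≤ R * (2 * (Λ * |s - t|)) := by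
        calc g * (exp x - 1) ≤ g * (2 * (Λ * |s - t|)) := mul_le_mul_of_nonneg_left h2 hg0.le
          _ ≤ R * (2 * (Λ * |s - t|)) := mul_le_mul_of_nonneg_right hgR (by (clear * - hL; positivity))
      linarith only [hfe j, h3, q3]
    have e3 : (ft j + ft (j + r)) / 2 ≤ g := by
      have h1 := St.le (j + r)
      have h2 := cm_le (hV := hV) (gt G0 G1 t) (j + r) (F.hVs _ (hw j))
      rw [F.even t j _ (hw j)] at h2
      linarith only [hc, h1, h2]
    refine (mono_step e1 e2 (hκ.trans_le (hfe j)) e3).trans ?_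
    have e4 := scalar_step hx1
    have e5 : g * (exp x - 1) - (g * (exp x - 1)) ^ 2 / (2 * g) =
        g * ((exp x - 1) - (exp x - 1) ^ 2 / 2) := by
      (clear * - hg0; field_simp)
    rw [e5]
    have e6 : g * ((exp x - 1) - (exp x - 1) ^ 2 / 2) ≤ g * (x + 2 * |x| ^ 3) :=
      mul_le_mul_of_nonneg_left e4 hg0.le
    have e7 : g * (2 * |x| ^ 3) ≤ R * (2 * (Λ * |s - t|) ^ 3) := by
      refine mul_le_mul hgR ?_ (by (clear * -; positivity)) hR.le
      have := pow_le_pow_left₀ (abs_nonneg x) hxL 3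
      linarith only [this]
    have e8 : g * x = (s - t) * (g * (log (G1 j (w j)) - log (G0 j (w j)))) := by
      rw [hx]
      ring
    calc g * ((exp x - 1) - (exp x - 1) ^ 2 / 2) ≤ g * x + g * (2 * |x| ^ 3) := by linarith only [e6]
      _ ≤ (s - t) * (g * (log (G1 j (w j)) - log (G0 j (w j)))) + R * (2 * (Λ * |s - t|) ^ 3) := by
          linarith only [e7]
      _ = _ := by ring
  have hsum := sum_le_sum fun j (_ : j ∈ (univ : Finset (ZMod (2 * r)))) => hterm j
  have hl : ∑ j, el b r ft j * (q j - q j ^ 2 / ((ft j + ft (j + r)) / 2) / 2) = σ - Y / 2 := by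
    rw [hσ, hY, sum_div, ← sum_sub_distrib]
    refine sum_congr rfl fun j _ => ?_
    ring
  have hr' : ∑ j, el b r ft j * ((s - t) * (gt G0 G1 t j (w j) *
      (log (G1 j (w j)) - log (G0 j (w j)))) + 2 * R * Λ ^ 3 * |s - t| ^ 3) =
      (s - t) * ∑ j, el b r ft j * (gt G0 G1 t j (w j) *
      (log (G1 j (w j)) - log (G0 j (w j)))) + S * (2 * R * Λ ^ 3 * |s - t| ^ 3) := by
    rw [hS, sum_mul, mul_sum, ← sum_add_distrib]
    refine sum_congr rfl fun j _ => ?_
    ring
  rw [hl, hr'] at hsum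
  set Ψ := ∑ j, el b r ft j * (gt G0 G1 t j (w j) * (log (G1 j (w j)) - log (G0 j (w j)))) with hΨ
  have hfin : 2 * σ / A - Y / A ≤ 2 / A * Ψ * (s - t) + 4 * R * Λ ^ 3 / κ * |s - t| ^ 3 := by
    have h1 : 2 * σ / A - Y / A = 2 / A * (σ - Y / 2) := by ring
    rw [h1]
    calc 2 / A * (σ - Y / 2) ≤ 2 / A * ((s - t) * Ψ + S * (2 * R * Λ ^ 3 * |s - t| ^ 3)) :=
          mul_le_mul_of_nonneg_left hsum (by (clear * - hA0; positivity))
      _ = 2 / A * Ψ * (s - t) + 4 * R * Λ ^ 3 / κ * |s - t| ^ 3 * (κ * S / A) := by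
          field_simp
          ring
      _ ≤ 2 / A * Ψ * (s - t) + 4 * R * Λ ^ 3 / κ * |s - t| ^ 3 * 1 := by
          have : κ * S / A ≤ 1 := (div_le_one hA0).2 hSA
          have h2 := mul_le_mul_of_nonneg_left this
            (show 0 ≤ 4 * R * Λ ^ 3 / κ * |s - t| ^ 3 by (clear * - hR hL hκ; positivity))
          linarith only [h2]
      _ = _ := by ring
  calc log (qa b r fs) ≤ log A + (2 * σ / A - Y / A) + 6 * (2 * D / κ * |s - t|) ^ 3 := hlog
    _ ≤ log A + (2 / A * Ψ * (s - t) + 4 * R * Λ ^ 3 / κ * |s - t| ^ 3) +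
        6 * (2 * D / κ * |s - t|) ^ 3 := by linarith only [hfin]
    _ = _ := by ring

/-- logarithmic concavity along the family -/
theorem Fam.main (F : Fam b V G0 G1 κ R Λ) {t : ℝ} (ht0 : 0 ≤ t) (ht1 : t ≤ 1)
    {f0 f1 f : ZMod (2 * r) → ℝ} (s0 : IsSupp b r (cm V hV (gt G0 G1 0)) f0)
    (s1 : IsSupp b r (cm V hV (gt G0 G1 1)) f1) (s : IsSupp b r (cm V hV (gt G0 G1 t)) f) :
    (1 - t) * log (qa b r f0) + t * log (qa b r f1) ≤ log (qa b r f) := by
  have hκ := F.κ0
  have hR := F.R0 hV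
  have hL := F.L0 hV
  -- support numbers at all times
  have hex : ∀ t : ℝ, ∃ f : ZMod (2 * r) → ℝ, t ∈ Set.Icc (0 : ℝ) 1 →
      IsSupp b r (cm V hV (gt G0 G1 t)) f := by
    intro t
    by_cases ht : t ∈ Set.Icc (0 : ℝ) 1
    · obtain ⟨f, hf, _⟩ := exists_supp F.hb0 F.hb3 (cm V hV (gt G0 G1 t))
        fun j => hκ.trans_le (F.cm_low ht j)
      exact ⟨f, fun _ => hf⟩
    · exact ⟨fun _ => 0, fun h => absurd h ht⟩
  choose φ hφ using hex
  choose w hw hcw using fun (t : ℝ) (j : ZMod (2 * r)) =>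
    cm_attained (hV := hV) (gt G0 G1 t) j
  set D := 2 * (Λ * R ^ 2 / κ) / κ with hD
  have hD0 : 0 ≤ D := by (clear * - hL hR hκ; positivity)
  have hRκ : 0 ≤ log (R / κ) := by
    apply Real.log_nonneg
    rw [le_div_iff₀ hκ, one_mul]
    exact (F.cm_low (hV := hV) (t := 0) (by simp only [Set.mem_Icc, Std.le_refl, zero_le_one, and_self]) 0).trans (F.cm_up (by simp only [Set.mem_Icc, Std.le_refl, zero_le_one, and_self]) 0)
  set Q := 4 * D + Λ + 2 * R * Λ / κ with hQ
  have hQ0 : 0 ≤ Q := by (clear * - hL hR hκ; positivity)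
  set p : ℝ → ℝ := fun t => 2 / qa b r (φ t) * (∑ j, el b r (φ t) j *
      (gt G0 G1 t j (w t j) * (log (G1 j (w t j)) - log (G0 j (w t j))))) with hp
  have hpb : ∀ t ∈ Set.Icc (0 : ℝ) 1, |p t| ≤ 2 * R * Λ / κ := by
    intro t ht
    have hA := F.qa_pos ht (hφ t ht)
    have hS := F.sum_el_pos ht (hφ t ht)
    simp only [hp]
    rw [abs_mul, abs_div, abs_two, abs_of_pos hA, div_mul_eq_mul_div, div_le_div_iff₀ hA hκ]
    have h1 : |∑ j, el b r (φ t) j * (gt G0 G1 t j (w t j) *
        (log (G1 j (w t j)) - log (G0 j (w t j))))| ≤ (∑ j, el b r (φ t) j) * (R * Λ) := by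
      rw [sum_mul]
      refine (abs_sum_le_sum_abs _ _).trans (sum_le_sum fun j _ => ?_)
      rw [abs_mul, abs_of_nonneg ((hφ t ht).adm j), abs_mul, abs_of_pos (gt_pos _ _ _ _ _)]
      refine mul_le_mul_of_nonneg_left ?_ ((hφ t ht).adm j)
      exact mul_le_mul (F.up t ht j _ (hw t j)) (F.lam j _ (hw t j)) (abs_nonneg _) hR.le
    have h2 := F.qa_low ht (hφ t ht)
    have h3 : (κ * ∑ j, el b r (φ t) j) * (2 * R * Λ) ≤ qa b r (φ t) * (2 * R * Λ) :=
      mul_le_mul_of_nonneg_right h2 (by (clear * - hR hL; positivity))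
    have h4 := mul_le_mul_of_nonneg_right h1 hκ.le
    (clear ht0 ht1 f0 f1 f s0 s1 s hcw D hD hD0 hRκ Q hQ hQ0 p hp hA hS; linarith)
  set C := 4 * R * Λ ^ 3 / κ + 6 * D ^ 3 + 2 * R * Λ / κ +
    (2 * log (R / κ) + 2 * R * Λ / κ) * Q ^ 3 with hC
  have key := chord (a := fun t => log (qa b r (φ t))) (p := p) (C := C) ?_ ?_ ht0 ht1
  · have u0 : φ 0 = f0 := (hφ 0 (by simp only [Set.mem_Icc, Std.le_refl, zero_le_one, and_self])).unique s0
    have u1 : φ 1 = f1 := (hφ 1 (by simp only [Set.mem_Icc, zero_le_one, Std.le_refl, and_self])).unique s1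
    have ut : φ t = f := (hφ t ⟨ht0, ht1⟩).unique s
    simp only [u0, u1, ut] at key
    exact key
  · intro t ht
    refine (hpb t ht).trans ?_
    have h1 : 0 ≤ 4 * R * Λ ^ 3 / κ := by (clear * - hR hL hκ; positivity)
    have h2 : 0 ≤ 6 * D ^ 3 := by (clear * - hL hR hκ; (clear * - hL hR hκ; positivity))
    have h3 : 0 ≤ (2 * log (R / κ) + 2 * R * Λ / κ) * Q ^ 3 := by (clear * - hRκ hR hL hκ; positivity)
    linarith only [h3, h2, h1]
  · intro x hx t ht
    have hε : 0 ≤ |x - t| := abs_nonneg _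
    have hε3 : 0 ≤ |x - t| ^ 3 := by (clear * -; positivity)
    rcases le_or_gt (Q * |x - t|) 1 with hs | hl
    · have k1 : D * |x - t| ≤ 1 / 4 := by
        have h1 : 0 ≤ Λ * |x - t| := by (clear * - hL; positivity)
        have h2 : 0 ≤ 2 * R * Λ / κ * |x - t| := by (clear * - hR hL hκ; positivity)
        have h3 : Q * |x - t| = 4 * (D * |x - t|) + Λ * |x - t| + 2 * R * Λ / κ * |x - t| := by
          rw [hQ]
          ring
        linarith only [hs, h1, h2]
      have k2 : Λ * |x - t| ≤ 1 := by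
        have h1 : 0 ≤ D * |x - t| := by (clear * - hL hR hκ; positivity)
        have h2 : 0 ≤ 2 * R * Λ / κ * |x - t| := by (clear * - hR hL hκ; positivity)
        have h3 : Q * |x - t| = 4 * (D * |x - t|) + Λ * |x - t| + 2 * R * Λ / κ * |x - t| := by
          rw [hQ]
          ring
        linarith only [hs, h1, h2]
      have k3 : 2 * R * Λ * |x - t| ≤ κ := by
        have h1 : 0 ≤ D * |x - t| := by (clear * - hL hR hκ; positivity)
        have h2 : 0 ≤ Λ * |x - t| := by (clear * - hL; positivity)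
        have h3 : Q * |x - t| = 4 * (D * |x - t|) + Λ * |x - t| + 2 * R * Λ / κ * |x - t| := by
          rw [hQ]
          ring
        have h4 : 2 * R * Λ / κ * |x - t| ≤ 1 := by linarith only [hs, h1, h2]
        have h5 := mul_le_mul_of_nonneg_left h4 hκ.le
        have h6 : κ * (2 * R * Λ / κ * |x - t|) = 2 * R * Λ * |x - t| := by
          (clear * - hκ hR; field_simp)
        linarith only [h6, h5]
      have h1 := F.step hx ht (hφ x hx) (hφ t ht) (hw t) (hcw t) k1 k2 k3
      refine h1.trans ?_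
      have h2 : (4 * R * Λ ^ 3 / κ + 6 * D ^ 3) * |x - t| ^ 3 ≤ C * |x - t| ^ 3 := by
        refine mul_le_mul_of_nonneg_right ?_ hε3
        have h3 : 0 ≤ 2 * R * Λ / κ := by (clear * - hR hL hκ; positivity)
        have h4 : 0 ≤ (2 * log (R / κ) + 2 * R * Λ / κ) * Q ^ 3 := by (clear * - hRκ hR hL hκ; positivity)
        linarith only [h3, h4]
      (clear ht0 ht1 f0 f1 f s0 s1 s hφ hw hcw hD hD0 hQ hQ0 hp hpb hC hx ht hε hs k1 k2 k3 h1; linarith)
    · have h1 := F.crude hx ht (hφ x hx) (hφ t ht)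
      have h2 : -(2 * R * Λ / κ) ≤ p t * (x - t) := by
        have h3 : |p t * (x - t)| ≤ 2 * R * Λ / κ * 1 := by
          rw [abs_mul]
          refine mul_le_mul (hpb t ht) ?_ hε (by (clear * - hR hL hκ; positivity))
          rw [abs_le]
          constructor <;> linarith only [hx.1, ht.2, hx.2, ht.1]
        (clear ht0 ht1 f0 f1 f s0 s1 s hcw D hD hD0 hRκ Q hQ hQ0 C hC hε3 hl h1; linarith only [(abs_le.1 h3).1])
      have h4 : 1 ≤ (Q * |x - t|) ^ 3 := one_le_pow₀ hl.le
      have h5 : (2 * log (R / κ) + 2 * R * Λ / κ) * 1 ≤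
          (2 * log (R / κ) + 2 * R * Λ / κ) * (Q * |x - t|) ^ 3 :=
        mul_le_mul_of_nonneg_left h4 (by (clear * - hRκ hR hL hκ; positivity))
      have h6 : (2 * log (R / κ) + 2 * R * Λ / κ) * (Q * |x - t|) ^ 3 ≤ C * |x - t| ^ 3 := by
        have h7 : 0 ≤ (4 * R * Λ ^ 3 / κ + 6 * D ^ 3 + 2 * R * Λ / κ) * |x - t| ^ 3 := by
          (clear * - hR hL hκ; positivity)
        rw [hC]
        linarith only [h7]
      linarith only [h6, h5, h2, h1]

end fam

/-- construction of the constants -/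
theorem exists_fam {b : ℝ} {r : ℕ} [NeZero r] (hb0 : 0 < b) (hb3 : b ≤ π / 3) {V : Finset ℝ}
    (hV : V.Nonempty) (hVs : ∀ v ∈ V, -v ∈ V) {G0 G1 : ZMod (2 * r) → ℝ → ℝ}
    (p0 : ∀ j, ∀ v ∈ V, 0 < G0 j v) (p1 : ∀ j, ∀ v ∈ V, 0 < G1 j v)
    (e0 : ∀ j, ∀ v ∈ V, G0 (j + r) (-v) = G0 j v) (e1 : ∀ j, ∀ v ∈ V, G1 (j + r) (-v) = G1 j v)
    (c0 : ∀ j, ∀ v ∈ V, v < G0 j v) (c1 : ∀ j, ∀ v ∈ V, v < G1 j v) :
    ∃ κ R Λ : ℝ, Fam b V G0 G1 κ R Λ := by
  have hne : ((univ : Finset (ZMod (2 * r))) ×ˢ V).Nonempty := univ_nonempty.product hV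
  obtain ⟨⟨i, u⟩, hiu, hmin⟩ := exists_min_image ((univ : Finset (ZMod (2 * r))) ×ˢ V)
    (fun x => min (G0 x.1 x.2 - x.2) (G1 x.1 x.2 - x.2)) hne
  obtain ⟨⟨i', u'⟩, hiu', hmax⟩ := exists_max_image ((univ : Finset (ZMod (2 * r))) ×ˢ V)
    (fun x => max (G0 x.1 x.2) (G1 x.1 x.2)) hne
  obtain ⟨⟨i2, u2⟩, hiu2, hmax2⟩ := exists_max_image ((univ : Finset (ZMod (2 * r))) ×ˢ V)
    (fun x => |log (G1 x.1 x.2) - log (G0 x.1 x.2)|) hne
  have hu : u ∈ V := (mem_product.1 hiu).2
  have hu' : u' ∈ V := (mem_product.1 hiu').2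
  set κ := min (G0 i u - u) (G1 i u - u) with hκ
  set R := max (G0 i' u') (G1 i' u') with hR
  have hκ0 : 0 < κ := lt_min (by linarith only [c0 i u hu]) (by linarith only [c1 i u hu])
  have hR0 : 0 < R := lt_max_of_lt_left (p0 i' u' hu')
  have hlo : ∀ j, ∀ v ∈ V, κ ≤ G0 j v - v ∧ κ ≤ G1 j v - v := by
    intro j v hv
    have := hmin (j, v) (mem_product.2 ⟨mem_univ _, hv⟩)
    exact le_min_iff.1 this
  have hup : ∀ j, ∀ v ∈ V, G0 j v ≤ R ∧ G1 j v ≤ R := by
    intro j v hv
    have := hmax (j, v) (mem_product.2 ⟨mem_univ _, hv⟩)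
    exact max_le_iff.1 this
  refine ⟨κ, R, |log (G1 i2 u2) - log (G0 i2 u2)|, hb0, hb3, hVs, ?_, hκ0, ?_, ?_, ?_⟩
  · intro t j v hv
    simp only [gt, e0 j v hv, e1 j v hv]
  · intro t ht j v hv
    obtain ⟨h1, h2⟩ := hlo j v hv
    rcases le_or_gt (κ + v) 0 with h | h
    · have := gt_pos G0 G1 t j v
      linarith only [h, this]
    · have l1 : log (κ + v) ≤ log (G0 j v) := Real.log_le_log h (by linarith only [h1])
      have l2 : log (κ + v) ≤ log (G1 j v) := Real.log_le_log h (by linarith only [h2])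
      have l3 : log (κ + v) ≤ (1 - t) * log (G0 j v) + t * log (G1 j v) := by
        have h3 := mul_le_mul_of_nonneg_left l1 (show 0 ≤ 1 - t by linarith only [ht.2])
        have h4 := mul_le_mul_of_nonneg_left l2 ht.1
        linarith only [h3, h4]
      have := Real.exp_le_exp.2 l3
      rw [Real.exp_log h] at this
      rw [gt]
      linarith only [this]
  · intro t ht j v hv
    obtain ⟨h1, h2⟩ := hup j v hv
    have l1 : log (G0 j v) ≤ log R := Real.log_le_log (p0 j v hv) h1
    have l2 : log (G1 j v) ≤ log R := Real.log_le_log (p1 j v hv) h2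
    have l3 : (1 - t) * log (G0 j v) + t * log (G1 j v) ≤ log R := by
      have h3 := mul_le_mul_of_nonneg_left l1 (show 0 ≤ 1 - t by linarith only [ht.2])
      have h4 := mul_le_mul_of_nonneg_left l2 ht.1
      linarith only [h3, h4]
    have := Real.exp_le_exp.2 l3
    rwa [Real.exp_log hR0] at this
  · intro j v hv
    exact hmax2 (j, v) (mem_product.2 ⟨mem_univ _, hv⟩)

theorem cm_congr {r : ℕ} {V : Finset ℝ} (hV : V.Nonempty) {G G' : ZMod (2 * r) → ℝ → ℝ}
    (h : ∀ j, ∀ v ∈ V, G j v = G' j v) : cm V hV G = cm V hV G' := by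
  funext j
  exact inf'_congr hV rfl fun v hv => by rw [h j v hv]

/-- the planar inequality, in terms of support numbers -/
theorem seq_main {b : ℝ} {r : ℕ} [NeZero r] (hb0 : 0 < b) (hb3 : b ≤ π / 3) {V : Finset ℝ}
    (hV : V.Nonempty) (hVs : ∀ v ∈ V, -v ∈ V) {G0 G1 : ZMod (2 * r) → ℝ → ℝ}
    (p0 : ∀ j, ∀ v ∈ V, 0 < G0 j v) (p1 : ∀ j, ∀ v ∈ V, 0 < G1 j v)
    (e0 : ∀ j, ∀ v ∈ V, G0 (j + r) (-v) = G0 j v) (e1 : ∀ j, ∀ v ∈ V, G1 (j + r) (-v) = G1 j v)
    (c0 : ∀ j, ∀ v ∈ V, v < G0 j v) (c1 : ∀ j, ∀ v ∈ V, v < G1 j v)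
    {t : ℝ} (ht0 : 0 < t) (ht1 : t < 1) {f0 f1 f : ZMod (2 * r) → ℝ}
    (s0 : IsSupp b r (cm V hV G0) f0) (s1 : IsSupp b r (cm V hV G1) f1)
    (s : IsSupp b r (cm V hV fun j v => G0 j v ^ (1 - t) * G1 j v ^ t) f) :
    qa b r f0 ^ (1 - t) * qa b r f1 ^ t ≤ qa b r f := by
  obtain ⟨κ, R, Λ, F⟩ := exists_fam hb0 hb3 hV hVs p0 p1 e0 e1 c0 c1
  have t0 : IsSupp b r (cm V hV (gt G0 G1 0)) f0 := by
    rw [cm_congr hV (G' := G0) fun j v hv => by
      rw [gt_eq (p0 j v hv) (p1 j v hv)]; simp]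
    exact s0
  have t1 : IsSupp b r (cm V hV (gt G0 G1 1)) f1 := by
    rw [cm_congr hV (G' := G1) fun j v hv => by
      rw [gt_eq (p0 j v hv) (p1 j v hv)]; simp]
    exact s1
  have tt : IsSupp b r (cm V hV (gt G0 G1 t)) f := by
    rw [cm_congr hV (G' := fun j v => G0 j v ^ (1 - t) * G1 j v ^ t) fun j v hv =>
      gt_eq (p0 j v hv) (p1 j v hv) t]
    exact s
  have h := F.main ht0.le ht1.le t0 t1 tt
  have q0 := F.qa_pos (by simp only [Set.mem_Icc, Std.le_refl, zero_le_one, and_self]) t0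
  have q1 := F.qa_pos (by simp only [Set.mem_Icc, zero_le_one, Std.le_refl, and_self]) t1
  have q := F.qa_pos ⟨ht0.le, ht1.le⟩ tt
  have h1 := Real.exp_le_exp.2 h
  rw [Real.exp_add, Real.exp_log q] at h1
  rwa [rpow_def_of_pos q0, rpow_def_of_pos q1, mul_comm (log (qa b r f0)),
    mul_comm (log (qa b r f1))]

end Vale.Agent.P227.C2
end

section

/-!
# P227 / C2 : area of a rotation invariant polygon, integer indexed preparations
-/

open Finset Real MeasureTheory

namespace Vale.Agent.P227.C2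
namespace AreaA

/-- edge lengths times `sin d` -/
noncomputable def L (d : ℝ) (g : ℤ → ℝ) (j : ℤ) : ℝ := g (j + 1) + g (j - 1) - 2 * cos d * g j

/-- the discrete Wronskian argument -/
lemma fwd {d : ℝ} {g : ℤ → ℝ} (hd0 : 0 < d) (hdpi : d ≤ π) (hL : ∀ j, 0 ≤ L d g j) (j : ℤ)
    (k : ℕ) (hk : (k : ℝ) * d ≤ π) :
    0 ≤ g (j + k) * sin d - g (j + 1) * sin (k * d) + g j * sin ((k - 1) * d) := by
  have hsd : 0 ≤ sin d := sin_nonneg_of_nonneg_of_le_pi hd0.le hdpi
  set F : ℕ → ℝ := fun k =>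
    g (j + k) * sin d - g (j + 1) * sin (k * d) + g j * sin ((k - 1) * d) with hF
  have hF0 : F 0 = 0 := by
    simp only [hF, CharP.cast_eq_zero, add_zero, zero_mul, sin_zero, mul_zero, sub_zero, zero_sub, neg_mul, one_mul, sin_neg, mul_neg, add_neg_cancel]
  have hF1 : F 1 = 0 := by
    simp only [hF, Nat.cast_one, one_mul, sub_self, zero_mul, sin_zero, mul_zero, add_zero]
  have hrec : ∀ k : ℕ, F (k + 2) = 2 * cos d * F (k + 1) - F k + sin d * L d g (j + (k + 1)) := by
    intro k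
    simp only [hF, L]
    have e1 : g (j + ((k + 2 : ℕ) : ℤ)) = g (j + (k + 1) + 1) := by
      congr 1
      push_cast
      ring
    have e2 : g (j + ((k + 1 : ℕ) : ℤ)) = g (j + (k + 1)) := by
      congr 1
    have e3 : g (j + (k + 1) - 1) = g (j + (k : ℤ)) := by
      congr 1
      ring
    rw [e1, e2, e3]
    have s1 : sin (((k + 2 : ℕ) : ℝ) * d) =
        2 * cos d * sin (((k + 1 : ℕ) : ℝ) * d) - sin ((k : ℝ) * d) := by
      have h1 : ((k + 2 : ℕ) : ℝ) * d = ((k + 1 : ℕ) : ℝ) * d + d := by push_cast; ring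
      have h2 : (k : ℝ) * d = ((k + 1 : ℕ) : ℝ) * d - d := by push_cast; ring
      rw [h1, h2, sin_add, sin_sub]
      ring
    have s2 : sin ((((k + 2 : ℕ) : ℝ) - 1) * d) =
        2 * cos d * sin ((((k + 1 : ℕ) : ℝ) - 1) * d) - sin (((k : ℝ) - 1) * d) := by
      have h1 : (((k + 2 : ℕ) : ℝ) - 1) * d = (((k + 1 : ℕ) : ℝ) - 1) * d + d := by
        push_cast; ring
      have h2 : ((k : ℝ) - 1) * d = (((k + 1 : ℕ) : ℝ) - 1) * d - d := by push_cast; ring
      rw [h1, h2, sin_add, sin_sub]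
      ring
    rw [s1, s2]
    ring
  have hW : ∀ k : ℕ, ((k : ℝ) * d ≤ π) →
      0 ≤ F (k + 1) * sin (k * d) - F k * sin ((k + 1) * d) := by
    intro k
    induction k with
    | zero =>
      intro _
      simp [hF0]
    | succ k ih =>
      intro hk
      have hk' : (k : ℝ) * d ≤ π := by
        push_cast at hk
        linarith
      have h1 := ih hk'
      have h2 : 0 ≤ sin (((k + 1 : ℕ) : ℝ) * d) := by
        apply sin_nonneg_of_nonneg_of_le_pi _ hk
        positivity
      have h3 : F (k + 1 + 1) * sin (((k + 1 : ℕ) : ℝ) * d) -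
          F (k + 1) * sin ((((k + 1 : ℕ) : ℝ) + 1) * d) =
          (F (k + 1) * sin (k * d) - F k * sin ((k + 1) * d)) +
          sin (((k + 1 : ℕ) : ℝ) * d) * (sin d * L d g (j + (k + 1))) := by
        have e := hrec k
        have e' : F (k + 1 + 1) = F (k + 2) := rfl
        rw [e', e]
        have s1 : sin ((((k + 1 : ℕ) : ℝ) + 1) * d) =
            2 * cos d * sin (((k + 1 : ℕ) : ℝ) * d) - sin ((k : ℝ) * d) := by
          have h1 : (((k + 1 : ℕ) : ℝ) + 1) * d = ((k + 1 : ℕ) : ℝ) * d + d := by push_cast; ring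
          have h2 : (k : ℝ) * d = ((k + 1 : ℕ) : ℝ) * d - d := by push_cast; ring
          rw [h1, h2, sin_add, sin_sub]
          ring
        have s2 : ((k : ℝ) + 1) * d = ((k + 1 : ℕ) : ℝ) * d := by push_cast; ring
        rw [s1, s2]
        ring
      rw [h3]
      have h4 := mul_nonneg h2 (mul_nonneg hsd (hL (j + (k + 1))))
      linarith only [h1, h4]
  have hB : ∀ k : ℕ, ((k : ℝ) * d ≤ π) → 0 ≤ F k := by
    intro k
    induction k with
    | zero =>
      intro _
      rw [hF0]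
    | succ k ih =>
      intro hk
      have hk' : (k : ℝ) * d < π := by
        push_cast at hk
        linarith
      rcases Nat.eq_zero_or_pos k with h0 | h0
      · subst h0
        simp only [Nat.zero_add]
        rw [hF1]
      · have h1 := hW k hk'.le
        have h2 := ih hk'.le
        have h3 : 0 < sin ((k : ℝ) * d) := by
          apply sin_pos_of_pos_of_lt_pi _ hk'
          have : (0 : ℝ) < k := by exact_mod_cast h0
          (clear * - h0 hd0; positivity)
        have h4 : 0 ≤ sin (((k : ℝ) + 1) * d) := by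
          apply sin_nonneg_of_nonneg_of_le_pi
          · positivity
          · push_cast at hk
            exact hk
        have h5 : 0 ≤ F (k + 1) * sin ((k : ℝ) * d) := by
          have := mul_nonneg h2 h4
          linarith only [h1, this]
        by_contra hc
        push Not at hc
        have := mul_neg_of_neg_of_pos hc h3
        linarith only [h5, this]
  exact hB k hk

lemma bwd {d : ℝ} {g : ℤ → ℝ} (hd0 : 0 < d) (hdpi : d ≤ π) (hL : ∀ j, 0 ≤ L d g j) (j : ℤ)
    (k : ℕ) (hk : (k : ℝ) * d ≤ π) :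
    0 ≤ g (j + 1 - k) * sin d - g j * sin (k * d) + g (j + 1) * sin ((k - 1) * d) := by
  have h := fwd (g := fun i => g (-i)) hd0 hdpi (fun i => by
    have := hL (-i)
    simp only [L] at this ⊢
    have e1 : -(i + 1) = -i - 1 := by ring
    have e2 : -(i - 1) = -i + 1 := by ring
    rw [e1, e2]
    linarith) (-(j + 1)) k hk
  have e1 : -(-(j + 1) + (k : ℤ)) = j + 1 - k := by ring
  have e2 : -(-(j + 1) + 1) = j := by ring
  have e3 : -(-(j + 1)) = j + 1 := by ring
  rw [e1, e2, e3] at h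
  exact h

/-- the vertices of the polygon satisfy all the constraints -/
lemma vert {d : ℝ} {g : ℤ → ℝ} {N : ℕ} (hd0 : 0 < d) (hN : (N : ℝ) * d = π) (hN1 : 1 ≤ N)
    (hper : ∀ j, g (j + 2 * N) = g j) (hL : ∀ j, 0 ≤ L d g j) (j k : ℤ) :
    g (j + 1) * sin ((k - j) * d) - g j * sin ((k - j - 1) * d) ≤ g k * sin d := by
  have hdpi : d ≤ π := by
    have h1 : (1 : ℝ) ≤ N := by exact_mod_cast hN1
    linarith [mul_nonneg (le_of_lt (sub_pos.2 hd0)) (sub_nonneg.2 h1), mul_eq_zero_of_left (sub_eq_zero.2 hN) (↑N - (1))]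
  -- reduce `k` modulo `2 N`
  have hperZ : ∀ (q : ℤ) (i : ℤ), g (i + q * (2 * N)) = g i := by
    intro q
    induction q using Int.induction_on with
    | zero => intro i; simp
    | succ n ih =>
      intro i
      have e : i + ((n : ℤ) + 1) * (2 * N) = (i + n * (2 * N)) + 2 * N := by ring
      rw [e, hper, ih]
    | pred n ih =>
      intro i
      have h1 := hper (i + (-(n : ℤ) - 1) * (2 * N))
      have e : i + (-(n : ℤ) - 1) * (2 * N) + 2 * N = i + (-(n : ℤ)) * (2 * N) := by ring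
      rw [e, ih] at h1
      exact h1.symm
  have hNpos : (0 : ℤ) < 2 * N := by
    have : (0 : ℤ) < N := by exact_mod_cast hN1
    linarith only [hN1]
  -- residue of `k - j + N - 1`
  set q : ℤ := (k - j + N - 1) / (2 * N) with hq
  set t : ℤ := (k - j + N - 1) % (2 * N) with ht
  have hdiv : (2 * N) * q + t = k - j + N - 1 := Int.mul_ediv_add_emod _ _
  have ht0 : 0 ≤ t := Int.emod_nonneg _ hNpos.ne'
  have ht1 : t < 2 * N := Int.emod_lt_of_pos _ hNpos
  -- `i = t - N + 1`, `-N + 1 ≤ i ≤ N`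
  obtain ⟨i, hi⟩ : ∃ i : ℤ, i = t - N + 1 := ⟨_, rfl⟩
  have hki : k = j + i + q * (2 * N) := by
    rw [hi]
    linarith only [hdiv]
  have hgk : g k = g (j + i) := by rw [hki, hperZ]
  have hs : ∀ x : ℤ, sin (((i + x : ℤ) : ℝ) * d) = sin (((k - j + x : ℤ) : ℝ) * d) := by
    intro x
    have e : ((k - j + x : ℤ) : ℝ) * d = ((i + x : ℤ) : ℝ) * d + (q : ℝ) * (2 * π) := by
      rw [hki, ← hN]
      push_cast
      ring
    rw [e, sin_add_int_mul_two_pi]
  have hs0 : sin (((k : ℝ) - j) * d) = sin ((i : ℝ) * d) := by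
    have := hs 0
    push_cast at this
    simp only [add_zero] at this
    exact this.symm
  have hs1 : sin (((k : ℝ) - j - 1) * d) = sin (((i : ℝ) - 1) * d) := by
    have := hs (-1)
    push_cast at this
    rw [← sub_eq_add_neg, ← sub_eq_add_neg] at this
    exact this.symm
  rw [hs0, hs1, hgk]
  have hi1 : i ≤ N := by omega
  have hi2 : -N + 1 ≤ i := by (clear * - hdiv ht0 hi; omega)
  rcases le_total 0 i with h0 | h0
  · obtain ⟨n, hn⟩ := Int.eq_ofNat_of_zero_le h0
    have hnN : n ≤ N := by (clear * - hdiv ht1 hi hn; omega)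
    have h := fwd hd0 hdpi hL j n (by
      rw [← hN]
      have : (n : ℝ) ≤ N := by exact_mod_cast hnN
      linarith only [mul_nonneg (le_of_lt (sub_pos.2 hd0)) (sub_nonneg.2 this)])
    rw [hn]
    push_cast
    linarith only [h]
  · obtain ⟨n, hn⟩ := Int.eq_ofNat_of_zero_le (show (0 : ℤ) ≤ 1 - i by (clear * - h0; omega))
    have hnN : n ≤ N := by omega
    have h := bwd hd0 hdpi hL j n (by
      rw [← hN]
      have : (n : ℝ) ≤ N := by exact_mod_cast hnN
      nlinarith only [hd0, this])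
    have hi' : i = 1 - n := by omega
    have e1 : j + 1 - (n : ℤ) = j + i := by rw [hi']; ring
    rw [e1] at h
    have e2 : sin ((n : ℝ) * d) = - sin (((i : ℝ) - 1) * d) := by
      rw [← sin_neg, hi']
      congr 1
      push_cast
      ring
    have e3 : sin (((n : ℝ) - 1) * d) = - sin ((i : ℝ) * d) := by
      rw [← sin_neg, hi']
      congr 1
      push_cast
      ring
    rw [e2, e3] at h
    linarith only [h]

/-- points of the line of the `j`-th edge between the two vertices satisfy all the constraints -/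
lemma ray {d : ℝ} {g : ℤ → ℝ} {N : ℕ} (hd0 : 0 < d) (hN : (N : ℝ) * d = π) (hN1 : 2 ≤ N)
    (hper : ∀ j, g (j + 2 * N) = g j) (hL : ∀ j, 0 ≤ L d g j) (j : ℤ) (s : ℝ)
    (h1 : s * sin d ≤ g (j + 1) - cos d * g j) (h2 : cos d * g j - g (j - 1) ≤ s * sin d)
    (k : ℤ) : g j * cos ((k - j) * d) + s * sin ((k - j) * d) ≤ g k := by
  have hdpi : d < π := by
    have h1 : (2 : ℝ) ≤ N := by exact_mod_cast hN1
    linarith [mul_eq_zero_of_left (sub_eq_zero.2 hN) (↑N - (2)), mul_nonneg (le_of_lt (sub_pos.2 hd0)) (sub_nonneg.2 h1), hd0]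
  have hsd : 0 < sin d := sin_pos_of_pos_of_lt_pi hd0 hdpi
  rw [← mul_le_mul_iff_left₀ hsd]
  rcases le_total 0 (sin (((k : ℝ) - j) * d)) with h | h
  · have hv := vert hd0 hN (by omega) hper hL j k
    have e : sin (((k : ℝ) - j - 1) * d) =
        sin (((k : ℝ) - j) * d) * cos d - cos (((k : ℝ) - j) * d) * sin d := by
      rw [← sin_sub]
      congr 1
      ring
    rw [e] at hv
    have h3 := mul_le_mul_of_nonneg_right h1 h
    linarith
  · have hv := vert hd0 hN (by omega) hper hL (j - 1) k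
    have e1 : (j - 1 + 1 : ℤ) = j := by ring
    have e : sin (((k : ℝ) - ((j - 1 : ℤ) : ℝ)) * d) =
        sin (((k : ℝ) - j) * d) * cos d + cos (((k : ℝ) - j) * d) * sin d := by
      rw [← sin_add]
      congr 1
      push_cast
      ring
    have e2 : sin (((k : ℝ) - ((j - 1 : ℤ) : ℝ) - 1) * d) = sin (((k : ℝ) - j) * d) := by
      congr 1
      push_cast
      ring
    rw [e, e1, e2] at hv
    have h3 := mul_le_mul_of_nonpos_right h2 h
    linarith only [h3, hv]

/-- the angles of the vertices, seen from the two adjacent normals -/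
lemma link {d : ℝ} {u v : ℝ} (hd0 : 0 < d) (hd : d < π / 2) (hu : 0 < u) (hv : 0 < v) :
    arctan ((v - cos d * u) / sin d / u) = d + arctan ((cos d * v - u) / sin d / v) := by
  have hsd : 0 < sin d := sin_pos_of_pos_of_lt_pi hd0 (by linarith [pi_pos])
  have hcd : 0 < cos d := cos_pos_of_mem_Ioo ⟨by linarith only [hd0, hd], hd⟩
  have h1 : d = arctan (tan d) := (arctan_tan (by linarith only [hd0, hd]) hd).symm
  have htan : tan d = sin d / cos d := tan_eq_sin_div_cos d
  have hprod : tan d * ((cos d * v - u) / sin d / v) = 1 - u / (v * cos d) := by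
    rw [htan]
    field_simp
  have hlt : tan d * ((cos d * v - u) / sin d / v) < 1 := by
    rw [hprod]
    have : 0 < u / (v * cos d) := by (clear * - hu hv hcd; positivity)
    linarith only [this]
  have e0 : d + arctan ((cos d * v - u) / sin d / v) =
      arctan (tan d) + arctan ((cos d * v - u) / sin d / v) := by
    rw [arctan_tan (by linarith only [hd0, hd]) hd]
  rw [e0, arctan_add hlt, hprod]
  congr 1
  rw [htan]
  have hsq := sin_sq_add_cos_sq d
  have hne : 1 - (1 - u / (v * cos d)) ≠ 0 := by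
    have : 0 < u / (v * cos d) := by (clear * - hu hv hcd; positivity)
    linarith only [hprod, hlt]
  rw [eq_div_iff hne]
  field_simp
  linear_combination (-(u * v)) * hsq

end AreaA
end Vale.Agent.P227.C2
end
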