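import Mathlib
import Vale.Agent.P227.MathlibUsed

set_option linter.all false

section

open MeasureTheory Set
open scoped ENNReal NNReal Pointwise Matrix

namespace Vale.Agent.P227.T1

/-- Support function in coordinates. -/
noncomputable def hs {n : ℕ} (K : Set (Fin n → ℝ)) (u : Fin n → ℝ) : ℝ :=
  sSup ((fun x => x ⬝ᵥ u) '' K)

/-- Wulff shape in coordinates. -/
def wf {n : ℕ} (f : (Fin n → ℝ) → ℝ) : Set (Fin n → ℝ) := {x | ∀ u, x ⬝ᵥ u ≤ f u}

theorem continuous_dot {n : ℕ} : Continuous fun p : (Fin n → ℝ) × (Fin n → ℝ) => p.2 ⬝ᵥ p.1 := by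
  simp only [dotProduct]
  fun_prop

variable {n : ℕ} {K L : Set (Fin n → ℝ)}

theorem hs_bdd (hK : IsCompact K) (u : Fin n → ℝ) : BddAbove ((fun x => x ⬝ᵥ u) '' K) := by
  apply (hK.image _).bddAbove
  simp only [dotProduct]
  (clear * -; fun_prop)

theorem le_hs (hK : IsCompact K) {x : Fin n → ℝ} (hx : x ∈ K) (u : Fin n → ℝ) :
    x ⬝ᵥ u ≤ hs K u := le_csSup (hs_bdd hK u) ⟨x, hx, rfl⟩

theorem exists_hs (hK : IsCompact K) (nK : K.Nonempty) (u : Fin n → ℝ) :
    ∃ x ∈ K, x ⬝ᵥ u = hs K u := by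
  have hc : ContinuousOn (fun x : Fin n → ℝ => x ⬝ᵥ u) K := by
    simp only [dotProduct]
    (clear * -; fun_prop)
  obtain ⟨x, hx, h⟩ := hK.exists_sSup_image_eq nK hc
  exact ⟨x, hx, h.symm⟩

theorem hs_le (nK : K.Nonempty) {u : Fin n → ℝ} {c : ℝ} (h : ∀ x ∈ K, x ⬝ᵥ u ≤ c) :
    hs K u ≤ c := by
  apply csSup_le (nK.image _)
  rintro _ ⟨x, hx, rfl⟩
  exact h x hx

theorem hs_continuous (hK : IsCompact K) : Continuous (hs K) :=
  hK.continuous_sSup (f := fun (u x : Fin n → ℝ) => x ⬝ᵥ u) continuous_dot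

theorem hs_nonneg (hK : IsCompact K) (nK : K.Nonempty) (sK : ∀ x ∈ K, -x ∈ K)
    (u : Fin n → ℝ) : 0 ≤ hs K u := by
  obtain ⟨x, hx⟩ := nK
  have h1 := le_hs hK hx u
  have h2 := le_hs hK (sK x hx) u
  rw [neg_dotProduct] at h2
  linarith only [h1, h2]

theorem hs_smul (hK : IsCompact K) (nK : K.Nonempty) {c : ℝ} (hc : 0 ≤ c) (u : Fin n → ℝ) :
    hs K (c • u) = c * hs K u := by
  apply le_antisymm
  · apply hs_le nK
    intro x hx
    rw [dotProduct_smul, smul_eq_mul]
    exact mul_le_mul_of_nonneg_left (le_hs hK hx u) hc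
  · obtain ⟨x, hx, h⟩ := exists_hs hK nK u
    rw [← h, ← smul_eq_mul, ← dotProduct_smul]
    exact le_hs hK hx _

theorem hs_neg (hK : IsCompact K) (nK : K.Nonempty) (sK : ∀ x ∈ K, -x ∈ K) (u : Fin n → ℝ) :
    hs K (-u) = hs K u := by
  apply le_antisymm
  · apply hs_le nK
    intro x hx
    rw [dotProduct_neg, ← neg_dotProduct]
    exact le_hs hK (sK x hx) u
  · apply hs_le nK
    intro x hx
    have := le_hs hK (sK x hx) (-u)
    rwa [dotProduct_neg, neg_dotProduct, neg_neg] at this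

theorem hs_zero (hK : IsCompact K) (nK : K.Nonempty) : hs K 0 = 0 := by
  have := hs_smul hK nK (le_refl (0 : ℝ)) 0
  simpa using this

/-- A set of positive volume has positive support function (symmetric compact). -/
theorem hs_pos (hK : IsCompact K) (sK : ∀ x ∈ K, -x ∈ K) (vK : volume K ≠ 0)
    {u : Fin n → ℝ} (hu : u ≠ 0) : 0 < hs K u := by
  have nK : K.Nonempty := by
    rw [nonempty_iff_ne_empty]
    rintro rfl
    simp at vK
  rcases (hs_nonneg hK nK sK u).lt_or_eq with h | h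
  · exact h
  exfalso
  apply vK
  let F : (Fin n → ℝ) →ₗ[ℝ] ℝ :=
    { toFun := fun x => x ⬝ᵥ u
      map_add' := fun x y => add_dotProduct x y u
      map_smul' := fun c x => smul_dotProduct c x u }
  have hF : LinearMap.ker F ≠ ⊤ := by
    intro hk
    have : u ∈ LinearMap.ker F := by rw [hk]; trivial
    rw [LinearMap.mem_ker] at this
    exact hu (dotProduct_self_eq_zero.1 this)
  refine measure_mono_null ?_ (Measure.addHaar_submodule volume (LinearMap.ker F) hF)
  intro x hx
  have h1 := le_hs hK hx u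
  have h2 := le_hs hK (sK x hx) u
  rw [neg_dotProduct] at h2
  show F x = 0
  show x ⬝ᵥ u = 0
  linarith only [h, h2, h1]

theorem wf_isClosed (f : (Fin n → ℝ) → ℝ) : IsClosed (wf f) := by
  have : wf f = ⋂ u, {x | x ⬝ᵥ u ≤ f u} := by
    ext x; simp only [wf, mem_ofPred_eq, mem_iInter]
  rw [this]
  apply isClosed_iInter
  intro u
  apply isClosed_le _ continuous_const
  simp only [dotProduct]
  (clear * -; fun_prop)

theorem wf_convex (f : (Fin n → ℝ) → ℝ) : Convex ℝ (wf f) := by
  intro x hx y hy a b ha hb hab u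
  rw [add_dotProduct, smul_dotProduct, smul_dotProduct]
  have h1 := mul_le_mul_of_nonneg_left (hx u) ha
  have h2 := mul_le_mul_of_nonneg_left (hy u) hb
  have : a * f u + b * f u = f u := by rw [← add_mul, hab, one_mul]
  simp only [smul_eq_mul]
  linarith only [h1, h2, this]

theorem wf_isCompact (f : (Fin n → ℝ) → ℝ) : IsCompact (wf f) := by
  refine Metric.isCompact_of_isClosed_isBounded (wf_isClosed f) ?_
  rw [Metric.isBounded_iff_subset_closedBall 0]
  refine ⟨∑ i, (|f (Pi.single i 1)| + |f (-Pi.single i 1)|), ?_⟩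
  intro x hx
  rw [mem_closedBall_zero_iff, pi_norm_le_iff_of_nonneg (by positivity)]
  intro i
  have h1 := hx (Pi.single i 1)
  have h2 := hx (-Pi.single i 1)
  rw [dotProduct_neg] at h2
  simp only [dotProduct_single, mul_one] at h1 h2
  have h3 : |f (Pi.single i 1)| + |f (-Pi.single i 1)| ≤
      ∑ i, (|f (Pi.single i 1)| + |f (-Pi.single i 1)|) :=
    Finset.single_le_sum (f := fun i => |f (Pi.single i 1)| + |f (-Pi.single i 1)|)
      (fun i _ => by (clear * -; positivity)) (Finset.mem_univ i)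
  rw [Real.norm_eq_abs, abs_le]
  have h4 := le_abs_self (f (Pi.single i 1))
  have h5 := le_abs_self (f (-Pi.single i 1))
  have h6 := abs_nonneg (f (Pi.single i 1))
  have h7 := abs_nonneg (f (-Pi.single i 1))
  constructor <;> linarith

/-- Touching directions suffice to define the Wulff shape. -/
theorem exists_touch {f : (Fin n → ℝ) → ℝ} (fc : Continuous f) (fp : ∀ u, u ≠ 0 → 0 < f u)
    (f0 : f 0 = 0) (fh : ∀ c : ℝ, 0 ≤ c → ∀ u, f (c • u) = c * f u) {x : Fin n → ℝ}
    (hx : x ∉ wf f) : ∃ v : Fin n → ℝ, ‖v‖ = 1 ∧ hs (wf f) v = f v ∧ f v < x ⬝ᵥ v := by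
  have hx' : ∃ u, f u < x ⬝ᵥ u := by
    by_contra h
    push Not at h
    exact hx h
  obtain ⟨u, hu⟩ := hx'
  have hu0 : u ≠ 0 := by
    rintro rfl
    rw [f0, dotProduct_zero] at hu
    exact lt_irrefl _ hu
  have hnu : 0 < ‖u‖ := norm_pos_iff.2 hu0
  set S := Metric.sphere (0 : Fin n → ℝ) 1 with hS
  have hSc : IsCompact S := isCompact_sphere _ _
  have hu1 : ‖u‖⁻¹ • u ∈ S := by
    rw [hS, mem_sphere_zero_iff_norm, norm_smul, norm_inv, norm_norm, inv_mul_cancel₀ hnu.ne']
  have hcd : Continuous fun v : Fin n → ℝ => x ⬝ᵥ v := by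
    simp only [dotProduct]
    fun_prop
  have hcont : ContinuousOn (fun v : Fin n → ℝ => x ⬝ᵥ v / f v) S := by
    apply ContinuousOn.div hcd.continuousOn
    · exact fc.continuousOn
    · intro v hv
      have : v ≠ 0 := by
        rintro rfl
        simp only [hS, mem_sphere_iff_norm, sub_self, norm_zero, zero_ne_one] at hv
      exact (fp v this).ne'
  obtain ⟨v, hv, hmax⟩ := hSc.exists_isMaxOn ⟨_, hu1⟩ hcont
  have hv1 : ‖v‖ = 1 := by simpa only [hS, mem_sphere_iff_norm, sub_zero] using hv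
  have hv0 : v ≠ 0 := by
    rintro rfl
    simp at hv1
  have hfv := fp v hv0
  set ρ := x ⬝ᵥ v / f v with hρ
  have hall : ∀ w, w ≠ 0 → x ⬝ᵥ w ≤ ρ * f w := by
    intro w hw
    have hnw : 0 < ‖w‖ := norm_pos_iff.2 hw
    have hw1 : ‖w‖⁻¹ • w ∈ S := by
      rw [hS, mem_sphere_zero_iff_norm, norm_smul, norm_inv, norm_norm, inv_mul_cancel₀ hnw.ne']
    have h := hmax hw1
    simp only [mem_ofPred_eq] at h
    rw [dotProduct_smul, fh _ (by positivity), smul_eq_mul,
      mul_div_mul_left _ _ (by positivity)] at h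
    rwa [div_le_iff₀ (fp w hw)] at h
  have hρ1 : 1 < ρ := by
    have h1 := hall u hu0
    have h2 := fp u hu0
    by_contra h
    push Not at h
    have := mul_le_mul_of_nonneg_right h h2.le
    linarith only [hu, h1, this]
  have hρ0 : 0 < ρ := by linarith only [hρ1]
  have hy : ρ⁻¹ • x ∈ wf f := by
    intro w
    by_cases hw : w = 0
    · subst hw
      simp only [dotProduct_zero, f0, Std.le_refl]
    · rw [smul_dotProduct, smul_eq_mul, inv_mul_le_iff₀ hρ0]
      exact hall w hw
  have hxv : x ⬝ᵥ v = ρ * f v := by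
    rw [hρ]; (clear * - hfv; field_simp)
  refine ⟨v, hv1, ?_, ?_⟩
  · apply le_antisymm
    · exact hs_le ⟨_, hy⟩ fun y hy => hy v
    · have := le_hs (wf_isCompact f) hy v
      rw [smul_dotProduct, hxv, smul_eq_mul, ← mul_assoc, inv_mul_cancel₀ hρ0.ne', one_mul] at this
      exact this
  · rw [hxv]
    nlinarith only [hfv, hρ1]

/-- Two-term Hoelder inequality. -/
theorem holder2 {l : ℝ} (hl0 : 0 < l) (hl1 : l < 1) {p q r s : ℝ} (hp : 0 ≤ p) (hq : 0 ≤ q)
    (hr : 0 ≤ r) (hs : 0 ≤ s) :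
    p ^ (1 - l) * q ^ l + r ^ (1 - l) * s ^ l ≤ (p + r) ^ (1 - l) * (q + s) ^ l := by
  have h1l : 0 < 1 - l := by linarith
  rcases (add_nonneg hp hr).eq_or_lt with h | h
  · have hp0 : p = 0 := by linarith only [hp, hr, h]
    have hr0 : r = 0 := by linarith only [hr, hp, h]
    subst hp0 hr0
    simp [Real.zero_rpow h1l.ne']
  rcases (add_nonneg hq hs).eq_or_lt with h' | h'
  · have hq0 : q = 0 := by linarith only [hq, hs, h']
    have hs0 : s = 0 := by linarith only [hs, hq, h']
    subst hq0 hs0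
    simp [Real.zero_rpow hl0.ne']
  have e1 := Real.geom_mean_le_arith_mean2_weighted h1l.le hl0.le
    (div_nonneg hp h.le) (div_nonneg hq h'.le) (by ring)
  have e2 := Real.geom_mean_le_arith_mean2_weighted h1l.le hl0.le
    (div_nonneg hr h.le) (div_nonneg hs h'.le) (by ring)
  rw [Real.div_rpow hp h.le, Real.div_rpow hq h'.le, div_mul_div_comm] at e1
  rw [Real.div_rpow hr h.le, Real.div_rpow hs h'.le, div_mul_div_comm] at e2
  have hD : 0 < (p + r) ^ (1 - l) * (q + s) ^ l := by (clear * - h h'; positivity)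
  have e3 : (p ^ (1 - l) * q ^ l + r ^ (1 - l) * s ^ l) / ((p + r) ^ (1 - l) * (q + s) ^ l) ≤ 1 := by
    rw [add_div]
    calc _ ≤ (1 - l) * (p / (p + r)) + l * (q / (q + s)) +
          ((1 - l) * (r / (p + r)) + l * (s / (q + s))) := add_le_add e1 e2
      _ = (1 - l) * ((p + r) / (p + r)) + l * ((q + s) / (q + s)) := by ring
      _ = 1 := by rw [div_self h.ne', div_self h'.ne']; ring
  rwa [div_le_one hD] at e3

end Vale.Agent.P227.T1
end

section

open MeasureTheory Set
open scoped ENNReal NNReal Pointwise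

namespace Vale.Agent.P227.T1

/-- One-dimensional Brunn-Minkowski, compact case, weighted. -/
theorem bm_compact {A B C : Set ℝ} (hA : IsCompact A) (hB : IsCompact B)
    (nA : A.Nonempty) (nB : B.Nonempty) {s t : ℝ} (hs : 0 ≤ s) (ht : 0 ≤ t)
    (h : ∀ a ∈ A, ∀ b ∈ B, s * a + t * b ∈ C) :
    ENNReal.ofReal s * volume A + ENNReal.ofReal t * volume B ≤ volume C := by
  obtain ⟨a, haA, ha⟩ := hA.exists_isGreatest nA
  obtain ⟨b, hbB, hb⟩ := hB.exists_isLeast nB
  have h1 : (fun x => x + t * b) '' (s • A) ⊆ C := by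
    rintro _ ⟨_, ⟨x, hx, rfl⟩, rfl⟩
    exact h x hx b hbB
  have h2 : (fun y => s * a + y) '' (t • B) ⊆ C := by
    rintro _ ⟨_, ⟨y, hy, rfl⟩, rfl⟩
    exact h a haA y hy
  have c2 : IsCompact ((fun y => s * a + y) '' (t • B)) := (hB.smul t).image (by fun_prop)
  have hdis : AEDisjoint volume ((fun x => x + t * b) '' (s • A))
      ((fun y => s * a + y) '' (t • B)) := by
    have : ((fun x => x + t * b) '' (s • A)) ∩ ((fun y => s * a + y) '' (t • B)) ⊆
        {s * a + t * b} := by
      rintro _ ⟨⟨_, ⟨x, hx, rfl⟩, rfl⟩, ⟨_, ⟨y, hy, rfl⟩, hxy⟩⟩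
      have hx' := mul_le_mul_of_nonneg_left (ha hx) hs
      have hy' := mul_le_mul_of_nonneg_left (hb hy) ht
      simp only [smul_eq_mul] at hxy ⊢
      simp only [mem_singleton_iff]
      linarith only [hxy, hy', hx']
    exact measure_mono_null this (by simp)
  have v1 : volume ((fun x => x + t * b) '' (s • A)) = ENNReal.ofReal s * volume A := by
    have : volume ((fun x => x + t * b) '' (s • A)) = volume (s • A) := by simp only [image_add_right, measure_preimage_add_right, Measure.addHaar_smul, Module.finrank_self, pow_one]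
    rw [this, Measure.addHaar_smul]
    simp [abs_of_nonneg hs]
  have v2 : volume ((fun y => s * a + y) '' (t • B)) = ENNReal.ofReal t * volume B := by
    have : volume ((fun y => s * a + y) '' (t • B)) = volume (t • B) := by simp only [image_add_left, measure_preimage_add, Measure.addHaar_smul, Module.finrank_self, pow_one]
    rw [this, Measure.addHaar_smul]
    simp [abs_of_nonneg ht]
  rw [← v1, ← v2, ← measure_union₀ c2.measurableSet.nullMeasurableSet hdis]
  exact measure_mono (union_subset h1 h2)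

/-- One-dimensional Brunn-Minkowski, weighted, measurable sets. -/
theorem bm_meas {A B C : Set ℝ} (hA : MeasurableSet A) (hB : MeasurableSet B)
    (nA : A.Nonempty) (nB : B.Nonempty) {s t : ℝ} (hs : 0 < s) (ht : 0 < t)
    (h : ∀ a ∈ A, ∀ b ∈ B, s * a + t * b ∈ C) :
    ENNReal.ofReal s * volume A + ENNReal.ofReal t * volume B ≤ volume C := by
  have key : ∀ K L : Set ℝ, IsCompact K → IsCompact L → K ⊆ A → L ⊆ B →
      ENNReal.ofReal s * volume K + ENNReal.ofReal t * volume L ≤ volume C := by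
    intro K L hK hL hKA hLB
    obtain ⟨a0, ha0⟩ := nA
    obtain ⟨b0, hb0⟩ := nB
    have hK' : IsCompact (K ∪ {a0}) := hK.union isCompact_singleton
    have hL' : IsCompact (L ∪ {b0}) := hL.union isCompact_singleton
    have := bm_compact hK' hL' ⟨a0, by simp⟩ ⟨b0, by simp⟩ (C := C) hs.le ht.le (by
      intro a ha b hb
      apply h
      · rcases ha with ha | ha
        · exact hKA ha
        · rw [mem_singleton_iff.mp ha]; exact ha0
      · rcases hb with hb | hb
        · exact hLB hb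
        · rw [mem_singleton_iff.mp hb]; exact hb0)
    refine le_trans (add_le_add ?_ ?_) this
    · gcongr
      exact subset_union_left
    · gcongr
      exact subset_union_left
  have hs0 : ENNReal.ofReal s ≠ 0 := by simpa only [ne_eq, ENNReal.ofReal_eq_zero, not_le] using hs
  have ht0 : ENNReal.ofReal t ≠ 0 := by simpa only [ne_eq, ENNReal.ofReal_eq_zero, not_le] using ht
  have eA : ENNReal.ofReal s * volume A =
      ⨆ K : {K : Set ℝ // IsCompact K ∧ K ⊆ A}, ENNReal.ofReal s * volume K.1 := by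
    rw [hA.measure_eq_iSup_isCompact]
    rw [← ENNReal.mul_iSup, iSup_subtype]
    congr 1
    apply le_antisymm
    · refine iSup_le fun K => iSup_le fun h1 => iSup_le fun h2 => ?_
      exact le_iSup_of_le K (le_iSup_of_le ⟨h2, h1⟩ le_rfl)
    · refine iSup_le fun K => iSup_le fun h1 => ?_
      exact le_iSup_of_le K (le_iSup_of_le h1.2 (le_iSup_of_le h1.1 le_rfl))
  have eB : ENNReal.ofReal t * volume B =
      ⨆ K : {K : Set ℝ // IsCompact K ∧ K ⊆ B}, ENNReal.ofReal t * volume K.1 := by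
    rw [hB.measure_eq_iSup_isCompact]
    rw [← ENNReal.mul_iSup, iSup_subtype]
    congr 1
    apply le_antisymm
    · refine iSup_le fun K => iSup_le fun h1 => iSup_le fun h2 => ?_
      exact le_iSup_of_le K (le_iSup_of_le ⟨h2, h1⟩ le_rfl)
    · refine iSup_le fun K => iSup_le fun h1 => ?_
      exact le_iSup_of_le K (le_iSup_of_le h1.2 (le_iSup_of_le h1.1 le_rfl))
  have : Nonempty {K : Set ℝ // IsCompact K ∧ K ⊆ A} := ⟨⟨∅, isCompact_empty, empty_subset _⟩⟩
  have : Nonempty {K : Set ℝ // IsCompact K ∧ K ⊆ B} := ⟨⟨∅, isCompact_empty, empty_subset _⟩⟩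
  rw [eA, eB]
  exact ENNReal.iSup_add_iSup_le fun K L => key K.1 L.1 K.2.1 L.2.1 K.2.2 L.2.2

theorem ennreal_amgm {l : ℝ} (hl0 : 0 < l) (hl1 : l < 1) (F G : ℝ≥0∞) :
    F ^ (1 - l) * G ^ l ≤ ENNReal.ofReal (1 - l) * F + ENNReal.ofReal l * G := by
  by_cases hF : F = ∞
  · subst hF
    have : ENNReal.ofReal (1 - l) * ∞ = ∞ := ENNReal.mul_top (by simpa only [ne_eq, ENNReal.ofReal_eq_zero, tsub_le_iff_right, zero_add, not_le] using hl1)
    rw [this]; simp only [top_add, le_top]
  by_cases hG : G = ∞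
  · subst hG
    have : ENNReal.ofReal l * ∞ = ∞ := ENNReal.mul_top (by simpa only [ne_eq, ENNReal.ofReal_eq_zero, not_le] using hl0)
    rw [this]; simp only [add_top, le_top]
  lift F to ℝ≥0 using hF
  lift G to ℝ≥0 using hG
  have h := NNReal.geom_mean_le_arith_mean2_weighted (Real.toNNReal (1 - l)) (Real.toNNReal l) F G
    (by rw [← Real.toNNReal_add (by linarith only [hl1]) hl0.le]; simp)
  rw [Real.coe_toNNReal _ (by linarith only [hl1]), Real.coe_toNNReal _ hl0.le] at h
  rw [ENNReal.ofReal, ENNReal.ofReal, ← ENNReal.coe_rpow_of_nonneg _ (by linarith only [hl1]),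
    ← ENNReal.coe_rpow_of_nonneg _ hl0.le]
  exact_mod_cast h

/-- Normalised one-dimensional Prekopa-Leindler, weighted. -/
theorem pl_normalized {l : ℝ} (hl0 : 0 < l) (hl1 : l < 1)
    (f g h : ℝ → ℝ≥0∞) (hf : Measurable f) (hg : Measurable g)
    (hh : Measurable h) (hf1 : ⨆ x, f x = 1) (hg1 : ⨆ x, g x = 1)
    (hfg : ∀ x y, f x ^ (1 - l) * g y ^ l ≤ h ((1 - l) * x + l * y)) :
    ENNReal.ofReal (1 - l) * (∫⁻ x, f x) + ENNReal.ofReal l * (∫⁻ x, g x) ≤ ∫⁻ x, h x := by
  have h1l : 0 < 1 - l := by linarith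
  have hfle : ∀ x, f x ≤ 1 := fun x => hf1 ▸ le_iSup f x
  have hgle : ∀ x, g x ≤ 1 := fun x => hg1 ▸ le_iSup g x
  set k : ℝ → ℝ≥0∞ := fun x => min (h x) 1 with hk
  have hkm : Measurable k := hh.min measurable_const
  have hk1 : ∀ x, k x ≤ 1 := fun x => min_le_right _ _
  have hfgk : ∀ x y, f x ^ (1 - l) * g y ^ l ≤ k ((1 - l) * x + l * y) := by
    intro x y
    have h1 : f x ^ (1 - l) * g y ^ l ≤ 1 := by
      calc f x ^ (1 - l) * g y ^ l ≤ 1 * 1 := mul_le_mul'
            (ENNReal.rpow_le_one (hfle x) h1l.le) (ENNReal.rpow_le_one (hgle y) hl0.le)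
        _ = 1 := by simp
    exact le_min (hfg x y) h1
  have hcake : ∀ u : ℝ → ℝ≥0∞, Measurable u → (∀ x, u x ≤ 1) →
      ∫⁻ x, u x = ∫⁻ t in Ioi (0 : ℝ), volume {x | t < (u x).toReal} := by
    intro u hu hu1
    rw [← lintegral_eq_lintegral_meas_lt volume (Filter.Eventually.of_forall fun x => by
      simp only [Pi.zero_apply, ENNReal.toReal_nonneg]) hu.ennreal_toReal.aemeasurable]
    apply lintegral_congr
    intro x
    rw [ENNReal.ofReal_toReal (ne_top_of_le_ne_top ENNReal.one_ne_top (hu1 x))]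
  have hkh : ∫⁻ x, k x ≤ ∫⁻ x, h x := lintegral_mono fun x => min_le_left _ _
  refine le_trans ?_ hkh
  rw [hcake f hf hfle, hcake g hg hgle, hcake k hkm hk1]
  have hmeas : ∀ u : ℝ → ℝ≥0∞, Measurable (fun t : ℝ => volume {x | t < (u x).toReal}) := by
    intro u
    apply Antitone.measurable
    intro s t hst
    exact measure_mono fun x hx => lt_of_le_of_lt hst hx
  rw [← lintegral_const_mul _ (hmeas f), ← lintegral_const_mul _ (hmeas g),
    ← lintegral_add_left ((hmeas f).const_mul _)]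
  refine setLIntegral_mono' measurableSet_Ioi ?_
  intro t ht
  have ht0 : 0 < t := ht
  rcases lt_or_ge t 1 with ht1 | ht1
  · apply bm_meas (s := 1 - l) (t := l)
    · exact measurableSet_lt measurable_const hf.ennreal_toReal
    · exact measurableSet_lt measurable_const hg.ennreal_toReal
    · have : ENNReal.ofReal t < ⨆ x, f x := by
        rw [hf1]
        rw [← ENNReal.ofReal_one]
        exact (ENNReal.ofReal_lt_ofReal_iff one_pos).2 ht1
      obtain ⟨x, hx⟩ := lt_iSup_iff.1 this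
      refine ⟨x, ?_⟩
      exact (ENNReal.ofReal_lt_iff_lt_toReal ht0.le
        (ne_top_of_le_ne_top ENNReal.one_ne_top (hfle x))).1 hx
    · have : ENNReal.ofReal t < ⨆ x, g x := by
        rw [hg1]
        rw [← ENNReal.ofReal_one]
        exact (ENNReal.ofReal_lt_ofReal_iff one_pos).2 ht1
      obtain ⟨x, hx⟩ := lt_iSup_iff.1 this
      refine ⟨x, ?_⟩
      exact (ENNReal.ofReal_lt_iff_lt_toReal ht0.le
        (ne_top_of_le_ne_top ENNReal.one_ne_top (hgle x))).1 hx
    · exact h1l
    · exact hl0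
    · intro a ha b hb
      simp only [mem_ofPred_eq] at ha hb ⊢
      have h3 := ENNReal.toReal_mono
        (ne_top_of_le_ne_top ENNReal.one_ne_top (hk1 _)) (hfgk a b)
      rw [ENNReal.toReal_mul, ← ENNReal.toReal_rpow, ← ENNReal.toReal_rpow] at h3
      refine lt_of_lt_of_le ?_ h3
      calc t = t ^ (1 - l) * t ^ l := by
            rw [← Real.rpow_add ht0]; simp
        _ < (f a).toReal ^ (1 - l) * (g b).toReal ^ l :=
            mul_lt_mul'' (Real.rpow_lt_rpow ht0.le ha h1l) (Real.rpow_lt_rpow ht0.le hb hl0)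
              (by (clear * - ht0; positivity)) (by positivity)
  · have e1 : {x | t < (f x).toReal} = ∅ := by
      ext x
      simp only [mem_ofPred_eq, mem_empty_iff_false, iff_false, not_lt]
      refine le_trans ?_ ht1
      have := ENNReal.toReal_mono ENNReal.one_ne_top (hfle x)
      simpa only [ge_iff_le, ENNReal.toReal_one] using this
    have e2 : {x | t < (g x).toReal} = ∅ := by
      ext x
      simp only [mem_ofPred_eq, mem_empty_iff_false, iff_false, not_lt]
      refine le_trans ?_ ht1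
      have := ENNReal.toReal_mono ENNReal.one_ne_top (hgle x)
      simpa only [ge_iff_le, ENNReal.toReal_one] using this
    rw [e1, e2]
    simp only [measure_empty, mul_zero, add_zero, zero_le]

theorem pl_bdd {l : ℝ} (hl0 : 0 < l) (hl1 : l < 1)
    (f g h : ℝ → ℝ≥0∞) (hf : Measurable f) (hg : Measurable g)
    (hh : Measurable h) (hf1 : ⨆ x, f x ≠ ∞) (hg1 : ⨆ x, g x ≠ ∞)
    (hfg : ∀ x y, f x ^ (1 - l) * g y ^ l ≤ h ((1 - l) * x + l * y)) :
    (∫⁻ x, f x) ^ (1 - l) * (∫⁻ x, g x) ^ l ≤ ∫⁻ x, h x := by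
  have h1l : 0 < 1 - l := by linarith
  by_cases hf0 : ⨆ x, f x = 0
  · have : f = fun _ => 0 := by
      funext x
      have := le_iSup f x
      rw [hf0] at this
      simpa only [nonpos_iff_eq_zero] using this
    rw [this]
    simp only [lintegral_const, measure_univ_of_isAddLeftInvariant, zero_mul, h1l, ENNReal.zero_rpow_of_pos, zero_le]
  by_cases hg0 : ⨆ x, g x = 0
  · have : g = fun _ => 0 := by
      funext x
      have := le_iSup g x
      rw [hg0] at this
      simpa only [nonpos_iff_eq_zero] using this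
    rw [this]
    simp only [lintegral_const, measure_univ_of_isAddLeftInvariant, zero_mul, hl0, ENNReal.zero_rpow_of_pos, mul_zero, zero_le]
  set a := ⨆ x, f x with ha
  set b := ⨆ x, g x with hb
  set c := a ^ (1 - l) * b ^ l with hc
  have ha' : a ^ (1 - l) ≠ 0 := by
    simp only [ne_eq, ENNReal.rpow_eq_zero_iff, hf0, sub_pos, false_and, hf1, sub_neg, or_self, not_false_eq_true]
  have hb' : b ^ l ≠ 0 := by
    simp [ENNReal.rpow_eq_zero_iff, hg0, hg1]
  have ha'' : a ^ (1 - l) ≠ ∞ := ENNReal.rpow_ne_top_of_nonneg h1l.le hf1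
  have hb'' : b ^ l ≠ ∞ := ENNReal.rpow_ne_top_of_nonneg hl0.le hg1
  have hc0 : c ≠ 0 := mul_ne_zero ha' hb'
  have hc1 : c ≠ ∞ := ENNReal.mul_ne_top ha'' hb''
  have key := pl_normalized hl0 hl1 (fun x => a⁻¹ * f x) (fun x => b⁻¹ * g x)
    (fun x => c⁻¹ * h x) (hf.const_mul _) (hg.const_mul _) (hh.const_mul _)
    (by rw [← ENNReal.mul_iSup, ← ha]; exact ENNReal.inv_mul_cancel hf0 hf1)
    (by rw [← ENNReal.mul_iSup, ← hb]; exact ENNReal.inv_mul_cancel hg0 hg1)
    (by
      intro x y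
      rw [ENNReal.mul_rpow_of_nonneg _ _ h1l.le, ENNReal.mul_rpow_of_nonneg _ _ hl0.le,
        ENNReal.inv_rpow, ENNReal.inv_rpow]
      have h1 : c⁻¹ = (a ^ (1 - l))⁻¹ * (b ^ l)⁻¹ := by
        rw [hc, ENNReal.mul_inv (Or.inl ha') (Or.inl ha'')]
      calc (a ^ (1 - l))⁻¹ * f x ^ (1 - l) * ((b ^ l)⁻¹ * g y ^ l)
          = ((a ^ (1 - l))⁻¹ * (b ^ l)⁻¹) * (f x ^ (1 - l) * g y ^ l) := by ring
        _ ≤ ((a ^ (1 - l))⁻¹ * (b ^ l)⁻¹) * h ((1 - l) * x + l * y) := by
          gcongr
          exact hfg x y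
        _ = c⁻¹ * h ((1 - l) * x + l * y) := by rw [h1])
  rw [lintegral_const_mul _ hf, lintegral_const_mul _ hg, lintegral_const_mul _ hh] at key
  set F := ∫⁻ x, f x
  set G := ∫⁻ x, g x
  set H := ∫⁻ x, h x
  have h5 := le_trans (ennreal_amgm hl0 hl1 (a⁻¹ * F) (b⁻¹ * G)) key
  rw [ENNReal.mul_rpow_of_nonneg _ _ h1l.le, ENNReal.mul_rpow_of_nonneg _ _ hl0.le,
        ENNReal.inv_rpow, ENNReal.inv_rpow] at h5
  have h6 : c * ((a ^ (1 - l))⁻¹ * F ^ (1 - l) * ((b ^ l)⁻¹ * G ^ l)) ≤ c * (c⁻¹ * H) := by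
    (clear * - h5; gcongr)
  have h7 : c * ((a ^ (1 - l))⁻¹ * F ^ (1 - l) * ((b ^ l)⁻¹ * G ^ l)) = F ^ (1 - l) * G ^ l := by
    calc c * ((a ^ (1 - l))⁻¹ * F ^ (1 - l) * ((b ^ l)⁻¹ * G ^ l))
        = (a ^ (1 - l) * (a ^ (1 - l))⁻¹) * (b ^ l * (b ^ l)⁻¹) * (F ^ (1 - l) * G ^ l) := by
          rw [hc]; ring
      _ = F ^ (1 - l) * G ^ l := by
        rw [ENNReal.mul_inv_cancel ha' ha'', ENNReal.mul_inv_cancel hb' hb'']
        simp
  have h8 : c * (c⁻¹ * H) = H := by
    rw [← mul_assoc, ENNReal.mul_inv_cancel hc0 hc1, one_mul]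
  rwa [h7, h8] at h6

/-- One-dimensional Prekopa-Leindler inequality, weighted. -/
theorem pl_one {l : ℝ} (hl0 : 0 < l) (hl1 : l < 1)
    (f g h : ℝ → ℝ≥0∞) (hf : Measurable f) (hg : Measurable g)
    (hh : Measurable h)
    (hfg : ∀ x y, f x ^ (1 - l) * g y ^ l ≤ h ((1 - l) * x + l * y)) :
    (∫⁻ x, f x) ^ (1 - l) * (∫⁻ x, g x) ^ l ≤ ∫⁻ x, h x := by
  have h1l : 0 < 1 - l := by linarith
  have hcut : ∀ u : ℝ → ℝ≥0∞, Measurable u →
      ∫⁻ x, u x = ⨆ n : ℕ, ∫⁻ x, min (u x) n := by
    intro u hu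
    rw [← lintegral_iSup (fun n => hu.min measurable_const)
      (fun m n hmn x => min_le_min_left _ (by exact_mod_cast hmn))]
    apply lintegral_congr
    intro x
    apply le_antisymm
    · by_cases hx : u x = ∞
      · rw [hx]
        simp only [top_le_iff, le_top, inf_of_le_right]
        exact ENNReal.iSup_natCast
      · obtain ⟨n, hn⟩ := ENNReal.exists_nat_gt hx
        refine le_trans ?_ (le_iSup _ n)
        rw [min_eq_left hn.le]
    · exact iSup_le fun n => min_le_left _ _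
  have hsup : ∀ (u : ℝ → ℝ≥0∞) (n : ℕ), ⨆ x, min (u x) (n : ℝ≥0∞) ≠ ∞ := by
    intro u n
    refine ne_top_of_le_ne_top (ENNReal.natCast_ne_top n) (iSup_le fun x => min_le_right _ _)
  have hpow : ∀ (p : ℝ) (hp : 0 < p) (v : ℕ → ℝ≥0∞), (⨆ n, v n) ^ p = ⨆ n, v n ^ p := by
    intro p hp v
    exact (ENNReal.orderIsoRpow p hp).map_iSup v
  rw [hcut f hf, hcut g hg, hpow _ h1l, hpow _ hl0, ENNReal.iSup_mul]
  refine iSup_le fun n => ?_
  rw [ENNReal.mul_iSup]
  refine iSup_le fun m => ?_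
  refine pl_bdd hl0 hl1 _ _ h (hf.min measurable_const) (hg.min measurable_const) hh
    (hsup f n) (hsup g m) ?_
  intro x y
  exact le_trans (mul_le_mul' (ENNReal.rpow_le_rpow (min_le_left _ _) h1l.le)
    (ENNReal.rpow_le_rpow (min_le_left _ _) hl0.le)) (hfg x y)

/-- One-dimensional multiplicative Prekopa-Leindler inequality on the half line. -/
theorem pl_mul {l : ℝ} (hl0 : 0 < l) (hl1 : l < 1)
    (f g h : ℝ → ℝ≥0∞) (hf : Measurable f) (hg : Measurable g)
    (hh : Measurable h)
    (hfg : ∀ x y, 0 < x → 0 < y → f x ^ (1 - l) * g y ^ l ≤ h (x ^ (1 - l) * y ^ l)) :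
    (∫⁻ x in Ioi 0, f x) ^ (1 - l) * (∫⁻ x in Ioi 0, g x) ^ l ≤ ∫⁻ x in Ioi 0, h x := by
  have h1l : 0 < 1 - l := by linarith
  have hcv : ∀ u : ℝ → ℝ≥0∞, ∫⁻ x in Ioi 0, u x =
      ∫⁻ s, ENNReal.ofReal (Real.exp s) * u (Real.exp s) := by
    intro u
    have := lintegral_image_eq_lintegral_abs_deriv_mul (s := univ) (f := Real.exp)
      (f' := Real.exp) MeasurableSet.univ
      (fun x _ => (Real.hasDerivAt_exp x).hasDerivWithinAt) (Real.exp_injective.injOn) u
    rw [image_univ, Real.range_exp, Measure.restrict_univ] at this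
    rw [this]
    apply lintegral_congr
    intro x
    rw [abs_of_pos (Real.exp_pos x)]
  rw [hcv f, hcv g, hcv h]
  have hme : Measurable fun s : ℝ => ENNReal.ofReal (Real.exp s) :=
    ENNReal.measurable_ofReal.comp Real.measurable_exp
  apply pl_one hl0 hl1
  · exact hme.mul (hf.comp Real.measurable_exp)
  · exact hme.mul (hg.comp Real.measurable_exp)
  · exact hme.mul (hh.comp Real.measurable_exp)
  intro x y
  have e1 : Real.exp ((1 - l) * x + l * y) = Real.exp x ^ (1 - l) * Real.exp y ^ l := by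
    rw [← Real.exp_mul, ← Real.exp_mul, ← Real.exp_add]
    ring_nf
  rw [ENNReal.mul_rpow_of_nonneg _ _ h1l.le, ENNReal.mul_rpow_of_nonneg _ _ hl0.le]
  calc ENNReal.ofReal (Real.exp x) ^ (1 - l) * f (Real.exp x) ^ (1 - l) *
      (ENNReal.ofReal (Real.exp y) ^ l * g (Real.exp y) ^ l)
      = (ENNReal.ofReal (Real.exp x) ^ (1 - l) * ENNReal.ofReal (Real.exp y) ^ l) *
        (f (Real.exp x) ^ (1 - l) * g (Real.exp y) ^ l) := by ring
    _ ≤ ENNReal.ofReal (Real.exp ((1 - l) * x + l * y)) *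
        h (Real.exp ((1 - l) * x + l * y)) := by
      rw [e1]
      apply mul_le_mul'
      · rw [ENNReal.ofReal_rpow_of_pos (Real.exp_pos x), ENNReal.ofReal_rpow_of_pos (Real.exp_pos y),
          ENNReal.ofReal_mul (by positivity)]
      · exact hfg _ _ (Real.exp_pos x) (Real.exp_pos y)

end Vale.Agent.P227.T1
end

section

open MeasureTheory Set
open scoped ENNReal NNReal Pointwise Matrix

namespace Vale.Agent.P227.T1

theorem smul_mem_of_symm {V : Type*} [AddCommGroup V] [Module ℝ V] {K : Set V}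
    (cK : Convex ℝ K) (sK : ∀ x ∈ K, -x ∈ K) {x : V} (hx : x ∈ K) {t : ℝ} (ht : |t| ≤ 1) :
    t • x ∈ K := by
  rw [abs_le] at ht
  have := cK hx (sK x hx) (a := (1 + t) / 2) (b := (1 - t) / 2) (by linarith only [ht]) (by linarith only [ht])
    (by ring)
  convert this using 1
  rw [smul_neg, ← sub_eq_add_neg, ← sub_smul]
  congr 1
  ring

theorem volume_two {S : Set (Fin 2 → ℝ)} (hS : MeasurableSet S) :
    volume S = ∫⁻ a : ℝ, volume {s : ℝ | ![a, s] ∈ S} := by
  have h1 := (volume_preserving_finTwoArrow ℝ).symm.measure_preimage hS.nullMeasurableSet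
  rw [← h1, Measure.volume_eq_prod, Measure.prod_apply
    ((MeasurableEquiv.finTwoArrow (α := ℝ)).symm.measurable hS)]
  rfl

/-- Plane convex bodies with a common width: volume is superlinear. -/
theorem linBM {A B C : Set (Fin 2 → ℝ)} (cA : Convex ℝ A) (cB : Convex ℝ B)
    (hA : IsCompact A) (hB : IsCompact B) (sA : ∀ x ∈ A, -x ∈ A) (sB : ∀ x ∈ B, -x ∈ B)
    (nA : A.Nonempty) (nB : B.Nonempty) (mC : IsClosed C) {u : Fin 2 → ℝ} (hu : u ≠ 0)
    (huw : hs A u = hs B u) {α β : ℝ} (hα : 0 ≤ α) (hβ : 0 ≤ β) (hαβ : α + β = 1)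
    (h : ∀ a ∈ A, ∀ b ∈ B, α • a + β • b ∈ C) :
    ENNReal.ofReal α * volume A + ENNReal.ofReal β * volume B ≤ volume C := by
  set M : Matrix (Fin 2) (Fin 2) ℝ := !![u 0, u 1; -u 1, u 0] with hM
  set T : (Fin 2 → ℝ) →ₗ[ℝ] (Fin 2 → ℝ) := Matrix.toLin' M with hT
  have hdet : LinearMap.det T = u 0 ^ 2 + u 1 ^ 2 := by
    rw [hT, LinearMap.det_toLin', hM, Matrix.det_fin_two]
    simp only [Fin.isValue, Matrix.of_apply, Matrix.cons_val', Matrix.cons_val_zero, Matrix.cons_val_fin_one, Matrix.cons_val_one, mul_neg, sub_neg_eq_add]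
    ring
  have hd0 : 0 < u 0 ^ 2 + u 1 ^ 2 := by
    rcases eq_or_ne (u 0) 0 with h0 | h0
    · rcases eq_or_ne (u 1) 0 with h1 | h1
      · exfalso
        apply hu
        funext i
        fin_cases i
        · exact h0
        · exact h1
      · (clear * - h1; positivity)
    · (clear * - h0; positivity)
  have hT0 : ∀ x, T x 0 = x ⬝ᵥ u := by
    intro x
    simp only [hT, hM, Fin.isValue, Matrix.toLin'_apply, Matrix.mulVec, dotProduct, Matrix.of_apply, Matrix.cons_val', Matrix.cons_val_fin_one, Matrix.cons_val_zero, Fin.sum_univ_two, Matrix.cons_val_one]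
    ring
  have hTc : Continuous T := T.continuous_of_finiteDimensional
  have hvol : ∀ S : Set (Fin 2 → ℝ), volume (T '' S) =
      ENNReal.ofReal (u 0 ^ 2 + u 1 ^ 2) * volume S := by
    intro S
    rw [Measure.addHaar_image_linearMap, hdet, abs_of_pos hd0]
  have hTinj : Function.Injective T := by
    have : LinearMap.det T ≠ 0 := by rw [hdet]; exact hd0.ne'
    exact (LinearMap.equivOfDetNeZero T this).injective
  have mTC : MeasurableSet (T '' C) := by
    have e : Topology.IsClosedEmbedding T :=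
      LinearMap.isClosedEmbedding_of_injective (LinearMap.ker_eq_bot.2 hTinj)
    exact (e.isClosedMap C mC).measurableSet
  have key : ENNReal.ofReal α * volume (T '' A) + ENNReal.ofReal β * volume (T '' B) ≤
      volume (T '' C) := by
    have cTA : IsCompact (T '' A) := hA.image hTc
    have cTB : IsCompact (T '' B) := hB.image hTc
    rw [volume_two cTA.measurableSet, volume_two cTB.measurableSet, volume_two mTC]
    have hme : ∀ S : Set (Fin 2 → ℝ), MeasurableSet S →
        Measurable fun a : ℝ => volume {s : ℝ | ![a, s] ∈ S} := by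
      intro S hS
      exact measurable_measure_prodMk_left
        ((MeasurableEquiv.finTwoArrow (α := ℝ)).symm.measurable hS)
    rw [← lintegral_const_mul _ (hme _ cTA.measurableSet),
      ← lintegral_const_mul _ (hme _ cTB.measurableSet),
      ← lintegral_add_left ((hme _ cTA.measurableSet).const_mul _)]
    apply lintegral_mono
    intro τ
    simp only
    have hsec : ∀ S : Set (Fin 2 → ℝ), IsCompact S → IsCompact {s : ℝ | ![τ, s] ∈ S} := by
      intro S hS
      have hc : Continuous fun s : ℝ => ![τ, s] := by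
        refine continuous_pi fun i => ?_
        fin_cases i
        · exact continuous_const
        · exact continuous_id
      refine Metric.isCompact_of_isClosed_isBounded (hS.isClosed.preimage hc) ?_
      obtain ⟨R, hR⟩ := hS.isBounded.exists_norm_le
      rw [isBounded_iff_forall_norm_le]
      refine ⟨R, fun s hs => ?_⟩
      exact le_trans (norm_le_pi_norm (![τ, s]) 1) (hR _ hs)
    have hne : ∀ S : Set (Fin 2 → ℝ), Convex ℝ S → IsCompact S → S.Nonempty →
        (∀ x ∈ S, -x ∈ S) → |τ| ≤ hs S u → {s : ℝ | ![τ, s] ∈ T '' S}.Nonempty := by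
      intro S cS hS nS sS hτ
      obtain ⟨x, hx, hxu⟩ := exists_hs hS nS u
      rcases (hs_nonneg hS nS sS u).eq_or_lt with h0 | h0
      · have hτ0 : τ = 0 := by
          rw [← h0] at hτ
          exact abs_nonpos_iff.1 hτ
        refine ⟨T x 1, x, hx, ?_⟩
        funext i
        fin_cases i
        · simp [hT0, hxu, hτ0, ← h0]
        · simp
      · have hm : (τ / hs S u) • x ∈ S := by
          apply smul_mem_of_symm cS sS hx
          rw [abs_div, abs_of_pos h0]
          exact (div_le_one h0).2 hτ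
        refine ⟨T ((τ / hs S u) • x) 1, _, hm, ?_⟩
        funext i
        fin_cases i
        · simp only [Fin.zero_eta, Fin.isValue, hT0, smul_dotProduct, hxu, smul_eq_mul, Nat.succ_eq_add_one, Nat.reduceAdd, map_smul, Pi.smul_apply, Matrix.cons_val_zero]
          (clear * - h0; field_simp)
        · simp only [Fin.mk_one, Fin.isValue, map_smul, Pi.smul_apply, smul_eq_mul, Nat.succ_eq_add_one, Nat.reduceAdd, Matrix.cons_val_one, Matrix.cons_val_fin_one]
    have hemp : ∀ S : Set (Fin 2 → ℝ), IsCompact S → S.Nonempty →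
        (∀ x ∈ S, -x ∈ S) → hs S u < |τ| → {s : ℝ | ![τ, s] ∈ T '' S} = ∅ := by
      intro S hS nS sS hτ
      rw [eq_empty_iff_forall_notMem]
      rintro s ⟨x, hx, hxs⟩
      have h1 : x ⬝ᵥ u = τ := by
        rw [← hT0, hxs]; rfl
      have h2 := le_hs hS hx u
      have h3 := le_hs hS (sS x hx) u
      rw [neg_dotProduct] at h3
      have : |τ| ≤ hs S u := by
        rw [abs_le]
        constructor <;> linarith only [h1, h2, h3]
      linarith only [hτ, this]
    rcases le_or_gt |τ| (hs A u) with hτ | hτ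
    · apply bm_compact (hsec _ cTA) (hsec _ cTB) (hne A cA hA nA sA hτ)
        (hne B cB hB nB sB (huw ▸ hτ)) hα hβ
      rintro a ⟨x, hx, hxa⟩ b ⟨y, hy, hyb⟩
      refine ⟨α • x + β • y, h x hx y hy, ?_⟩
      rw [map_add, map_smul, map_smul, hxa, hyb]
      funext i
      fin_cases i
      · simp only [Nat.succ_eq_add_one, Nat.reduceAdd, Matrix.smul_cons, smul_eq_mul, Matrix.smul_empty, Fin.zero_eta, Fin.isValue, Pi.add_apply, Matrix.cons_val_zero]
        rw [← add_mul, hαβ, one_mul]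
      · simp only [Nat.succ_eq_add_one, Nat.reduceAdd, Matrix.smul_cons, smul_eq_mul, Matrix.smul_empty, Fin.mk_one, Fin.isValue, Pi.add_apply, Matrix.cons_val_one, Matrix.cons_val_fin_one]
    · rw [hemp A hA nA sA hτ, hemp B hB nB sB (huw ▸ hτ)]
      simp only [measure_empty, mul_zero, add_zero, Nat.succ_eq_add_one, Nat.reduceAdd, mem_image, zero_le]
  rw [hvol, hvol, hvol] at key
  have hD0 : ENNReal.ofReal (u 0 ^ 2 + u 1 ^ 2) ≠ 0 := by simpa only [Fin.isValue, ne_eq, ENNReal.ofReal_eq_zero, not_le] using hd0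
  have hD1 : ENNReal.ofReal (u 0 ^ 2 + u 1 ^ 2) ≠ ∞ := ENNReal.ofReal_ne_top
  rw [← ENNReal.mul_le_mul_iff_right hD0 hD1]
  refine le_trans (le_of_eq ?_) key
  ring

theorem real_final {l a1 a2 b1 b2 s m k e w : ℝ} (hl0 : 0 < l) (hl1 : l < 1)
    (ha1 : 0 < a1) (ha2 : 0 < a2) (hb1 : 0 < b1) (hb2 : 0 < b2)
    (h1 : a1 ^ (1 - l) * b1 ^ l = 1) (h2 : a2 ^ (1 - l) * b2 ^ l = 1)
    (hm0 : 0 < m) (hm1 : m = b1 + s * a1) (hm2 : m = b2 + s * a2)
    (hlb : b2 ≤ l * m) (hlt : l * m ≤ b1) (hk : 0 ≤ k) (he : 0 ≤ e)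
    (I1 : (e / b1 + s * k / a1) / m ≤ w) (I2 : (e / b2 + s * k / a2) / m ≤ w) :
    k ^ (1 - l) * e ^ l ≤ w := by
  have key : l * (e / (b1 * b2)) + (1 - l) * (k / (a1 * a2)) ≤ w := by
    rcases (le_trans hlb hlt).eq_or_lt with hb | hb
    · -- b1 = b2
      have hlm : l * m = b1 := le_antisymm hlt (hb ▸ hlb)
      have hs : s * a1 = (1 - l) * m := by linarith only [hm1, hlb, hb, hlt]
      have hs2 : s * a2 = (1 - l) * m := by linarith only [hm2, hlb, hlt, hb]
      refine le_trans (le_of_eq ?_) I1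
      have e1 : l * (e / (b1 * b2)) = e / b1 / m := by
        rw [hb, ← hlm]; (clear * - hm0 hl0; field_simp)
      have e2 : (1 - l) * (k / (a1 * a2)) = s * k / a1 / m := by
        have : s = (1 - l) * m / a2 := by field_simp; exact hs2
        rw [this]; (clear * - hm0 ha2 ha1; field_simp)
      rw [e1, e2]; ring
    · set θ := (b1 - l * m) / (b1 - b2) with hθ
      have hbb : 0 < b1 - b2 := by linarith only [hb]
      have hθ0 : 0 ≤ θ := div_nonneg (by linarith only [hlt]) hbb.le
      have hθ1 : 0 ≤ 1 - θ := by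
        have : 1 - θ = (l * m - b2) / (b1 - b2) := by rw [hθ]; field_simp; ring
        rw [this]; exact div_nonneg (by linarith only [hlb]) hbb.le
      have hc1 : θ * b2 + (1 - θ) * b1 = l * m := by
        rw [hθ]; field_simp; ring
      have hc2 : s * (θ * a2 + (1 - θ) * a1) = (1 - l) * m := by
        have : s * (θ * a2 + (1 - θ) * a1) = θ * (m - b2) + (1 - θ) * (m - b1) := by
          rw [show m - b2 = s * a2 by linarith only [hm2], show m - b1 = s * a1 by linarith only [hm1]]; ring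
        rw [this]; linarith only [hc1]
      have hcomb : θ * ((e / b1 + s * k / a1) / m) + (1 - θ) * ((e / b2 + s * k / a2) / m) ≤ w := by
        have := add_le_add (mul_le_mul_of_nonneg_left I1 hθ0) (mul_le_mul_of_nonneg_left I2 hθ1)
        linarith only [this]
      refine le_trans (le_of_eq ?_) hcomb
      have e1 : l * (e / (b1 * b2)) = θ * (e / b1 / m) + (1 - θ) * (e / b2 / m) := by
        have : l = (θ * b2 + (1 - θ) * b1) / m := by rw [hc1]; field_simp
        rw [this]; (clear * - hb2 hb1 hm0; field_simp)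
      have e2 : (1 - l) * (k / (a1 * a2)) = θ * (s * k / a1 / m) + (1 - θ) * (s * k / a2 / m) := by
        have : 1 - l = s * (θ * a2 + (1 - θ) * a1) / m := by rw [hc2]; (clear * - hm0; field_simp)
        rw [this]; (clear * - ha2 ha1 hm0; field_simp)
      rw [e1, e2]; ring
  have amgm := Real.geom_mean_le_arith_mean2_weighted (w₁ := 1 - l) (w₂ := l)
    (p₁ := k / (a1 * a2)) (p₂ := e / (b1 * b2)) (by linarith only [hl1]) hl0.le
    (by (clear * - hk ha1 ha2; positivity)) (by (clear * - he hb1 hb2; positivity)) (by ring)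
  rw [Real.div_rpow hk (by positivity), Real.div_rpow he (by positivity),
    div_mul_div_comm, Real.mul_rpow ha1.le ha2.le, Real.mul_rpow hb1.le hb2.le,
    show a1 ^ (1 - l) * a2 ^ (1 - l) * (b1 ^ l * b2 ^ l) =
      (a1 ^ (1 - l) * b1 ^ l) * (a2 ^ (1 - l) * b2 ^ l) by ring, h1, h2] at amgm
  simp only [mul_one, div_one] at amgm
  linarith only [key, amgm]

theorem exists_chord {l a1 a2 b1 b2 : ℝ} (hl0 : 0 < l) (hl1 : l < 1)
    (ha1 : 0 < a1) (hb1 : 0 < b1) (hb2 : 0 < b2) (ha : a1 ≤ a2)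
    (h1 : a1 ^ (1 - l) * b1 ^ l = 1) (h2 : a2 ^ (1 - l) * b2 ^ l = 1) :
    ∃ s m : ℝ, 0 < s ∧ 0 < m ∧ m = b1 + s * a1 ∧ m = b2 + s * a2 ∧ b2 ≤ l * m ∧ l * m ≤ b1 ∧
      ∀ a b : ℝ, a1 ≤ a → a ≤ a2 → 0 < b → a ^ (1 - l) * b ^ l = 1 → b + s * a ≤ m := by
  have h1l : 0 < 1 - l := by linarith
  have hmono : ∀ a b a' b' : ℝ, 0 < a → 0 < b → 0 < b' → a ≤ a' → a ^ (1 - l) * b ^ l = 1 →
      a' ^ (1 - l) * b' ^ l = 1 → b' ≤ b := by
    intro a b a' b' h0 hb hb' haa e1 e2
    by_contra hlt
    push Not at hlt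
    have i1 : a ^ (1 - l) ≤ a' ^ (1 - l) := Real.rpow_le_rpow h0.le haa h1l.le
    have i2 : b ^ l < b' ^ l := Real.rpow_lt_rpow hb.le hlt hl0
    have i3 : a ^ (1 - l) * b ^ l < a' ^ (1 - l) * b' ^ l :=
      mul_lt_mul' i1 i2 (by (clear * - hb; positivity)) (Real.rpow_pos_of_pos (lt_of_lt_of_le h0 haa) _)
    linarith only [e1, e2, i3]
  rcases ha.eq_or_lt with hab | hab
  · subst hab
    have hbe : b2 = b1 := le_antisymm (hmono _ _ _ _ ha1 hb1 hb2 le_rfl h1 h2)
      (hmono _ _ _ _ ha1 hb2 hb1 le_rfl h2 h1)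
    subst hbe
    refine ⟨(1 - l) / l * (b2 / a1), b2 / l, mul_pos (div_pos h1l hl0) (div_pos hb1 ha1),
      by positivity, by field_simp; ring,
      by field_simp; ring, by field_simp; exact le_rfl, by field_simp; exact le_rfl, ?_⟩
    intro a b haa haa' hb e
    have : a = a1 := le_antisymm haa' haa
    subst this
    have hbe : b = b2 := le_antisymm (hmono _ _ _ _ ha1 hb1 hb le_rfl h1 e)
      (hmono _ _ _ _ ha1 hb hb1 le_rfl e h1)
    subst hbe
    apply le_of_eq
    field_simp
    ring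
  · have ha2 : 0 < a2 := by linarith
    have hbb : b2 ≤ b1 := hmono _ _ _ _ ha1 hb1 hb2 hab.le h1 h2
    have hd : 0 < a2 - a1 := by linarith
    have hbb' : b2 < b1 := by
      rcases hbb.lt_or_eq with h | h
      · exact h
      exfalso
      subst h
      have i1 : a1 ^ (1 - l) < a2 ^ (1 - l) := Real.rpow_lt_rpow ha1.le hab h1l
      have i3 : a1 ^ (1 - l) * b2 ^ l < a2 ^ (1 - l) * b2 ^ l :=
        mul_lt_mul_of_pos_right i1 (by positivity)
      linarith only [h2, h1, i3]
    have hs : 0 < (b1 - b2) / (a2 - a1) := div_pos (by linarith only [hbb']) hd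
    have hsd : (b1 - b2) / (a2 - a1) * (a2 - a1) = b1 - b2 := by (clear * - hab; field_simp)
    set s := (b1 - b2) / (a2 - a1) with hsdef
    -- AM-GM facts
    have g1 : a1 * b1 ≤ (1 - l) * (a2 * b1) + l * (a1 * b2) := by
      have := Real.geom_mean_le_arith_mean2_weighted (w₁ := 1 - l) (w₂ := l)
        (p₁ := a2 * b1) (p₂ := a1 * b2) h1l.le hl0.le (by (clear * - ha2 hb1; positivity)) (by positivity) (by ring)
      rw [Real.mul_rpow ha2.le hb1.le, Real.mul_rpow ha1.le hb2.le,
        show a2 ^ (1 - l) * b1 ^ (1 - l) * (a1 ^ l * b2 ^ l) =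
          (a2 ^ (1 - l) * b2 ^ l) * (b1 ^ (1 - l) * a1 ^ l) by ring, h2, one_mul] at this
      have e : a1 * b1 = (a1 ^ (1 - l) * b1 ^ l) * (b1 ^ (1 - l) * a1 ^ l) := by
        rw [show (a1 ^ (1 - l) * b1 ^ l) * (b1 ^ (1 - l) * a1 ^ l) =
          (a1 ^ (1 - l) * a1 ^ l) * (b1 ^ (1 - l) * b1 ^ l) by ring,
          ← Real.rpow_add ha1, ← Real.rpow_add hb1]
        simp
      rw [h1, one_mul] at e
      linarith only [this, e]
    have g2 : a2 * b2 ≤ l * (b1 * a2) + (1 - l) * (a1 * b2) := by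
      have := Real.geom_mean_le_arith_mean2_weighted (w₁ := l) (w₂ := 1 - l)
        (p₁ := b1 * a2) (p₂ := a1 * b2) hl0.le h1l.le (by (clear * - hb1 ha2; positivity)) (by positivity) (by ring)
      rw [Real.mul_rpow hb1.le ha2.le, Real.mul_rpow ha1.le hb2.le,
        show b1 ^ l * a2 ^ l * (a1 ^ (1 - l) * b2 ^ (1 - l)) =
          (a1 ^ (1 - l) * b1 ^ l) * (b2 ^ (1 - l) * a2 ^ l) by ring, h1, one_mul] at this
      have e : a2 * b2 = (a2 ^ (1 - l) * b2 ^ l) * (b2 ^ (1 - l) * a2 ^ l) := by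
        rw [show (a2 ^ (1 - l) * b2 ^ l) * (b2 ^ (1 - l) * a2 ^ l) =
          (a2 ^ (1 - l) * a2 ^ l) * (b2 ^ (1 - l) * b2 ^ l) by ring,
          ← Real.rpow_add ha2, ← Real.rpow_add hb2]
        simp
      rw [h2, one_mul] at e
      linarith only [this, e]
    refine ⟨s, b1 + s * a1, hs, by positivity, rfl, by linarith only [hsd], ?_, ?_, ?_⟩
    · -- b2 ≤ l * (b1 + s * a1)
      rw [show b1 + s * a1 = b2 + s * a2 by linarith only [hsd]]
      have : (1 - l) * b2 * (a2 - a1) ≤ l * s * a2 * (a2 - a1) := by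
        rw [show l * s * a2 * (a2 - a1) = l * a2 * (s * (a2 - a1)) by ring, hsd]
        linarith only [g2]
      have := le_of_mul_le_mul_right this hd
      linarith only [this]
    · have : l * s * a1 * (a2 - a1) ≤ (1 - l) * b1 * (a2 - a1) := by
        rw [show l * s * a1 * (a2 - a1) = l * a1 * (s * (a2 - a1)) by ring, hsd]
        linarith
      have := le_of_mul_le_mul_right this hd
      linarith only [this]
    · intro a b haa haa' hb e
      set θ := (a - a1) / (a2 - a1) with hθ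
      have hθ0 : 0 ≤ θ := div_nonneg (by linarith only [haa]) hd.le
      have hθ1 : 0 ≤ 1 - θ := by
        have : 1 - θ = (a2 - a) / (a2 - a1) := by rw [hθ]; field_simp; ring
        rw [this]; exact div_nonneg (by linarith only [haa']) hd.le
      have hae : a = (1 - θ) * a1 + θ * a2 := by
        rw [hθ]; field_simp; ring
      have ha0 : 0 < a := by linarith only [ha1, haa]
      set B := (1 - θ) * b1 + θ * b2 with hB
      have hB0 : 0 ≤ B := by (clear * - hθ1 hb1 haa hab hb2; positivity)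
      have hh := holder2 hl0 hl1 (p := (1 - θ) * a1) (q := (1 - θ) * b1) (r := θ * a2)
        (s := θ * b2) (by (clear * - hθ1 ha1; positivity)) (by (clear * - hθ1 hb1; positivity)) (by (clear * - haa hab ha2; positivity)) (by (clear * - haa hab hb2; positivity))
      rw [← hae, ← hB] at hh
      have f1 : ((1 - θ) * a1) ^ (1 - l) * ((1 - θ) * b1) ^ l = 1 - θ := by
        rw [Real.mul_rpow hθ1 ha1.le, Real.mul_rpow hθ1 hb1.le,
          show (1 - θ) ^ (1 - l) * a1 ^ (1 - l) * ((1 - θ) ^ l * b1 ^ l) =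
            ((1 - θ) ^ (1 - l) * (1 - θ) ^ l) * (a1 ^ (1 - l) * b1 ^ l) by ring, h1, mul_one]
        rw [← Real.rpow_add' hθ1 (by simp)]
        simp
      have f2 : (θ * a2) ^ (1 - l) * (θ * b2) ^ l = θ := by
        rw [Real.mul_rpow hθ0 ha2.le, Real.mul_rpow hθ0 hb2.le,
          show θ ^ (1 - l) * a2 ^ (1 - l) * (θ ^ l * b2 ^ l) =
            (θ ^ (1 - l) * θ ^ l) * (a2 ^ (1 - l) * b2 ^ l) by ring, h2, mul_one]
        rw [← Real.rpow_add' hθ0 (by simp)]
        simp
      rw [f1, f2] at hh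
      have hh' : a ^ (1 - l) * b ^ l ≤ a ^ (1 - l) * B ^ l := by rw [e]; linarith only [hh]
      have hbB : b ≤ B := by
        have := le_of_mul_le_mul_left hh' (by (clear * - ha0; positivity))
        exact (Real.rpow_le_rpow_iff hb.le hB0 hl0).1 this
      calc b + s * a ≤ B + s * a := by linarith only [hbB]
        _ = (1 - θ) * (b1 + s * a1) + θ * (b2 + s * a2) := by rw [hB, hae]; ring
        _ = b1 + s * a1 := by
          rw [show b2 + s * a2 = b1 + s * a1 by linarith only [hsd]]; ring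

end Vale.Agent.P227.T1
end

section

open MeasureTheory Set
open scoped ENNReal NNReal Pointwise Matrix

namespace Vale.Agent.P227.T1

theorem hs_smul_set {n : ℕ} {K : Set (Fin n → ℝ)} (hK : IsCompact K) (nK : K.Nonempty) {c : ℝ}
    (hc : 0 ≤ c) (u : Fin n → ℝ) : hs (c • K) u = c * hs K u := by
  apply le_antisymm
  · apply hs_le (nK.smul_set)
    rintro _ ⟨x, hx, rfl⟩
    simp only [smul_dotProduct, smul_eq_mul]
    exact mul_le_mul_of_nonneg_left (le_hs hK hx u) hc
  · obtain ⟨x, hx, h⟩ := exists_hs hK nK u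
    rw [← h, ← smul_eq_mul, ← smul_dotProduct]
    exact le_hs (hK.smul c) (smul_mem_smul_set hx) u

theorem logFn_props {n : ℕ} {K L : Set (Fin n → ℝ)} (hK : IsCompact K) (hL : IsCompact L)
    (sK : ∀ x ∈ K, -x ∈ K) (sL : ∀ x ∈ L, -x ∈ L) (vK : volume K ≠ 0) (vL : volume L ≠ 0)
    {l : ℝ} (hl0 : 0 < l) (hl1 : l < 1) :
    Continuous (fun u => hs K u ^ (1 - l) * hs L u ^ l) ∧
    (∀ u, u ≠ 0 → 0 < hs K u ^ (1 - l) * hs L u ^ l) ∧
    (hs K (0 : Fin n → ℝ) ^ (1 - l) * hs L (0 : Fin n → ℝ) ^ l = 0) ∧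
    (∀ c : ℝ, 0 ≤ c → ∀ u, hs K (c • u) ^ (1 - l) * hs L (c • u) ^ l =
      c * (hs K u ^ (1 - l) * hs L u ^ l)) := by
  have nK : K.Nonempty := by
    rw [nonempty_iff_ne_empty]
    rintro rfl
    simp at vK
  have nL : L.Nonempty := by
    rw [nonempty_iff_ne_empty]
    rintro rfl
    simp at vL
  have h1l : 0 < 1 - l := by linarith only [hl1]
  refine ⟨?_, ?_, ?_, ?_⟩
  · exact ((hs_continuous hK).rpow_const fun u => Or.inr h1l.le).mul
      ((hs_continuous hL).rpow_const fun u => Or.inr hl0.le)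
  · intro u hu
    have := hs_pos hK sK vK hu
    have := hs_pos hL sL vL hu
    (clear hl0 hl1 nK nL h1l; positivity)
  · rw [hs_zero hK nK, Real.zero_rpow h1l.ne', zero_mul]
  · intro c hc u
    rw [hs_smul hK nK hc, hs_smul hL nL hc, Real.mul_rpow hc (hs_nonneg hK nK sK u),
      Real.mul_rpow hc (hs_nonneg hL nL sL u)]
    have : c ^ (1 - l) * c ^ l = c := by
      rw [← Real.rpow_add' hc (by simp)]
      simp
    calc c ^ (1 - l) * hs K u ^ (1 - l) * (c ^ l * hs L u ^ l)
        = (c ^ (1 - l) * c ^ l) * (hs K u ^ (1 - l) * hs L u ^ l) := by ring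
      _ = _ := by rw [this]

/-- Planar logarithmic Brunn-Minkowski inequality in coordinates, bodies of positive area. -/
theorem planar_pos {K L : Set (Fin 2 → ℝ)} (cK : Convex ℝ K) (cL : Convex ℝ L)
    (hK : IsCompact K) (hL : IsCompact L) (sK : ∀ x ∈ K, -x ∈ K) (sL : ∀ x ∈ L, -x ∈ L)
    (vK : volume K ≠ 0) (vL : volume L ≠ 0) {l : ℝ} (hl0 : 0 < l) (hl1 : l < 1) :
    (volume K).toReal ^ (1 - l) * (volume L).toReal ^ l ≤
      (volume (wf fun u => hs K u ^ (1 - l) * hs L u ^ l)).toReal := by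
  have nK : K.Nonempty := by
    rw [nonempty_iff_ne_empty]
    rintro rfl
    simp at vK
  have nL : L.Nonempty := by
    rw [nonempty_iff_ne_empty]
    rintro rfl
    simp at vL
  have h1l : 0 < 1 - l := by (clear * - hl1; linarith)
  obtain ⟨fc, fp, f0, fh⟩ := logFn_props hK hL sK sL vK vL hl0 hl1
  set f : (Fin 2 → ℝ) → ℝ := fun u => hs K u ^ (1 - l) * hs L u ^ l with hf
  set W := wf f with hW
  have hWc : IsCompact W := wf_isCompact f
  set J : Set (Fin 2 → ℝ) := {v | ‖v‖ = 1 ∧ hs W v = f v} with hJ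
  have hJc : IsCompact J := by
    have h1 : IsClosed {v : Fin 2 → ℝ | hs W v = f v} :=
      isClosed_eq (hs_continuous hWc) fc
    have h2 : J = Metric.sphere (0 : Fin 2 → ℝ) 1 ∩ {v : Fin 2 → ℝ | hs W v = f v} := by
      ext v
      simp only [hJ, mem_ofPred_eq, mem_inter_iff, mem_sphere_iff_norm, sub_zero]
    rw [h2]
    exact (isCompact_sphere _ _).inter_right h1
  have hJn : J.Nonempty := by
    obtain ⟨x, hx⟩ : ∃ x, x ∉ W := by
      by_contra h
      push Not at h
      exact hWc.ne_univ (eq_univ_of_forall h)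
    obtain ⟨v, h1, h2, -⟩ := exists_touch fc fp f0 fh hx
    exact ⟨v, h1, h2⟩
  have hJ0 : ∀ v ∈ J, v ≠ 0 := by
    rintro v hv rfl
    simp [hJ] at hv
  have hac : ContinuousOn (fun v => hs K v / f v) J :=
    (hs_continuous hK).continuousOn.div fc.continuousOn fun v hv => (fp v (hJ0 v hv)).ne'
  obtain ⟨u1, hu1, hmin⟩ := hJc.exists_isMinOn hJn hac
  obtain ⟨u2, hu2, hmax⟩ := hJc.exists_isMaxOn hJn hac
  have hpos : ∀ v ∈ J, 0 < hs K v ∧ 0 < hs L v ∧ 0 < f v := fun v hv =>
    ⟨hs_pos hK sK vK (hJ0 v hv), hs_pos hL sL vL (hJ0 v hv), fp v (hJ0 v hv)⟩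
  have hab : ∀ v ∈ J, (hs K v / f v) ^ (1 - l) * (hs L v / f v) ^ l = 1 := by
    intro v hv
    obtain ⟨p1, p2, p3⟩ := hpos v hv
    rw [Real.div_rpow p1.le p3.le, Real.div_rpow p2.le p3.le, div_mul_div_comm,
      ← Real.rpow_add p3]
    simp only [sub_add_cancel, Real.rpow_one]
    exact div_self p3.ne'
  have hap : ∀ v ∈ J, 0 < hs K v / f v := fun v hv => by
    obtain ⟨p1, p2, p3⟩ := hpos v hv
    (clear * - p1 p2; positivity)
  have hbp : ∀ v ∈ J, 0 < hs L v / f v := fun v hv => by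
    obtain ⟨p1, p2, p3⟩ := hpos v hv
    (clear * - p2 p1; positivity)
  obtain ⟨s, m, hs0, hm0, hm1, hm2, hlb, hlt, hch⟩ := exists_chord hl0 hl1 (hap u1 hu1)
    (hbp u1 hu1) (hbp u2 hu2) (hmin hu2) (hab u1 hu1) (hab u2 hu2)
  have hincl : ∀ x ∈ L, ∀ y ∈ K, m⁻¹ • (x + s • y) ∈ W := by
    intro x hx y hy
    by_contra hno
    obtain ⟨v, hv1, hv2, hv3⟩ := exists_touch fc fp f0 fh hno
    have hvJ : v ∈ J := ⟨hv1, hv2⟩
    obtain ⟨p1, p2, p3⟩ := hpos v hvJ
    have hc := hch _ _ (hmin hvJ) (hmax hvJ) (hbp v hvJ) (hab v hvJ)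
    rw [smul_dotProduct, add_dotProduct, smul_dotProduct, smul_eq_mul, smul_eq_mul] at hv3
    have e1 := le_hs hL hx v
    have e2 := mul_le_mul_of_nonneg_left (le_hs hK hy v) hs0.le
    have e3 : x ⬝ᵥ v + s * (y ⬝ᵥ v) ≤ m * f v := by
      have : hs L v + s * hs K v ≤ m * f v := by
        have h5 := mul_le_mul_of_nonneg_right hc p3.le
        have h6 : (hs L v / f v + s * (hs K v / f v)) * f v = hs L v + s * hs K v := by
          (clear * - p3 p2 hs0 p1; field_simp)
        linarith only [h5, h6]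
      linarith only [e1, e2, this]
    have e4 : m⁻¹ * (x ⬝ᵥ v + s * (y ⬝ᵥ v)) ≤ f v := by
      rw [inv_mul_le_iff₀ hm0]; exact e3
    linarith only [hv3, e4]
  have hvolc : ∀ (c : ℝ), 0 < c → ∀ S : Set (Fin 2 → ℝ),
      volume (c⁻¹ • S) = ENNReal.ofReal (c⁻¹ ^ 2) * volume S := by
    intro c hc S
    rw [Measure.addHaar_smul]
    congr 2
    rw [abs_of_pos (by (clear * - hc; positivity))]
    simp
  have hI : ∀ v ∈ J, m = hs L v / f v + s * (hs K v / f v) →
      ((volume L).toReal / (hs L v / f v) + s * (volume K).toReal / (hs K v / f v)) / m ≤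
        (volume W).toReal := by
    intro v hv hmv
    obtain ⟨p1, p2, p3⟩ := hpos v hv
    set a := hs K v / f v with ha
    set b := hs L v / f v with hb
    have ha0 : 0 < a := hap v hv
    have hb0 : 0 < b := hbp v hv
    have key := linBM (A := b⁻¹ • L) (B := a⁻¹ • K) (C := W) (cL.smul _) (cK.smul _)
      (hL.smul _) (hK.smul _)
      (by rintro _ ⟨x, hx, rfl⟩; exact ⟨-x, sL x hx, by simp⟩)
      (by rintro _ ⟨x, hx, rfl⟩; exact ⟨-x, sK x hx, by simp⟩)
      nL.smul_set nK.smul_set hWc.isClosed (hJ0 v hv)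
      (by
        rw [hs_smul_set hL nL (by (clear * - p2 p1; positivity)), hs_smul_set hK nK (by (clear * - p1 p2; positivity)), ha, hb]
        (clear * - p2 p1 p3; field_simp))
      (α := b / m) (β := s * a / m) (by (clear * - p2 p1 hm0; positivity)) (by (clear * - hs0 p1 p2 hm0; positivity))
      (by rw [← add_div, ← hmv, div_self hm0.ne'])
      (by
        rintro _ ⟨x, hx, rfl⟩ _ ⟨y, hy, rfl⟩
        have := hincl x hx y hy
        convert this using 1
        simp only [smul_smul, smul_add]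
        congr 2
        · (clear * - hb0 hm0; field_simp)
        · (clear * - ha0 hm0 hs0; field_simp))
    rw [hvolc b hb0, hvolc a ha0] at key
    have hfin : volume W ≠ ∞ := hWc.measure_lt_top.ne
    have key2 := ENNReal.toReal_mono hfin key
    have hLf : volume L ≠ ∞ := hL.measure_lt_top.ne
    have hKf : volume K ≠ ∞ := hK.measure_lt_top.ne
    rw [ENNReal.toReal_add (by finiteness) (by finiteness)] at key2
    simp only [ENNReal.toReal_mul] at key2
    rw [ENNReal.toReal_ofReal (by (clear * - p2 p1 hm0; positivity)), ENNReal.toReal_ofReal (by (clear * - p2 p1; positivity)),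
      ENNReal.toReal_ofReal (by (clear * - hs0 p1 p2 hm0; positivity)), ENNReal.toReal_ofReal (by (clear * - p1 p2; positivity))] at key2
    refine le_trans (le_of_eq ?_) key2
    (clear * - ha0 hb0 hm0; field_simp)
  exact real_final hl0 hl1 (hap u1 hu1) (hap u2 hu2) (hbp u1 hu1) (hbp u2 hu2) (hab u1 hu1)
    (hab u2 hu2) hm0 hm1 hm2 hlb hlt ENNReal.toReal_nonneg ENNReal.toReal_nonneg
    (hI u1 hu1 hm1) (hI u2 hu2 hm2)

end Vale.Agent.P227.T1
end

section

open MeasureTheory Set
open scoped ENNReal NNReal Pointwise Matrix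

namespace Vale.Agent.P227.T1

/-- Section of a set at height `a` of the zeroth coordinate. -/
def sec {m : ℕ} (S : Set (Fin (m + 1) → ℝ)) (a : ℝ) : Set (Fin m → ℝ) :=
  {x | (Fin.cons a x : Fin (m + 1) → ℝ) ∈ S}

theorem volume_sec {m : ℕ} {S : Set (Fin (m + 1) → ℝ)} (hS : MeasurableSet S) :
    volume S = ∫⁻ a : ℝ, volume (sec S a) := by
  have h1 := (volume_preserving_piFinSuccAbove (fun _ : Fin (m + 1) => ℝ) 0).symm.measure_preimage
    hS.nullMeasurableSet
  rw [← h1, Measure.volume_eq_prod, Measure.prod_apply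
    ((MeasurableEquiv.piFinSuccAbove (fun _ : Fin (m + 1) => ℝ) 0).symm.measurable hS)]
  apply lintegral_congr
  intro a
  congr 1
  ext x
  simp [sec, MeasurableEquiv.piFinSuccAbove]
  rfl

theorem measurable_sec {m : ℕ} {S : Set (Fin (m + 1) → ℝ)} (hS : MeasurableSet S) :
    Measurable fun a : ℝ => volume (sec S a) := by
  have := measurable_measure_prodMk_left (ν := (volume : Measure (Fin m → ℝ)))
    ((MeasurableEquiv.piFinSuccAbove (fun _ : Fin (m + 1) => ℝ) 0).symm.measurable hS)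
  convert this using 2 with a
  congr 1
  ext x
  simp only [sec, mem_ofPred_eq, MeasurableEquiv.piFinSuccAbove, Fin.zero_succAbove, Fin.insertNthEquiv_zero, MeasurableEquiv.symm_mk, Equiv.symm_symm, MeasurableEquiv.coe_mk, mem_preimage]
  rfl

theorem lintegral_even {φ : ℝ → ℝ≥0∞} (hφ : Measurable φ) (he : ∀ a, φ (-a) = φ a) :
    ∫⁻ a, φ a = 2 * ∫⁻ a in Ioi 0, φ a := by
  have h1 : ∫⁻ a, φ a = (∫⁻ a in Iic 0, φ a) + ∫⁻ a in Ioi 0, φ a := by
    rw [← lintegral_add_compl φ (measurableSet_Iic (a := (0 : ℝ))), compl_Iic]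
  have h2 : ∫⁻ a in Iic 0, φ a = ∫⁻ a in Ioi 0, φ a := by
    rw [← restrict_Iio_eq_restrict_Iic]
    have := (Measure.measurePreserving_neg (volume : Measure ℝ)).setLIntegral_comp_preimage
      (measurableSet_Iio (a := (0 : ℝ))) hφ
    rw [← this]
    simp only [neg_preimage, neg_Iio, neg_zero, he]
  rw [h1, h2, two_mul]

theorem cons_dot {m : ℕ} (a : ℝ) (x : Fin m → ℝ) (u : Fin (m + 1) → ℝ) :
    (Fin.cons a x : Fin (m + 1) → ℝ) ⬝ᵥ u = a * u 0 + x ⬝ᵥ Fin.tail u := by
  simp only [dotProduct, Fin.sum_univ_succ, Fin.cons_zero, Fin.cons_succ, Fin.tail]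

theorem sec_isCompact {m : ℕ} {S : Set (Fin (m + 1) → ℝ)} (hS : IsCompact S) (a : ℝ) :
    IsCompact (sec S a) := by
  have hc : Continuous fun x : Fin m → ℝ => (Fin.cons a x : Fin (m + 1) → ℝ) := by
    refine continuous_pi fun i => ?_
    refine Fin.cases ?_ (fun j => ?_) i
    · simpa using continuous_const
    · simpa using continuous_apply j
  refine Metric.isCompact_of_isClosed_isBounded (hS.isClosed.preimage hc) ?_
  obtain ⟨R, hR⟩ := hS.isBounded.exists_norm_le
  rw [isBounded_iff_forall_norm_le]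
  refine ⟨R, fun x hx => ?_⟩
  have h0 : 0 ≤ R := le_trans (norm_nonneg _) (hR _ hx)
  rw [pi_norm_le_iff_of_nonneg h0]
  intro i
  have := norm_le_pi_norm (Fin.cons a x : Fin (m + 1) → ℝ) i.succ
  simp only [Fin.cons_succ] at this
  exact le_trans this (hR _ hx)

theorem sec_convex {m : ℕ} {S : Set (Fin (m + 1) → ℝ)} (hS : Convex ℝ S) (a : ℝ) :
    Convex ℝ (sec S a) := by
  intro x hx y hy s t hs ht hst
  have := hS hx hy hs ht hst
  show (Fin.cons a (s • x + t • y) : Fin (m + 1) → ℝ) ∈ S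
  convert this using 1
  funext i
  refine Fin.cases ?_ (fun j => ?_) i
  · simp [← add_mul, hst]
  · simp

/-- Logarithmic Brunn-Minkowski inequality in coordinates for bodies with all but two coordinate
reflection symmetries. -/
theorem logBM_refl {l : ℝ} (hl0 : 0 < l) (hl1 : l < 1) (m : ℕ) :
    ∀ K L : Set (Fin (m + 2) → ℝ), Convex ℝ K → Convex ℝ L → IsCompact K → IsCompact L →
      (∀ x ∈ K, -x ∈ K) → (∀ x ∈ L, -x ∈ L) →
      (∀ i : Fin (m + 2), i.val < m → ∀ x ∈ K, Function.update x i (-x i) ∈ K) →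
      (∀ i : Fin (m + 2), i.val < m → ∀ x ∈ L, Function.update x i (-x i) ∈ L) →
      volume K ^ (1 - l) * volume L ^ l ≤
        volume (wf fun u => hs K u ^ (1 - l) * hs L u ^ l) := by
  have h1l : 0 < 1 - l := by linarith only [hl1]
  induction m with
  | zero =>
    intro K L cK cL hK hL sK sL _ _
    by_cases vK : volume K = 0
    · rw [vK, ENNReal.zero_rpow_of_pos h1l, zero_mul]
      exact zero_le
    by_cases vL : volume L = 0
    · rw [vL, ENNReal.zero_rpow_of_pos hl0, mul_zero]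
      exact zero_le
    have key := planar_pos cK cL hK hL sK sL vK vL hl0 hl1
    have fK : volume K ≠ ∞ := hK.measure_lt_top.ne
    have fL : volume L ≠ ∞ := hL.measure_lt_top.ne
    have fW : volume (wf fun u => hs K u ^ (1 - l) * hs L u ^ l) ≠ ∞ :=
      (wf_isCompact _).measure_lt_top.ne
    rw [ENNReal.toReal_rpow, ENNReal.toReal_rpow, ← ENNReal.toReal_mul] at key
    exact (ENNReal.toReal_le_toReal (by finiteness) fW).1 key
  | succ m ih =>
    intro K L cK cL hK hL sK sL rK rL
    set f : (Fin (m + 1 + 2) → ℝ) → ℝ := fun u => hs K u ^ (1 - l) * hs L u ^ l with hf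
    have flip : ∀ S : Set (Fin (m + 1 + 2) → ℝ),
        (∀ x ∈ S, Function.update x 0 (-x 0) ∈ S) → ∀ a, sec S (-a) = sec S a := by
      intro S hS
      have h1 : ∀ a, sec S a ⊆ sec S (-a) := by
        intro a x hx
        have := hS _ hx
        rwa [Fin.cons_zero, Fin.update_cons_zero] at this
      intro a
      apply Subset.antisymm
      · have := h1 (-a)
        rwa [neg_neg] at this
      · exact h1 a
    have r0K : ∀ x ∈ K, Function.update x 0 (-x 0) ∈ K := rK 0 (by simp)
    have r0L : ∀ x ∈ L, Function.update x 0 (-x 0) ∈ L := rL 0 (by simp only [Fin.coe_ofNat_eq_mod, Nat.zero_mod, lt_add_iff_pos_left, Order.lt_add_one_iff, zero_le])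
    have dotupd : ∀ x u : Fin (m + 1 + 2) → ℝ,
        Function.update x 0 (-x 0) ⬝ᵥ u = x ⬝ᵥ Function.update u 0 (-u 0) := by
      intro x u
      simp only [dotProduct, Fin.sum_univ_succ, Function.update_self, neg_mul, ne_eq, Fin.succ_ne_zero, not_false_eq_true, Function.update_of_ne, Fin.succ_zero_eq_one, Fin.succ_one_eq_two, mul_neg]
    have hsupd : ∀ S : Set (Fin (m + 1 + 2) → ℝ), (∀ x ∈ S, Function.update x 0 (-x 0) ∈ S) →
        ∀ u, hs S (Function.update u 0 (-u 0)) = hs S u := by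
      intro S hS u
      unfold hs
      congr 1
      ext c
      constructor
      · rintro ⟨x, hx, rfl⟩
        exact ⟨_, hS x hx, dotupd x u⟩
      · rintro ⟨x, hx, rfl⟩
        refine ⟨_, hS x hx, ?_⟩
        simp only
        rw [dotupd]
        congr 1
        simp
    have r0M : ∀ x ∈ wf f, Function.update x 0 (-x 0) ∈ wf f := by
      intro x hx u
      rw [dotupd]
      refine le_trans (hx _) (le_of_eq ?_)
      simp only [hf, hsupd K r0K, hsupd L r0L]
    have hMm : MeasurableSet (wf f) := (wf_isClosed f).measurableSet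
    have eK := volume_sec hK.measurableSet
    have eL := volume_sec hL.measurableSet
    have eM := volume_sec hMm
    rw [lintegral_even (measurable_sec hK.measurableSet) fun a => by rw [flip K r0K]] at eK
    rw [lintegral_even (measurable_sec hL.measurableSet) fun a => by rw [flip L r0L]] at eL
    rw [lintegral_even (measurable_sec hMm) fun a => by rw [flip _ r0M]] at eM
    rw [eK, eL, eM, ENNReal.mul_rpow_of_nonneg _ _ h1l.le, ENNReal.mul_rpow_of_nonneg _ _ hl0.le]
    have h2 : (2 : ℝ≥0∞) ^ (1 - l) * 2 ^ l = 2 := by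
      rw [← ENNReal.rpow_add _ _ (by norm_num) (by norm_num)]
      simp
    rw [mul_mul_mul_comm, h2]
    gcongr
    apply pl_mul hl0 hl1 _ _ _ (measurable_sec hK.measurableSet) (measurable_sec hL.measurableSet)
      (measurable_sec hMm)
    intro a b ha hb
    by_cases vK : volume (sec K a) = 0
    · rw [vK, ENNReal.zero_rpow_of_pos h1l, zero_mul]
      exact zero_le
    by_cases vL : volume (sec L b) = 0
    · rw [vL, ENNReal.zero_rpow_of_pos hl0, mul_zero]
      exact zero_le
    have nKa : (sec K a).Nonempty := by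
      rw [nonempty_iff_ne_empty]; intro h; rw [h] at vK; simp at vK
    have nLb : (sec L b).Nonempty := by
      rw [nonempty_iff_ne_empty]; intro h; rw [h] at vL; simp at vL
    have ssec : ∀ (S : Set (Fin (m + 1 + 2) → ℝ)), (∀ x ∈ S, -x ∈ S) →
        (∀ x ∈ S, Function.update x 0 (-x 0) ∈ S) → ∀ (c : ℝ), ∀ x ∈ sec S c, -x ∈ sec S c := by
      intro S sS rS c x hx
      have h3 := rS _ (sS _ hx)
      show (Fin.cons c (-x) : Fin (m + 1 + 2) → ℝ) ∈ S
      convert h3 using 1
      funext i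
      refine Fin.cases ?_ (fun j => ?_) i
      · simp
      · simp
    have rsec : ∀ (S : Set (Fin (m + 1 + 2) → ℝ)),
        (∀ i : Fin (m + 1 + 2), i.val < m + 1 → ∀ x ∈ S, Function.update x i (-x i) ∈ S) →
        ∀ (c : ℝ) (i : Fin (m + 2)), i.val < m → ∀ x ∈ sec S c,
          Function.update x i (-x i) ∈ sec S c := by
      intro S rS c i hi x hx
      have h3 := rS i.succ (by simp; omega) _ hx
      show (Fin.cons c (Function.update x i (-x i)) : Fin (m + 1 + 2) → ℝ) ∈ S
      rw [Fin.cons_update]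
      simpa using h3
    have key := ih (sec K a) (sec L b) (sec_convex cK a) (sec_convex cL b) (sec_isCompact hK a)
      (sec_isCompact hL b) (ssec K sK r0K a) (ssec L sL r0L b) (rsec K rK a) (rsec L rL b)
    refine le_trans key (measure_mono ?_)
    have hlow : ∀ (S : Set (Fin (m + 1 + 2) → ℝ)) (c : ℝ), 0 < c → IsCompact S →
        (∀ x ∈ S, Function.update x 0 (-x 0) ∈ S) → (sec S c).Nonempty →
        ∀ u : Fin (m + 1 + 2) → ℝ, c * |u 0| + hs (sec S c) (Fin.tail u) ≤ hs S u := by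
      intro S c hc hS rS nS u
      obtain ⟨y, hy, hyu⟩ := exists_hs (sec_isCompact hS c) nS (Fin.tail u)
      rw [← hyu]
      rcases le_total 0 (u 0) with h | h
      · rw [abs_of_nonneg h, ← cons_dot]
        exact le_hs hS hy u
      · rw [abs_of_nonpos h]
        have h4 := rS _ hy
        rw [Fin.cons_zero, Fin.update_cons_zero] at h4
        have := le_hs hS h4 u
        rw [cons_dot] at this
        linarith only [this]
    intro x hx u
    rw [cons_dot]
    have i1 := hx (Fin.tail u)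
    have i2 := hlow K a ha hK r0K nKa u
    have i3 := hlow L b hb hL r0L nLb u
    have j1 : 0 ≤ hs (sec K a) (Fin.tail u) :=
      hs_nonneg (sec_isCompact hK a) nKa (ssec K sK r0K a) _
    have j2 : 0 ≤ hs (sec L b) (Fin.tail u) :=
      hs_nonneg (sec_isCompact hL b) nLb (ssec L sL r0L b) _
    have e1 : (a * |u 0|) ^ (1 - l) * (b * |u 0|) ^ l = a ^ (1 - l) * b ^ l * |u 0| := by
      rw [Real.mul_rpow ha.le (abs_nonneg _), Real.mul_rpow hb.le (abs_nonneg _)]
      have : |u 0| ^ (1 - l) * |u 0| ^ l = |u 0| := by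
        rw [← Real.rpow_add' (abs_nonneg _) (by simp)]
        simp
      calc a ^ (1 - l) * |u 0| ^ (1 - l) * (b ^ l * |u 0| ^ l)
          = a ^ (1 - l) * b ^ l * (|u 0| ^ (1 - l) * |u 0| ^ l) := by ring
        _ = _ := by rw [this]
    have hh := holder2 hl0 hl1 (p := a * |u 0|) (q := b * |u 0|)
      (r := hs (sec K a) (Fin.tail u)) (s := hs (sec L b) (Fin.tail u))
      (by (clear * - ha; positivity)) (by (clear * - hb; positivity)) j1 j2
    rw [e1] at hh
    have e2 : a ^ (1 - l) * b ^ l * u 0 ≤ a ^ (1 - l) * b ^ l * |u 0| := by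
      have := le_abs_self (u 0)
      have : 0 ≤ a ^ (1 - l) * b ^ l := by (clear * - ha hb; positivity)
      (clear hl0 hl1 h1l ih K L cK cL hK hL sK sL rK rL f hf flip r0K r0L dotupd hsupd r0M hMm eK eL eM h2 vK vL nKa nLb ssec rsec key hlow x hx i1 i2 i3 j1 j2 e1 hh this; gcongr)
    have e3 : (a * |u 0| + hs (sec K a) (Fin.tail u)) ^ (1 - l) *
        (b * |u 0| + hs (sec L b) (Fin.tail u)) ^ l ≤ f u := by
      simp only [hf]
      have k1 : 0 ≤ hs K u := le_trans (by (clear * - ha j1; positivity)) i2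
      have k2 : 0 ≤ hs L u := le_trans (by (clear * - hb j2; positivity)) i3
      exact mul_le_mul (Real.rpow_le_rpow (by (clear * - ha j1; positivity)) i2 h1l.le)
        (Real.rpow_le_rpow (by (clear * - hb j2; positivity)) i3 hl0.le) (by (clear * - hb j2; positivity)) (by (clear * - k1; positivity))
    linarith only [i1, hh, e2, e3]

end Vale.Agent.P227.T1
end

section
attribute [-instance] ProperSMul.toContinuousSMul IsTopologicalTorsor.toContinuousSMul IdemSemiring.toCanonicallyOrderedAdd IdemSemiring.toMulLeftMono IdemSemiring.toMulRightMono AddQuantale.instAddLeftMono AddQuantale.instAddRightMono Quantale.instMulLeftMono Quantale.instMulRightMono FiniteDimensional.rclike_to_real IsScalarTower.complexToReal FiniteDimensional.complexToReal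

open MeasureTheory Set
open scoped Pointwise

namespace Vale.Agent.P227.Rot

/-- The rotation by the angle `a`. -/
noncomputable def ex (a : ℝ) : ℂ := Complex.exp ((a : ℂ) * Complex.I)

/-- Compact convex subset of the plane, invariant under the rotation of order `m`. -/
structure CmBody (m : ℕ) (X : Set ℂ) : Prop where
  convex : Convex ℝ X
  isCompact : IsCompact X
  nonempty : X.Nonempty
  rot : ∀ y ∈ X, ex (2 * Real.pi / m) * y ∈ X

/-- Area. -/
noncomputable def area (X : Set ℂ) : ℝ := (volume X).toReal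

/-- Support function in the direction of angle `a`. -/
noncomputable def hsup (X : Set ℂ) (a : ℝ) : ℝ := sSup ((fun y : ℂ => (ex (-a) * y).re) '' X)

/-- Distance of `d` to the nearest multiple of `2 π / m`. -/
noncomputable def dst (m : ℕ) (d : ℝ) : ℝ :=
  |d - 2 * Real.pi / m * (round (d / (2 * Real.pi / m)) : ℝ)|

/-- Normalised kernel. -/
noncomputable def cc (m : ℕ) (d : ℝ) : ℝ := Real.cos (Real.pi / m - dst m d)

/-- Support function of the regular `m`-gon with unit edges and a normal at angle `0`. -/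
noncomputable def kap (m : ℕ) (d : ℝ) : ℝ := cc m d / (2 * Real.sin (Real.pi / m))

/-- The regular `m`-gon with unit edges, centre `0`, and an edge normal at angle `a`. -/
noncomputable def Rgon (m : ℕ) (a : ℝ) : Set ℂ :=
  {y | ∀ j : ℕ, (ex (-(a + 2 * Real.pi * j / m)) * y).re ≤ 1 / (2 * Real.tan (Real.pi / m))}

/-- The bilinear form of the kernel. -/
noncomputable def BB {ι : Type} [Fintype ι] (m : ℕ) (θ : ι → ℝ) (x y : ι → ℝ) : ℝ :=
  ∑ i, ∑ k, x i * y k * kap m (θ i - θ k)

/-- Support values of `∑ x i • Rgon m (θ i)`. -/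
noncomputable def HH {ι : Type} [Fintype ι] (m : ℕ) (θ : ι → ℝ) (x : ι → ℝ) (a : ℝ) : ℝ :=
  ∑ i, x i * kap m (a - θ i)

/-- The sum `∑ x i • Rgon m (θ i)`. -/
noncomputable def QQ {ι : Type} [Fintype ι] (m : ℕ) (θ : ι → ℝ) (x : ι → ℝ) : Set ℂ :=
  ∑ i, x i • Rgon m (θ i)

/-- Intersection of the rotated half planes with normals `θ i + 2 π j / m`. -/
noncomputable def FF {ι : Type} (m : ℕ) (θ : ι → ℝ) (H : ι → ℝ) : Set ℂ :=
  {y | ∀ i, ∀ j : ℕ, (ex (-(θ i + 2 * Real.pi * j / m)) * y).re ≤ H i}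

end Vale.Agent.P227.Rot
end

section
attribute [-instance] ProperSMul.toContinuousSMul IsTopologicalTorsor.toContinuousSMul IdemSemiring.toCanonicallyOrderedAdd IdemSemiring.toMulLeftMono IdemSemiring.toMulRightMono AddQuantale.instAddLeftMono AddQuantale.instAddRightMono Quantale.instMulLeftMono Quantale.instMulRightMono FiniteDimensional.rclike_to_real IsScalarTower.complexToReal FiniteDimensional.complexToReal

open MeasureTheory Set Matrix
open scoped Pointwise ENNReal MatrixOrder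

namespace Vale.Agent.P227.Rot

lemma posDef_factor {n : ℕ} {M : Matrix (Fin n) (Fin n) ℝ} (hM : M.PosDef) :
    ∃ N : Matrix (Fin n) (Fin n) ℝ, IsUnit N.det ∧ M = N * Nᵀ := by
  obtain ⟨y, hy⟩ := CStarAlgebra.nonneg_iff_eq_star_mul_self.mp hM.posSemidef.nonneg
  refine ⟨yᵀ, ?_, ?_⟩
  · have h1 : IsUnit M.det := (Matrix.isUnit_iff_isUnit_det _).1 hM.isUnit
    rw [hy, Matrix.det_mul] at h1
    rw [Matrix.det_transpose]
    exact isUnit_of_mul_isUnit_right h1
  · rw [hy, Matrix.transpose_transpose, Matrix.star_eq_conjTranspose,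
      Matrix.conjTranspose_eq_transpose_of_trivial]

/-- Second moments. -/
noncomputable def mom {n : ℕ} (K : Set (EuclideanSpace ℝ (Fin n))) : Matrix (Fin n) (Fin n) ℝ :=
  Matrix.of fun i j => ∫ z in K, z i * z j

lemma mom_posDef {n : ℕ} {K : Set (EuclideanSpace ℝ (Fin n))} (hK : IsCompact K)
    (iK : (interior K).Nonempty) : (mom K).PosDef := by
  have hint : ∀ i j, IntegrableOn (fun z : EuclideanSpace ℝ (Fin n) => z i * z j) K volume :=
    fun i j => (by fun_prop : Continuous fun z : EuclideanSpace ℝ (Fin n) =>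
      z i * z j).continuousOn.integrableOn_compact hK
  apply Matrix.PosDef.of_dotProduct_mulVec_pos
  · ext i j
    simp [mom, mul_comm]
  · intro x hx
    have h1 : star x ⬝ᵥ (mom K *ᵥ x) = ∫ z in K, (∑ i, z i * x i) ^ 2 := by
      have : ∀ z : EuclideanSpace ℝ (Fin n), (∑ i, z i * x i) ^ 2 =
          ∑ i, ∑ j, (x i * x j) * (z i * z j) := by
        intro z
        rw [sq, Finset.sum_mul_sum]
        refine Finset.sum_congr rfl fun i _ => Finset.sum_congr rfl fun j _ => ?_
        ring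
      simp_rw [this]
      rw [integral_finsetSum]
      · simp only [dotProduct, mulVec, mom, Finset.mul_sum, star_trivial, Matrix.of_apply]
        refine Finset.sum_congr rfl fun i _ => ?_
        rw [integral_finsetSum]
        · refine Finset.sum_congr rfl fun j _ => ?_
          rw [integral_const_mul]
          ring
        · intro j _
          exact (hint i j).const_mul _
      · intro i _
        exact integrable_finsetSum _ fun j _ => (hint i j).const_mul _
    rw [h1, setIntegral_pos_iff_support_of_nonneg_ae]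
    · have hop : IsOpen (Function.support fun z : EuclideanSpace ℝ (Fin n) =>
          (∑ i, z i * x i) ^ 2) := by
        exact (by fun_prop : Continuous fun z : EuclideanSpace ℝ (Fin n) =>
          (∑ i, z i * x i) ^ 2).isOpen_support
      obtain ⟨p, hp⟩ := iK
      have hne : ((Function.support fun z : EuclideanSpace ℝ (Fin n) =>
          (∑ i, z i * x i) ^ 2) ∩ interior K).Nonempty := by
        by_contra hcon
        rw [Set.not_nonempty_iff_eq_empty] at hcon
        have hz : ∀ z ∈ interior K, ∑ i, z i * x i = 0 := by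
          intro z hz
          by_contra h
          have : z ∈ (Function.support fun z : EuclideanSpace ℝ (Fin n) =>
            (∑ i, z i * x i) ^ 2) ∩ interior K := ⟨pow_ne_zero 2 h, hz⟩
          rw [hcon] at this
          exact this
        set X : EuclideanSpace ℝ (Fin n) := WithLp.toLp 2 x with hX
        have hc : Continuous fun r : ℝ => p + r • X := by fun_prop
        have hnh : ∀ᶠ r : ℝ in nhds 0, p + r • X ∈ interior K := by
          apply hc.continuousAt.eventually
          simp only [zero_smul, add_zero]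
          exact isOpen_interior.mem_nhds hp
        obtain ⟨r, hr, hr0⟩ : ∃ r : ℝ, p + r • X ∈ interior K ∧ r ≠ 0 := by
          have h3 : ∀ᶠ r : ℝ in nhdsWithin 0 {0}ᶜ, p + r • X ∈ interior K ∧ r ≠ 0 :=
            (hnh.filter_mono nhdsWithin_le_nhds).and self_mem_nhdsWithin
          exact h3.exists
        have h4 := hz _ hr
        have h5 := hz _ hp
        have h6 : ∑ i, (p + r • X) i * x i = (∑ i, p i * x i) + r * ∑ i, x i * x i := by
          rw [Finset.mul_sum, ← Finset.sum_add_distrib]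
          refine Finset.sum_congr rfl fun i _ => ?_
          simp [hX]
          ring
        rw [h6, h5, zero_add, mul_eq_zero] at h4
        have h7 := h4.resolve_left hr0
        apply hx
        funext i
        have h8 := (Finset.sum_eq_zero_iff_of_nonneg (fun i _ => mul_self_nonneg (x i))).1 h7 i
          (Finset.mem_univ i)
        simpa using h8
      refine ((hop.inter isOpen_interior).measure_pos volume hne).trans_le ?_
      exact measure_mono (Set.inter_subset_inter_right _ interior_subset)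
    · exact Filter.Eventually.of_forall fun z => sq_nonneg _
    · have : ∀ z : EuclideanSpace ℝ (Fin n), (∑ i, z i * x i) ^ 2 =
          (∑ i, z i * x i) ^ 2 := fun z => rfl
      exact (by fun_prop : Continuous fun z : EuclideanSpace ℝ (Fin n) =>
          (∑ i, z i * x i) ^ 2).continuousOn.integrableOn_compact hK

lemma abs_det_of_image {n : ℕ} {K : Set (EuclideanSpace ℝ (Fin n))} (hK : IsCompact K)
    (iK : (interior K).Nonempty) (A : EuclideanSpace ℝ (Fin n) →ₗ[ℝ] EuclideanSpace ℝ (Fin n))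
    (hA : A '' K = K) : |LinearMap.det A| = 1 := by
  have h := Measure.addHaar_image_linearMap (volume : Measure (EuclideanSpace ℝ (Fin n))) A K
  rw [hA] at h
  have h0 : volume K ≠ 0 := by
    have := isOpen_interior.measure_pos volume iK
    exact (this.trans_le (measure_mono interior_subset)).ne'
  have h1 : volume K ≠ ⊤ := hK.measure_lt_top.ne
  have h2 : ENNReal.ofReal |LinearMap.det A| * volume K = 1 * volume K := by
    rw [one_mul]
    exact h.symm
  have h3 := (ENNReal.mul_left_inj h0 h1).1 h2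
  rw [← ENNReal.ofReal_one] at h3
  exact (ENNReal.ofReal_eq_ofReal_iff (abs_nonneg _) zero_le_one).1 h3

lemma mom_invariant {n : ℕ} {K : Set (EuclideanSpace ℝ (Fin n))} (hK : IsCompact K)
    (A : EuclideanSpace ℝ (Fin n) →ₗ[ℝ] EuclideanSpace ℝ (Fin n))
    (hdet : |LinearMap.det A| = 1) (hA : A '' K = K) :
    Matrix.toEuclideanLin.symm A * mom K * (Matrix.toEuclideanLin.symm A)ᵀ = mom K := by
  set B := Matrix.toEuclideanLin.symm A with hB
  have hAB : ∀ z : EuclideanSpace ℝ (Fin n), ∀ i, (A z) i = ∑ j, B i j * z j := by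
    intro z i
    have : A = Matrix.toEuclideanLin B := by rw [hB]; simp
    rw [this]
    simp [Matrix.mulVec, dotProduct]
  have hint : ∀ i j, IntegrableOn (fun z : EuclideanSpace ℝ (Fin n) => z i * z j) K volume :=
    fun i j => (by fun_prop : Continuous fun z : EuclideanSpace ℝ (Fin n) =>
      z i * z j).continuousOn.integrableOn_compact hK
  have hd0 : LinearMap.det A ≠ 0 := by
    intro h
    rw [h, abs_zero] at hdet
    exact zero_ne_one hdet
  have hmp : MeasurePreserving A (volume : Measure (EuclideanSpace ℝ (Fin n))) volume := by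
    refine ⟨(LinearMap.continuous_of_finiteDimensional A).measurable, ?_⟩
    rw [Measure.map_linearMap_addHaar_eq_smul_addHaar _ hd0, abs_inv, hdet]
    simp
  set e : EuclideanSpace ℝ (Fin n) ≃ₗ[ℝ] EuclideanSpace ℝ (Fin n) :=
    LinearMap.equivOfDetNeZero A hd0 with he
  have heA : ∀ x, e x = A x := fun x => rfl
  have hpre : A ⁻¹' K = K := by
    ext x
    constructor
    · intro hx
      have hx' : A x ∈ A '' K := by rw [hA]; exact hx
      obtain ⟨y, hy, hxy⟩ := hx'
      have : y = x := e.injective hxy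
      rwa [← this]
    · intro hx
      have : A x ∈ A '' K := ⟨x, hx, rfl⟩
      rwa [hA] at this
  have hemb : MeasurableEmbedding A :=
    e.toContinuousLinearEquiv.toHomeomorph.measurableEmbedding
  ext i j
  have h1 := hmp.setIntegral_preimage_emb hemb
    (fun z : EuclideanSpace ℝ (Fin n) => z i * z j) K
  rw [hpre] at h1
  have h2 : (mom K) i j = ∫ z in K, (∑ k, B i k * z k) * (∑ l, B j l * z l) := by
    simp only [mom, Matrix.of_apply]
    rw [← h1]
    simp_rw [hAB]
  rw [h2]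
  have h3 : ∀ z : EuclideanSpace ℝ (Fin n), (∑ k, B i k * z k) * (∑ l, B j l * z l) =
      ∑ k, ∑ l, (B i k * B j l) * (z k * z l) := by
    intro z
    rw [Finset.sum_mul_sum]
    refine Finset.sum_congr rfl fun k _ => Finset.sum_congr rfl fun l _ => ?_
    ring
  simp_rw [h3]
  rw [integral_finsetSum]
  · rw [Matrix.mul_apply]
    simp only [Matrix.mul_apply, Matrix.transpose_apply, Finset.sum_mul]
    rw [Finset.sum_comm]
    refine Finset.sum_congr rfl fun k _ => ?_
    rw [integral_finsetSum]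
    · refine Finset.sum_congr rfl fun l _ => ?_
      rw [integral_const_mul]
      simp only [mom, Matrix.of_apply]
      ring
    · intro l _
      exact (hint k l).const_mul _
  · intro k _
    exact integrable_finsetSum _ fun l _ => (hint k l).const_mul _

end Vale.Agent.P227.Rot
end

section
attribute [-instance] ProperSMul.toContinuousSMul IsTopologicalTorsor.toContinuousSMul IdemSemiring.toCanonicallyOrderedAdd IdemSemiring.toMulLeftMono IdemSemiring.toMulRightMono AddQuantale.instAddLeftMono AddQuantale.instAddRightMono Quantale.instMulLeftMono Quantale.instMulRightMono FiniteDimensional.rclike_to_real IsScalarTower.complexToReal FiniteDimensional.complexToReal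

/-!
# P227 / Slab : Ball's one-dimensional inequality
-/

open MeasureTheory Set

namespace Vale.Agent.P227.Slab

open Filter Topology

/-- the pointwise inequality -/
theorem ball_pt {p q A B a b x y : ℝ} (hp : 0 < p) (hq : 0 < q) (hA : 0 < A) (hB : 0 < B)
    (ha : 0 < a) (hb : 0 < b) (hx : 0 < x) (hy : 0 < y) :
    a / (p + q * (A / B)) ≤ (p * y ^ 2 + q * x ^ 2 * (b⁻¹ * (B / A * a))) / (p * y + q * x) ^ 2 *
      (a ^ (p * y / (p * y + q * x)) * b ^ (q * x / (p * y + q * x))) := by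
  set D := p * y + q * x with hD
  have hD0 : 0 < D := by (clear * - hp hy hq hx; positivity)
  set α := p * y / D with hα
  set β := q * x / D with hβ
  have hα0 : 0 ≤ α := by (clear * - hp hy hq hx; positivity)
  have hβ0 : 0 ≤ β := by positivity
  have hαβ : α + β = 1 := by
    rw [hα, hβ, ← add_div, ← hD, div_self hD0.ne']
  have h1 := Real.geom_mean_le_arith_mean2_weighted hα0 hβ0 (p₁ := y / D)
    (p₂ := x / D * (B / A) * (a / b)) (by (clear * - hy hp hq hx; positivity)) (by positivity) hαβ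
  have h2 := Real.geom_mean_le_arith_mean2_weighted hα0 hβ0 (p₁ := D / y)
    (p₂ := D / x * (A / B)) (by positivity) (by positivity) hαβ
  have e1 : α * (y / D) + β * (x / D * (B / A) * (a / b)) =
      (p * y ^ 2 + q * x ^ 2 * (b⁻¹ * (B / A * a))) / D ^ 2 := by
    rw [hα, hβ]; field_simp
  have e2 : α * (D / y) + β * (D / x * (A / B)) = p + q * (A / B) := by
    rw [hα, hβ]; (clear * - hB hy hx hD0 hp hq hA; field_simp)
  rw [e1] at h1
  rw [e2] at h2
  have hE : 0 < p + q * (A / B) := by positivity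
  have hG2 : 0 < (D / y) ^ α * (D / x * (A / B)) ^ β := by (clear * - hp hy hq hx hA hB; positivity)
  have e3 : ((y / D) ^ α * (x / D * (B / A) * (a / b)) ^ β) *
      ((D / y) ^ α * (D / x * (A / B)) ^ β) = (a / b) ^ β := by
    have f1 : (y / D) ^ α * (D / y) ^ α = 1 := by
      rw [← Real.mul_rpow (by positivity) (by positivity)]
      have : y / D * (D / y) = 1 := by (clear * - hy hD0; field_simp)
      rw [this, Real.one_rpow]
    have f2 : (x / D * (B / A) * (a / b)) ^ β * (D / x * (A / B)) ^ β = (a / b) ^ β := by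
      rw [← Real.mul_rpow (by positivity) (by positivity)]
      congr 1
      (clear * - hx hD0 hB hA hb ha; field_simp)
    calc _ = ((y / D) ^ α * (D / y) ^ α) *
          ((x / D * (B / A) * (a / b)) ^ β * (D / x * (A / B)) ^ β) := by ring
      _ = _ := by rw [f1, f2, one_mul]
  have e4 : (a / b) ^ β * (a ^ α * b ^ β) = a := by
    rw [Real.div_rpow ha.le hb.le]
    have hbβ : b ^ β ≠ 0 := (Real.rpow_pos_of_pos hb β).ne'
    have : a ^ β / b ^ β * (a ^ α * b ^ β) = a ^ α * a ^ β := by (clear * - hbβ ha; field_simp)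
    rw [this, ← Real.rpow_add ha, hαβ, Real.rpow_one]
  have hab : 0 < a ^ α * b ^ β := by (clear * - ha hb; positivity)
  have key : (a / b) ^ β / (p + q * (A / B)) ≤
      (y / D) ^ α * (x / D * (B / A) * (a / b)) ^ β := by
    rw [div_le_iff₀ hE, ← e3]
    exact mul_le_mul_of_nonneg_left h2 (by positivity)
  calc a / (p + q * (A / B)) = (a / b) ^ β / (p + q * (A / B)) * (a ^ α * b ^ β) := by
        rw [div_mul_eq_mul_div, e4]
    _ ≤ ((y / D) ^ α * (x / D * (B / A) * (a / b)) ^ β) * (a ^ α * b ^ β) :=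
        mul_le_mul_of_nonneg_right key hab.le
    _ ≤ _ := mul_le_mul_of_nonneg_right h1 hab.le

section prim

variable {S : ℝ} {v : ℝ → ℝ}

theorem ii_sub (iv : IntegrableOn v (Ioo 0 S)) {a b : ℝ} (ha : 0 ≤ a) (hab : a ≤ b)
    (hb : b ≤ S) : IntervalIntegrable v volume a b := by
  rw [intervalIntegrable_iff_integrableOn_Ioo_of_le hab]
  exact iv.mono_set (Ioo_subset_Ioo ha hb)

theorem prim_sm (pv : ∀ y ∈ Ioo 0 S, 0 < v y) (iv : IntegrableOn v (Ioo 0 S)) :
    StrictMonoOn (fun x => ∫ t in (0 : ℝ)..x, v t) (Icc 0 S) := by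
  intro a ha b hb hab
  have h1 := intervalIntegral.integral_add_adjacent_intervals (ii_sub iv le_rfl ha.1 ha.2)
    (ii_sub iv ha.1 hab.le hb.2)
  have h2 : 0 < ∫ t in a..b, v t :=
    intervalIntegral.intervalIntegral_pos_of_pos_on (ii_sub iv ha.1 hab.le hb.2)
      (fun x hx => pv x ⟨ha.1.trans_lt hx.1, hx.2.trans_le hb.2⟩) hab
  show (∫ t in (0 : ℝ)..a, v t) < ∫ t in (0 : ℝ)..b, v t
  linarith only [h1, h2]

theorem prim_cont (hS : 0 < S) (iv : IntegrableOn v (Ioo 0 S)) :
    ContinuousOn (fun x => ∫ t in (0 : ℝ)..x, v t) (Icc 0 S) := by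
  have h := intervalIntegral.continuousOn_primitive_interval (μ := volume) (f := v) (a := 0)
    (b := S) (by rw [uIcc_of_le hS.le, integrableOn_Icc_iff_integrableOn_Ioo]; exact iv)
  rwa [uIcc_of_le hS.le] at h

theorem prim_deriv (hv : ContinuousOn v (Ioo 0 S)) (iv : IntegrableOn v (Ioo 0 S)) {x : ℝ}
    (hx : x ∈ Ioo 0 S) : HasDerivAt (fun x => ∫ t in (0 : ℝ)..x, v t) (v x) x := by
  refine intervalIntegral.integral_hasDerivAt_right (ii_sub iv le_rfl hx.1.le hx.2.le) ?_
    (hv.continuousAt (Ioo_mem_nhds hx.1 hx.2))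
  exact hv.stronglyMeasurableAtFilter isOpen_Ioo x hx

theorem prim_end (hS : 0 < S) : (∫ t in (0 : ℝ)..S, v t) = ∫ t in Ioo 0 S, v t := by
  rw [intervalIntegral.integral_of_le hS.le, integral_Ioc_eq_integral_Ioo]

theorem prim_inv (hS : 0 < S) (hv : ContinuousOn v (Ioo 0 S)) (pv : ∀ y ∈ Ioo 0 S, 0 < v y)
    (iv : IntegrableOn v (Ioo 0 S)) : ∃ g : ℝ → ℝ,
      (∀ t ∈ Ioo 0 (∫ y in Ioo 0 S, v y), g t ∈ Ioo 0 S) ∧
      StrictMonoOn g (Ioo 0 (∫ y in Ioo 0 S, v y)) ∧
      ∀ t ∈ Ioo 0 (∫ y in Ioo 0 S, v y), HasDerivAt g (v (g t))⁻¹ t := by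
  classical
  set B := ∫ y in Ioo 0 S, v y with hB
  set V : ℝ → ℝ := fun x => ∫ t in (0 : ℝ)..x, v t with hV
  have V0 : V 0 = 0 := by simp [hV]
  have VS : V S = B := prim_end hS
  have sm : StrictMonoOn V (Icc 0 S) := prim_sm pv iv
  have hex : ∀ t, t ∈ Ioo 0 B → ∃ y ∈ Ioo 0 S, V y = t := by
    intro t ht
    have h1 := intermediate_value_Ioo hS.le (prim_cont hS iv)
    have h2 : t ∈ Ioo (V 0) (V S) := by rw [V0, VS]; exact ht
    exact h1 h2
  choose! g hg1 hg2 using hex
  have smg : StrictMonoOn g (Ioo 0 B) := by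
    intro s hs t ht hst
    by_contra hn
    push Not at hn
    have := sm.monotoneOn (Ioo_subset_Icc_self (hg1 t ht)) (Ioo_subset_Icc_self (hg1 s hs)) hn
    rw [hg2 t ht, hg2 s hs] at this
    exact absurd this (not_le.2 hst)
  have img : g '' Ioo 0 B = Ioo 0 S := by
    ext y
    constructor
    · rintro ⟨t, ht, rfl⟩
      exact hg1 t ht
    · intro hy
      have hVy : V y ∈ Ioo 0 B := by
        rw [← V0, ← VS]
        exact ⟨sm (left_mem_Icc.2 hS.le) (Ioo_subset_Icc_self hy) hy.1,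
          sm (Ioo_subset_Icc_self hy) (right_mem_Icc.2 hS.le) hy.2⟩
      refine ⟨V y, hVy, ?_⟩
      exact sm.injOn (Ioo_subset_Icc_self (hg1 _ hVy)) (Ioo_subset_Icc_self hy) (hg2 _ hVy)
  refine ⟨g, hg1, smg, fun t ht => ?_⟩
  have hc : ContinuousAt g t := by
    refine smg.continuousAt_of_image_mem_nhds (Ioo_mem_nhds ht.1 ht.2) ?_
    rw [img]
    exact Ioo_mem_nhds (hg1 t ht).1 (hg1 t ht).2
  refine HasDerivAt.of_local_left_inverse hc (prim_deriv hv iv (hg1 t ht))
    (pv _ (hg1 t ht)).ne' ?_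
  filter_upwards [Ioo_mem_nhds ht.1 ht.2] with s hs
  exact hg2 s hs

end prim

/-- Ball's one-dimensional inequality (exponent one). -/
theorem ball_one {p q R S : ℝ} (hp : 0 < p) (hq : 0 < q) (hpq : p + q = 1) (hR : 0 < R)
    (hS : 0 < S) {u v w : ℝ → ℝ} (hu : ContinuousOn u (Ioo 0 R)) (hv : ContinuousOn v (Ioo 0 S))
    (pu : ∀ x ∈ Ioo 0 R, 0 < u x) (pv : ∀ y ∈ Ioo 0 S, 0 < v y)
    (iu : IntegrableOn u (Ioo 0 R)) (iv : IntegrableOn v (Ioo 0 S))
    (iw : IntegrableOn w (Ioi 0)) (w0 : ∀ z, 0 ≤ w z)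
    (h : ∀ x ∈ Ioo 0 R, ∀ y ∈ Ioo 0 S,
      u x ^ (p * y / (p * y + q * x)) * v y ^ (q * x / (p * y + q * x)) ≤
        w (x * y / (p * y + q * x))) :
    1 / (∫ z in Ioi 0, w z) ≤ p / (∫ x in Ioo 0 R, u x) + q / (∫ y in Ioo 0 S, v y) := by
  obtain ⟨g, hg1, hg2, hg3⟩ := prim_inv hS hv pv iv
  set A := ∫ x in Ioo 0 R, u x with hAdef
  set B := ∫ y in Ioo 0 S, v y with hBdef
  have hA : 0 < A := by
    rw [hAdef, ← prim_end hR]
    exact intervalIntegral.intervalIntegral_pos_of_pos_on (ii_sub iu le_rfl hR.le le_rfl) pu hR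
  have hB : 0 < B := by
    rw [hBdef, ← prim_end hS]
    exact intervalIntegral.intervalIntegral_pos_of_pos_on (ii_sub iv le_rfl hS.le le_rfl) pv hS
  set U : ℝ → ℝ := fun x => ∫ t in (0 : ℝ)..x, u t with hU
  have U0 : U 0 = 0 := by simp [hU]
  have UR : U R = A := prim_end hR
  have smU : StrictMonoOn U (Icc 0 R) := prim_sm pu iu
  have hUx : ∀ x ∈ Ioo 0 R, B / A * U x ∈ Ioo 0 B := by
    intro x hx
    have h1 : 0 < U x := by
      rw [← U0]
      exact smU (left_mem_Icc.2 hR.le) (Ioo_subset_Icc_self hx) hx.1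
    have h2 : U x < A := by
      rw [← UR]
      exact smU (Ioo_subset_Icc_self hx) (right_mem_Icc.2 hR.le) hx.2
    refine ⟨by (clear * - hB hA h1; positivity), ?_⟩
    calc B / A * U x < B / A * A := mul_lt_mul_of_pos_left h2 (by (clear * - hB hA; positivity))
      _ = B := by (clear * - hA hB; field_simp)
  set Y : ℝ → ℝ := fun x => g (B / A * U x) with hY
  have hY1 : ∀ x ∈ Ioo 0 R, Y x ∈ Ioo 0 S := fun x hx => hg1 _ (hUx x hx)
  have smY : StrictMonoOn Y (Ioo 0 R) := by
    intro a ha b hb hab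
    refine hg2 (hUx a ha) (hUx b hb) ?_
    exact mul_lt_mul_of_pos_left (smU (Ioo_subset_Icc_self ha) (Ioo_subset_Icc_self hb) hab)
      (by (clear * - hB hA; positivity))
  have dY : ∀ x ∈ Ioo 0 R, HasDerivAt Y ((v (Y x))⁻¹ * (B / A * u x)) x := by
    intro x hx
    have h1 : HasDerivAt (fun x => B / A * U x) (B / A * u x) x :=
      (prim_deriv hu iu hx).const_mul _
    exact (hg3 _ (hUx x hx)).comp x h1
  set ρ : ℝ → ℝ := fun x => x * Y x / (p * Y x + q * x) with hρ
  set ρ' : ℝ → ℝ := fun x => (p * Y x ^ 2 + q * x ^ 2 * ((v (Y x))⁻¹ * (B / A * u x))) /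
    (p * Y x + q * x) ^ 2 with hρ'
  have dρ : ∀ x ∈ Ioo 0 R, HasDerivAt ρ (ρ' x) x := by
    intro x hx
    have hx0 : 0 < x := hx.1
    have hy0 : 0 < Y x := (hY1 x hx).1
    have hD : p * Y x + q * x ≠ 0 := by (clear * - hp hy0 hq hx0; positivity)
    have h1 : HasDerivAt (fun x => x * Y x)
        (1 * Y x + x * ((v (Y x))⁻¹ * (B / A * u x))) x := (hasDerivAt_id' x).mul (dY x hx)
    have h2 : HasDerivAt (fun x => p * Y x + q * x)
        (p * ((v (Y x))⁻¹ * (B / A * u x)) + q * 1) x :=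
      ((dY x hx).const_mul p).add ((hasDerivAt_id' x).const_mul q)
    have h3 : HasDerivAt ρ (((1 * Y x + x * ((v (Y x))⁻¹ * (B / A * u x))) *
        (p * Y x + q * x) - x * Y x * (p * ((v (Y x))⁻¹ * (B / A * u x)) + q * 1)) /
        (p * Y x + q * x) ^ 2) x := h1.div h2 hD
    refine h3.congr_deriv ?_
    show _ = (p * Y x ^ 2 + q * x ^ 2 * ((v (Y x))⁻¹ * (B / A * u x))) / (p * Y x + q * x) ^ 2
    congr 1
    ring
  have smρ : StrictMonoOn ρ (Ioo 0 R) := by
    intro a ha b hb hab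
    have ha0 : 0 < a := ha.1
    have hb0 : 0 < b := hb.1
    have hya : 0 < Y a := (hY1 a ha).1
    have hyb : 0 < Y b := (hY1 b hb).1
    have hy := smY ha hb hab
    show a * Y a / (p * Y a + q * a) < b * Y b / (p * Y b + q * b)
    rw [div_lt_div_iff₀ (by (clear * - hp hya hq ha0; positivity)) (by (clear * - hp hyb hq hb0; positivity))]
    have e : b * Y b * (p * Y a + q * a) - a * Y a * (p * Y b + q * b) =
        p * (Y a * Y b * (b - a)) + q * (a * b * (Y b - Y a)) := by ring
    have h1 : 0 < p * (Y a * Y b * (b - a)) := by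
      have := sub_pos.2 hab
      (clear * - hp hya hyb hab; positivity)
    have h2 : 0 < q * (a * b * (Y b - Y a)) := by
      have := sub_pos.2 hy
      (clear * - hq ha0 hb0 hy; positivity)
    linarith only [h1, h2]
  have hρpos : ∀ x ∈ Ioo 0 R, 0 < ρ x := by
    intro x hx
    have hx0 : 0 < x := hx.1
    have hy0 : 0 < Y x := (hY1 x hx).1
    show 0 < x * Y x / (p * Y x + q * x)
    (clear * - hx0 hy0 hp hq; positivity)
  have hρ'pos : ∀ x ∈ Ioo 0 R, 0 < ρ' x := by
    intro x hx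
    have hx0 : 0 < x := hx.1
    have hy0 : 0 < Y x := (hY1 x hx).1
    have h1 := pu x hx
    have h2 := pv _ (hY1 x hx)
    show 0 < (p * Y x ^ 2 + q * x ^ 2 * ((v (Y x))⁻¹ * (B / A * u x))) /
      (p * Y x + q * x) ^ 2
    (clear * - hp hy0 hq hx0 h2 hB hA h1; positivity)
  have himg : ρ '' Ioo 0 R ⊆ Ioi 0 := by
    rintro _ ⟨x, hx, rfl⟩
    exact hρpos x hx
  have hw1 : ∫ z in ρ '' Ioo 0 R, w z ≤ ∫ z in Ioi 0, w z :=
    setIntegral_mono_set iw (ae_of_all _ w0) (ae_of_all _ himg)
  have hcv := integral_image_eq_integral_abs_deriv_smul measurableSet_Ioo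
    (fun x hx => (dρ x hx).hasDerivWithinAt) smρ.injOn w
  have hint : IntegrableOn (fun x => |ρ' x| • w (ρ x)) (Ioo 0 R) :=
    (integrableOn_image_iff_integrableOn_abs_deriv_smul measurableSet_Ioo
      (fun x hx => (dρ x hx).hasDerivWithinAt) smρ.injOn w).1 (iw.mono_set himg)
  have hE : 0 < p + q * (A / B) := by (clear * - hp hq hA hB; positivity)
  have hlow : ∫ x in Ioo 0 R, u x / (p + q * (A / B)) ≤ ∫ x in Ioo 0 R, |ρ' x| • w (ρ x) := by
    refine setIntegral_mono_on (iu.div_const _) hint measurableSet_Ioo fun x hx => ?_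
    rw [abs_of_pos (hρ'pos x hx), smul_eq_mul]
    refine (ball_pt hp hq hA hB (pu x hx) (pv _ (hY1 x hx)) hx.1 (hY1 x hx).1).trans ?_
    exact mul_le_mul_of_nonneg_left (h x hx _ (hY1 x hx)) (hρ'pos x hx).le
  rw [integral_div, ← hAdef, ← hcv] at hlow
  have hfin : A / (p + q * (A / B)) ≤ ∫ z in Ioi 0, w z := hlow.trans hw1
  have e : p / A + q / B = 1 / (A / (p + q * (A / B))) := by
    (clear * - hB hA hp hq; field_simp)
  rw [e]
  exact one_div_le_one_div_of_le (by (clear * - hA hp hq hB; positivity)) hfin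

end Vale.Agent.P227.Slab
end
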