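import Mathlib
import Vale.Agent.P227.Bdl.B1
import Vale.Agent.P227.MathlibUsed
import Vale.Agent.P227.Bdl.B3

set_option linter.all false

section
attribute [-instance] ProperSMul.toContinuousSMul IsTopologicalTorsor.toContinuousSMul IdemSemiring.toCanonicallyOrderedAdd IdemSemiring.toMulLeftMono IdemSemiring.toMulRightMono AddQuantale.instAddLeftMono AddQuantale.instAddRightMono Quantale.instMulLeftMono Quantale.instMulRightMono FiniteDimensional.rclike_to_real IsScalarTower.complexToReal FiniteDimensional.complexToReal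

open MeasureTheory Set Metric Filter Topology
open scoped ENNReal NNReal Pointwise

namespace Vale.Agent.P227

variable {n : ℕ}

/-- facts on the log combination -/
theorem logComb_facts (hn : 0 < n) {K L : Set (EV n)} (hK : SymConvexBody K)
    (hL : SymConvexBody L) {t : ℝ} (ht0 : 0 ≤ t) (ht1 : t ≤ 1) :
    SymConvexBody (logComb t K L) ∧
    (∀ x : EV n, x ≠ 0 → ∃ u : EV n, ‖u‖ = 1 ∧
      inner ℝ x u = gauge (logComb t K L) x * supportFn (logComb t K L) u ∧
      (1 - t) * Real.log (supportFn K u) + t * Real.log (supportFn L u) =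
        Real.log (supportFn (logComb t K L) u)) := by
  set f : EV n → ℝ := fun u => supportFn K u ^ (1 - t) * supportFn L u ^ t with hf
  have h1t : 0 ≤ 1 - t := by linarith only [ht1]
  have hcont : ContinuousOn f (sphere 0 1) := by
    apply ContinuousOn.mul
    · exact hK.continuous_supportFn.continuousOn.rpow_const fun u hu => Or.inr h1t
    · exact hL.continuous_supportFn.continuousOn.rpow_const fun u hu => Or.inr ht0
  obtain ⟨r, hr0, hr⟩ := hK.exists_ball
  obtain ⟨R, hR0, hR⟩ := hK.exists_bound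
  obtain ⟨r', hr0', hr'⟩ := hL.exists_ball
  obtain ⟨R', hR0', hR'⟩ := hL.exists_bound
  have ha : 0 < r ^ (1 - t) * r' ^ t := by (clear * - hr0 hr0'; positivity)
  have hfa : ∀ u : EV n, ‖u‖ = 1 → r ^ (1 - t) * r' ^ t ≤ f u := by
    intro u hu
    have e1 := SymConvexBody.supportFn_ge hr0 hK.isCompact hr u
    have e2 := SymConvexBody.supportFn_ge hr0' hL.isCompact hr' u
    rw [hu, mul_one] at e1 e2
    apply mul_le_mul (Real.rpow_le_rpow hr0.le e1 h1t) (Real.rpow_le_rpow hr0'.le e2 ht0)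
      (by (clear * - hr0'; positivity)) (Real.rpow_nonneg (hK.supportFn_nonneg u) _)
  have hfb : ∀ u : EV n, ‖u‖ = 1 → f u ≤ R ^ (1 - t) * R' ^ t := by
    intro u hu
    have e1 := hK.supportFn_le_norm hR u
    have e2 := hL.supportFn_le_norm hR' u
    rw [hu, mul_one] at e1 e2
    apply mul_le_mul (Real.rpow_le_rpow (hK.supportFn_nonneg u) e1 h1t)
      (Real.rpow_le_rpow (hL.supportFn_nonneg u) e2 ht0)
      (Real.rpow_nonneg (hL.supportFn_nonneg u) _) (by positivity)
  have heven : ∀ u, f (-u) = f u := by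
    intro u
    simp only [hf, hK.supportFn_neg, hL.supportFn_neg]
  have hW : SymConvexBody (logComb t K L) := wulff_symConvexBody ha hfa hfb heven
  refine ⟨hW, fun x hx => ?_⟩
  obtain ⟨_, u, hu, hxu⟩ := gauge_wulff_attained hn hcont ha hfa hfb heven x
  change inner ℝ x u = gauge (logComb t K L) x * f u at hxu
  have hg := hW.gauge_pos hx
  have hu0 := ne_zero_of_norm_one hu
  have h1 : supportFn (logComb t K L) u ≤ f u :=
    supportFn_le ⟨0, hW.zero_mem⟩ fun y hy => hy u hu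
  have h2 := (hW.exists_normal hn x).1 u hu
  rw [hxu] at h2
  have h3 : f u ≤ supportFn (logComb t K L) u := le_of_mul_le_mul_left h2 hg
  have h4 : f u = supportFn (logComb t K L) u := le_antisymm h3 h1
  refine ⟨u, hu, by rw [hxu, h4], ?_⟩
  rw [← h4]
  have pK := hK.supportFn_pos hu0
  have pL := hL.supportFn_pos hu0
  simp only [hf]
  rw [Real.log_mul (by (clear * - pK; positivity)) (by (clear * - pL; positivity)), Real.log_rpow pK, Real.log_rpow pL]

/-- log-Brunn-Minkowski from log-Minkowski at the log combination -/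
theorem log_bm_of_log_minkowski (hn : 0 < n) {K L : Set (EV n)} (hK : SymConvexBody K)
    (hL : SymConvexBody L) {t : ℝ} (ht0 : 0 ≤ t) (ht1 : t ≤ 1)
    (hlm : ∀ (M : Set (EV n)), SymConvexBody M → ∀ ν : EV n → EV n,
      (∀ᵐ x ∂(volume.restrict (logComb t K L)), ‖ν x‖ = 1 ∧
        inner ℝ x (ν x) = gauge (logComb t K L) x * supportFn (logComb t K L) (ν x)) →
      evol (logComb t K L) / n * Real.log (evol M / evol (logComb t K L)) ≤
        ∫ x in (logComb t K L),
          Real.log (supportFn M (ν x) / supportFn (logComb t K L) (ν x))) :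
    evol K ^ (1 - t) * evol L ^ t ≤ evol (logComb t K L) := by
  obtain ⟨hW, hnorm⟩ := logComb_facts hn hK hL ht0 ht1
  set W := logComb t K L with hWdef
  have hKpos := evol_pos hK
  have hLpos := evol_pos hL
  have hWpos := evol_pos hW
  choose ν hν using fun x => (hW.exists_normal hn x).2
  have hν' : ∀ᵐ x ∂(volume.restrict W), ‖ν x‖ = 1 ∧
      inner ℝ x (ν x) = gauge W x * supportFn W (ν x) := Filter.Eventually.of_forall hν
  have hne0 : ∀ᵐ x ∂(volume.restrict W), x ≠ 0 := by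
    have : Nontrivial (EV n) := by
      have : 0 < Module.finrank ℝ (EV n) := by rw [finrank_euclideanSpace_fin]; exact hn
      exact Module.nontrivial_of_finrank_pos this
    apply ae_restrict_of_ae
    rw [ae_iff]
    simp
  have hzero : ∀ᵐ x ∂(volume.restrict W),
      (1 - t) * Real.log (supportFn K (ν x) / supportFn W (ν x)) +
        t * Real.log (supportFn L (ν x) / supportFn W (ν x)) = 0 := by
    filter_upwards [hne0, ae_restrict_of_ae hW.ae_differentiable] with x hx hd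
    obtain ⟨u, hu, hxu, hlog⟩ := hnorm x hx
    have huv : u = ν x := hW.normal_unique hn hd hu (hν x).1 hxu (hν x).2
    rw [huv] at hlog
    have hu0 := ne_zero_of_norm_one (hν x).1
    rw [Real.log_div (hK.supportFn_pos hu0).ne' (hW.supportFn_pos hu0).ne',
      Real.log_div (hL.supportFn_pos hu0).ne' (hW.supportFn_pos hu0).ne']
    linarith only [hlog]
  have h1 := hlm K hK ν hν'
  have h2 := hlm L hL ν hν'
  set A := ∫ x in W, Real.log (supportFn K (ν x) / supportFn W (ν x)) with hA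
  set B := ∫ x in W, Real.log (supportFn L (ν x) / supportFn W (ν x)) with hB
  have hAB : (1 - t) * A + t * B = 0 := by
    rcases ht0.eq_or_lt with h0 | h0
    · subst h0
      have : A = 0 := by
        rw [hA]
        apply integral_eq_zero_of_ae
        filter_upwards [hzero] with x hx
        simpa only [Pi.zero_apply, Real.log_eq_zero, div_eq_zero_iff, sub_zero, one_mul, zero_mul, add_zero] using hx
      rw [this]; simp
    · have : B = (-(1 - t) / t) * A := by
        rw [hA, hB, ← integral_const_mul]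
        apply integral_congr_ae
        filter_upwards [hzero] with x hx
        field_simp
        linarith only [hx]
      rw [this]
      field_simp
      ring
  have hn' : (0 : ℝ) < n := by exact_mod_cast hn
  have h3 : evol W / n * ((1 - t) * Real.log (evol K / evol W) +
      t * Real.log (evol L / evol W)) ≤ 0 := by
    have e1 := mul_le_mul_of_nonneg_left h1 (by linarith only [ht1] : 0 ≤ 1 - t)
    have e2 := mul_le_mul_of_nonneg_left h2 ht0
    linarith only [e2, e1, hAB]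
  have h4 : (1 - t) * Real.log (evol K / evol W) + t * Real.log (evol L / evol W) ≤ 0 := by
    have hp : 0 < evol W / n := by positivity
    exact (mul_nonpos_iff_pos_imp_nonpos.1 h3).1 hp
  rw [Real.log_div hKpos.ne' hWpos.ne', Real.log_div hLpos.ne' hWpos.ne'] at h4
  rw [← Real.log_le_log_iff (by positivity) hWpos, Real.log_mul (by positivity) (by (clear * - hLpos; positivity)),
    Real.log_rpow hKpos, Real.log_rpow hLpos]
  linarith only [h4]

/-- log-Brunn-Minkowski when the log combination is a zonoid -/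
theorem log_bm_zonoid {K L : Set (EV n)} (hK : SymConvexBody K)
    (hL : SymConvexBody L) {t : ℝ} (ht0 : 0 ≤ t) (ht1 : t ≤ 1)
    (hz : IsZonoid (logComb t K L)) :
    evol K ^ (1 - t) * evol L ^ t ≤ evol (logComb t K L) := by
  rcases Nat.eq_zero_or_pos n with h0 | hn
  · subst h0
    have huniv : ∀ S : Set (EV 0), S.Nonempty → S = univ := by
      intro S hS
      obtain ⟨x, hx⟩ := hS
      ext y
      simp only [mem_univ, iff_true]
      rwa [Subsingleton.elim y x]
    have h1 : logComb t K L = univ := by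
      apply huniv
      refine ⟨0, fun u hu => ?_⟩
      rw [Subsingleton.elim u 0] at hu
      simp only [norm_zero, zero_ne_one] at hu
    have hpos : 0 < evol (univ : Set (EV 0)) := by
      have := evol_pos hK
      rwa [huniv K ⟨0, hK.zero_mem⟩] at this
    rw [h1, huniv K ⟨0, hK.zero_mem⟩, huniv L ⟨0, hL.zero_mem⟩, ← Real.rpow_add hpos]
    simp
  · obtain ⟨hW, _⟩ := logComb_facts hn hK hL ht0 ht1
    apply log_bm_of_log_minkowski hn hK hL ht0 ht1
    intro M hM ν hν
    exact log_minkowski_zonoid hn hW hz hM ν hν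

/-- a measurable outer unit normal exists -/
theorem exists_measurable_normal (hn : 0 < n) {K : Set (EV n)} (hK : SymConvexBody K) :
    ∃ ν : EV n → EV n, IsConeNormal K ν := by
  set g : EV n → EV n := fun x => (InnerProductSpace.toDual ℝ (EV n)).symm (fderiv ℝ (gauge K) x)
    with hg
  have hgm : Measurable g := by
    apply (LinearIsometryEquiv.continuous _).measurable.comp
    exact measurable_fderiv ℝ _
  refine ⟨fun x => ‖g x‖⁻¹ • g x, (hgm.norm.inv).smul hgm, ?_⟩
  have hne0 : ∀ᵐ x ∂(volume.restrict K), x ≠ 0 := by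
    have : Nontrivial (EV n) := by
      have : 0 < Module.finrank ℝ (EV n) := by rw [finrank_euclideanSpace_fin]; exact hn
      exact Module.nontrivial_of_finrank_pos this
    apply ae_restrict_of_ae
    rw [ae_iff]
    simp
  filter_upwards [hne0, ae_restrict_of_ae hK.ae_differentiable] with x hx hd
  obtain ⟨_, u, hu, hxu⟩ := hK.exists_normal hn x
  have hpu := hK.supportFn_pos (ne_zero_of_norm_one hu)
  have hgu : g x = (supportFn K u)⁻¹ • u := by
    apply ext_inner_left ℝ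
    intro y
    rw [real_inner_comm, hg]
    simp only
    rw [InnerProductSpace.toDual_symm_apply, inner_smul_right]
    exact hK.fderiv_gauge hn hd hu hxu y
  have : ‖g x‖⁻¹ • g x = u := by
    rw [hgu, norm_smul, hu, mul_one, Real.norm_of_nonneg (by positivity), smul_smul, inv_inv,
      mul_inv_cancel₀ hpu.ne', one_smul]
  rw [this]
  exact ⟨hu, hxu⟩

end Vale.Agent.P227
end

section

open MeasureTheory Set Matrix
open scoped Pointwise ENNReal

namespace Vale.Agent.P227.Rot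

lemma det_sub_one_eq_zero {O : Matrix (Fin 3) (Fin 3) ℝ} (hO : O * Oᵀ = 1) (hd : O.det = 1) :
    (O - 1).det = 0 := by
  have h1 : (O - 1).det = (O * (1 - Oᵀ)).det := by
    congr 1
    rw [Matrix.mul_sub, hO, Matrix.mul_one]
  have h2 : (1 - Oᵀ) = (-(O - 1))ᵀ := by
    rw [neg_sub, Matrix.transpose_sub, Matrix.transpose_one]
  rw [h2, Matrix.det_mul, hd, one_mul, Matrix.det_transpose, Matrix.det_neg] at h1
  simp only [Fintype.card_fin] at h1
  linarith only [h1]

lemma rot_normal_form {O : Matrix (Fin 3) (Fin 3) ℝ} (hO : O * Oᵀ = 1) (hd : O.det = 1)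
    (h1 : O ≠ 1) : ∃ (Q : Matrix (Fin 3) (Fin 3) ℝ) (c s : ℝ), Qᵀ * Q = 1 ∧
      Qᵀ * O * Q = !![c, -s, 0; s, c, 0; 0, 0, 1] ∧ c ^ 2 + s ^ 2 = 1 ∧ c ≠ 1 := by
  obtain ⟨e0, he0, he1⟩ := Matrix.exists_mulVec_eq_zero_iff.2 (det_sub_one_eq_zero hO hd)
  have hOe0 : O *ᵥ e0 = e0 := by
    rw [Matrix.sub_mulVec, Matrix.one_mulVec, sub_eq_zero] at he1
    exact he1
  set E0 : EuclideanSpace ℝ (Fin 3) := WithLp.toLp 2 e0 with hE0
  have hE0n : E0 ≠ 0 := by
    intro h
    apply he0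
    have := congrArg WithLp.ofLp h
    simpa [hE0] using this
  set e : EuclideanSpace ℝ (Fin 3) := (‖E0‖⁻¹ : ℝ) • E0 with he
  have hen : ‖e‖ = 1 := by
    rw [he, norm_smul, norm_inv, norm_norm, inv_mul_cancel₀ (norm_ne_zero_iff.2 hE0n)]
  have hOe : O *ᵥ e.ofLp = e.ofLp := by
    have : e.ofLp = (‖E0‖⁻¹ : ℝ) • e0 := by simp [he, hE0]
    rw [this, Matrix.mulVec_smul, hOe0]
  obtain ⟨b, hb⟩ := Orthonormal.exists_orthonormalBasis_extension_of_card_eq
    (𝕜 := ℝ) (E := EuclideanSpace ℝ (Fin 3)) (ι := Fin 3) (by simp)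
    (v := fun _ => e) (s := {2}) (by
      rw [orthonormal_iff_ite]
      rintro ⟨i, hi⟩ ⟨j, hj⟩
      simp only [Set.mem_singleton_iff] at hi hj
      subst hi hj
      simp only [Fin.isValue, domRestrict_apply, inner_self_eq_norm_sq_to_K, hen, Real.ringHom_apply, one_pow, ↓reduceIte])
  have hb2 : b 2 = e := hb 2 rfl
  set Q : Matrix (Fin 3) (Fin 3) ℝ := Matrix.of fun i j => (b j) i with hQ
  have hQQ : Qᵀ * Q = 1 := by
    ext i j
    rw [Matrix.mul_apply]
    have := orthonormal_iff_ite.1 b.orthonormal i j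
    rw [PiLp.inner_apply] at this
    rw [Matrix.one_apply, ← this]
    refine Finset.sum_congr rfl fun k _ => ?_
    simp [hQ, mul_comm]
  have hQQ' : Q * Qᵀ = 1 := mul_eq_one_comm.1 hQQ
  set R := Qᵀ * O * Q with hR
  have hRR : R * Rᵀ = 1 := by
    rw [hR, Matrix.transpose_mul, Matrix.transpose_mul, Matrix.transpose_transpose]
    calc Qᵀ * O * Q * (Qᵀ * (Oᵀ * Q)) = Qᵀ * O * (Q * Qᵀ) * Oᵀ * Q := by
          simp only [Matrix.mul_assoc]
      _ = Qᵀ * (O * Oᵀ) * Q := by
          rw [hQQ', Matrix.mul_one]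
          simp only [Matrix.mul_assoc]
      _ = 1 := by rw [hO, Matrix.mul_one, hQQ]
  have hRd : R.det = 1 := by
    rw [hR, Matrix.det_mul, Matrix.det_mul, hd, mul_one, ← Matrix.det_mul, hQQ, Matrix.det_one]
  have hR2 : ∀ i, R i 2 = if i = 2 then 1 else 0 := by
    intro i
    have hcol : Q.col 2 = e.ofLp := by
      funext k
      simp [hQ, Matrix.col_apply, hb2]
    have h3 : R.col 2 = (1 : Matrix (Fin 3) (Fin 3) ℝ).col 2 := by
      have h4 : R.col 2 = Qᵀ *ᵥ (O *ᵥ (Q.col 2)) := by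
        funext k
        simp only [hR, Matrix.col_apply, Matrix.mul_assoc, Matrix.mul_apply, Matrix.mulVec,
          dotProduct]
      rw [h4, hcol, hOe, ← hcol]
      funext k
      rw [Matrix.col_apply, ← hQQ, Matrix.mul_apply]
      rfl
    have h5 := congrFun h3 i
    rw [Matrix.col_apply, Matrix.col_apply, Matrix.one_apply] at h5
    exact h5
  have e02 : R 0 2 = 0 := by rw [hR2]; simp
  have e12 : R 1 2 = 0 := by rw [hR2]; simp
  have e22 : R 2 2 = 1 := by rw [hR2]; simp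
  have r : ∀ i j, R i 0 * R j 0 + R i 1 * R j 1 + R i 2 * R j 2 =
      if i = j then 1 else 0 := by
    intro i j
    have := congrFun (congrFun hRR i) j
    rw [Matrix.mul_apply, Fin.sum_univ_three, Matrix.one_apply] at this
    exact this
  have r22 := r 2 2
  have r00 := r 0 0
  have r01 := r 0 1
  have r11 := r 1 1
  rw [e22] at r22
  rw [e02] at r00
  rw [e02] at r01
  rw [e12] at r11
  simp only [if_true] at r22 r00 r11
  rw [if_neg (by decide)] at r01
  have e20 : R 2 0 = 0 := by nlinarith only [r22]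
  have e21 : R 2 1 = 0 := by nlinarith only [r22]
  have hdet : R 0 0 * R 1 1 - R 0 1 * R 1 0 = 1 := by
    rw [Matrix.det_fin_three, e02, e12, e22, e20, e21] at hRd
    linarith only [hRd]
  have e11 : R 1 1 = R 0 0 := by
    linear_combination (- R 1 1) * r00 + R 0 1 * r01 + R 0 0 * hdet
  have e01 : R 0 1 = - R 1 0 := by
    linear_combination (- R 0 1) * r11 + R 1 1 * r01 - R 1 0 * hdet
  have hcs : R 0 0 ^ 2 + R 1 0 ^ 2 = 1 := by
    rw [e01] at r00
    linarith only [r00]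
  have hRm : R = !![R 0 0, -R 1 0, 0; R 1 0, R 0 0, 0; 0, 0, 1] := by
    ext i j
    fin_cases i <;> fin_cases j <;> simp [e01, e02, e11, e12, e20, e21, e22]
  refine ⟨Q, R 0 0, R 1 0, hQQ, hRm, hcs, ?_⟩
  intro hc
  have hs : R 1 0 = 0 := by
    rw [hc] at hcs
    have : R 1 0 ^ 2 = 0 := by linarith only [hcs]
    exact pow_eq_zero_iff (two_ne_zero) |>.1 this
  have hR1 : R = 1 := by
    rw [hRm, hc, hs]
    ext i j
    fin_cases i <;> fin_cases j <;> simp
  apply h1
  calc O = (Q * Qᵀ) * O * (Q * Qᵀ) := by rw [hQQ', Matrix.one_mul, Matrix.mul_one]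
    _ = Q * R * Qᵀ := by rw [hR]; simp only [Matrix.mul_assoc]
    _ = 1 := by rw [hR1, Matrix.mul_one, hQQ']

end Vale.Agent.P227.Rot
end

section

open MeasureTheory Set Metric Filter Topology

namespace Vale.Agent.P227.Loc

variable {E : Type*} [NormedAddCommGroup E] [InnerProductSpace ℝ E]

/-- homogeneous of degree one, C^2 off the origin -/
structure Hom1 (f : E → ℝ) : Prop where
  hom : ∀ s : ℝ, 0 < s → ∀ x, f (s • x) = s * f x
  smooth : ContDiffOn ℝ 2 f {0}ᶜ

/-- second derivative as a bilinear map -/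
noncomputable abbrev D2 (f : E → ℝ) (x : E) : E →L[ℝ] E →L[ℝ] ℝ := fderiv ℝ (fderiv ℝ f) x

namespace Hom1

variable {f : E → ℝ} (hf : Hom1 f)

include hf

theorem contDiffAt {x : E} (hx : x ≠ 0) : ContDiffAt ℝ 2 f x :=
  hf.smooth.contDiffAt (isOpen_compl_singleton.mem_nhds hx)

theorem hasF {x : E} (hx : x ≠ 0) : HasFDerivAt f (fderiv ℝ f x) x :=
  ((hf.contDiffAt hx).differentiableAt (by norm_num)).hasFDerivAt

theorem contDiffAt_fderiv {x : E} (hx : x ≠ 0) : ContDiffAt ℝ 1 (fderiv ℝ f) x :=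
  (hf.contDiffAt hx).fderiv_right (by norm_num)

theorem hasF2 {x : E} (hx : x ≠ 0) : HasFDerivAt (fderiv ℝ f) (D2 f x) x :=
  ((hf.contDiffAt_fderiv hx).differentiableAt (by norm_num)).hasFDerivAt

theorem fderiv_smul {s : ℝ} (hs : 0 < s) {x : E} (hx : x ≠ 0) :
    fderiv ℝ f (s • x) = fderiv ℝ f x := by
  have hsx : s • x ≠ 0 := smul_ne_zero hs.ne' hx
  have h1 : HasFDerivAt (fun y => f (s • y))
      ((fderiv ℝ f (s • x)).comp (s • ContinuousLinearMap.id ℝ E)) x := by
    apply HasFDerivAt.comp x (hf.hasF hsx)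
    exact (hasFDerivAt_id x).const_smul s
  have h2 : HasFDerivAt (fun y => f (s • y)) (s • fderiv ℝ f x) x := by
    have := (hf.hasF hx).const_mul s
    refine this.congr_of_eventuallyEq (Filter.Eventually.of_forall fun y => ?_)
    exact hf.hom s hs y
  have h3 := h1.unique h2
  ext v
  have h4 := congrArg (fun L : E →L[ℝ] ℝ => L v) h3
  simp only [ContinuousLinearMap.comp_apply, ContinuousLinearMap.smul_apply,
    ContinuousLinearMap.id_apply, map_smul, smul_eq_mul] at h4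
  exact mul_left_cancel₀ hs.ne' h4

theorem D2_smul {s : ℝ} (hs : 0 < s) {x : E} (hx : x ≠ 0) :
    s • D2 f (s • x) = D2 f x := by
  have hsx : s • x ≠ 0 := smul_ne_zero hs.ne' hx
  have h1 : HasFDerivAt (fun y => fderiv ℝ f (s • y))
      ((D2 f (s • x)).comp (s • ContinuousLinearMap.id ℝ E)) x := by
    apply HasFDerivAt.comp x (hf.hasF2 hsx)
    exact (hasFDerivAt_id x).const_smul s
  have h2 : HasFDerivAt (fun y => fderiv ℝ f (s • y)) (D2 f x) x := by
    refine (hf.hasF2 hx).congr_of_eventuallyEq ?_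
    filter_upwards [isOpen_compl_singleton.mem_nhds hx] with y hy
    exact hf.fderiv_smul hs hy
  have h3 := h1.unique h2
  rw [← h3]
  ext v w
  simp

theorem euler {x : E} (hx : x ≠ 0) : fderiv ℝ f x x = f x := by
  have h1 : HasDerivAt (fun s : ℝ => f (s • x)) (fderiv ℝ f ((1 : ℝ) • x) ((1 : ℝ) • x)) 1 := by
    have hx1 : (1 : ℝ) • x ≠ 0 := by rwa [one_smul]
    exact (hf.hasF hx1).comp_hasDerivAt (1 : ℝ) ((hasDerivAt_id (1 : ℝ)).smul_const x)
  have h2 : HasDerivAt (fun s : ℝ => f (s • x)) (1 * f x) 1 := by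
    refine ((hasDerivAt_id (1 : ℝ)).mul_const (f x)).congr_of_eventuallyEq ?_
    filter_upwards [lt_mem_nhds (show (0 : ℝ) < 1 by norm_num)] with s hs
    exact hf.hom s hs x
  have h3 := h1.unique h2
  simpa using h3

theorem D2_self {x : E} (hx : x ≠ 0) : D2 f x x = 0 := by
  have h1 : HasDerivAt (fun s : ℝ => fderiv ℝ f (s • x)) (D2 f ((1 : ℝ) • x) ((1 : ℝ) • x)) 1 := by
    have hx1 : (1 : ℝ) • x ≠ 0 := by rwa [one_smul]
    exact (hf.hasF2 hx1).comp_hasDerivAt (1 : ℝ) ((hasDerivAt_id (1 : ℝ)).smul_const x)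
  have h2 : HasDerivAt (fun s : ℝ => fderiv ℝ f (s • x)) 0 1 := by
    refine (hasDerivAt_const (1 : ℝ) (fderiv ℝ f x)).congr_of_eventuallyEq ?_
    filter_upwards [lt_mem_nhds (show (0 : ℝ) < 1 by norm_num)] with s hs
    exact hf.fderiv_smul hs hx
  have h3 := h1.unique h2
  simpa using h3

theorem D2_symm {x : E} (hx : x ≠ 0) (v w : E) : D2 f x v w = D2 f x w v := by
  have h := (hf.contDiffAt hx).isSymmSndFDerivAt (by simp)
  exact h v w

theorem D2_self_right {x : E} (hx : x ≠ 0) (v : E) : D2 f x v x = 0 := by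
  rw [hf.D2_symm hx, hf.D2_self hx]; rfl

end Hom1

end Vale.Agent.P227.Loc
end

section
attribute [-instance] ProperSMul.toContinuousSMul IsTopologicalTorsor.toContinuousSMul IdemSemiring.toCanonicallyOrderedAdd IdemSemiring.toMulLeftMono IdemSemiring.toMulRightMono AddQuantale.instAddLeftMono AddQuantale.instAddRightMono Quantale.instMulLeftMono Quantale.instMulRightMono FiniteDimensional.rclike_to_real IsScalarTower.complexToReal FiniteDimensional.complexToReal

open MeasureTheory Set Metric Filter Topology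

namespace Vale.Agent.P227.Loc

theorem taylor1 {φ φ' φ'' : ℝ → ℝ} (h1 : ∀ s ∈ Icc (0 : ℝ) 1, HasDerivAt φ (φ' s) s)
    (h2 : ∀ s ∈ Icc (0 : ℝ) 1, HasDerivAt φ' (φ'' s) s) {C : ℝ}
    (hC : ∀ s ∈ Icc (0 : ℝ) 1, C ≤ φ'' s) : φ 0 + φ' 0 + C / 2 ≤ φ 1 := by
  set ψ : ℝ → ℝ := fun s => φ s - C / 2 * s ^ 2 with hψ
  set ψ' : ℝ → ℝ := fun s => φ' s - C * s with hψ'
  have d1 : ∀ s ∈ Icc (0 : ℝ) 1, HasDerivAt ψ (ψ' s) s := by
    intro s hs
    have := (h1 s hs).sub (((hasDerivAt_id s).pow 2).const_mul (C / 2))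
    refine this.congr_deriv ?_
    simp only [hψ', id]
    norm_num
    ring
  have d2 : ∀ s ∈ Icc (0 : ℝ) 1, HasDerivAt ψ' (φ'' s - C) s := by
    intro s hs
    have := (h2 s hs).sub ((hasDerivAt_id s).const_mul C)
    refine this.congr_deriv ?_
    simp
  have hcont : ContinuousOn ψ (Icc 0 1) := fun s hs => (d1 s hs).continuousAt.continuousWithinAt
  obtain ⟨ξ, hξ, hξe⟩ := exists_hasDerivAt_eq_slope ψ ψ' (by norm_num : (0 : ℝ) < 1) hcont
    (fun s hs => d1 s ⟨hs.1.le, hs.2.le⟩)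
  have hcont' : ContinuousOn ψ' (Icc 0 ξ) := fun s hs =>
    (d2 s ⟨hs.1, hs.2.trans hξ.2.le⟩).continuousAt.continuousWithinAt
  obtain ⟨η, hη, hηe⟩ := exists_hasDerivAt_eq_slope ψ' (fun s => φ'' s - C) hξ.1 hcont'
    (fun s hs => d2 s ⟨hs.1.le, (hs.2.trans hξ.2).le⟩)
  have h3 := hC η ⟨hη.1.le, (hη.2.trans hξ.2).le⟩
  have hξ0 : 0 < ξ := hξ.1
  have h4 : 0 ≤ (ψ' ξ - ψ' 0) / (ξ - 0) := by rw [← hηe]; linarith only [h3]
  rw [sub_zero, le_div_iff₀ hξ0, zero_mul] at h4
  have h5 : ψ' ξ = ψ 1 - ψ 0 := by rw [hξe]; norm_num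
  have e1 : ψ 1 = φ 1 - C / 2 := by simp only [hψ, one_pow, mul_one]
  have e0 : ψ 0 = φ 0 := by simp [hψ]
  have e0' : ψ' 0 = φ' 0 := by simp [hψ']
  rw [e1, e0] at h5
  rw [e0', h5] at h4
  linarith only [h4]

variable {E : Type*} [NormedAddCommGroup E] [InnerProductSpace ℝ E]

theorem Hom1.line1 {f : E → ℝ} (hf : Hom1 f) {u w : E} {s : ℝ} (hs : u + s • w ≠ 0) :
    HasDerivAt (fun s : ℝ => f (u + s • w)) (fderiv ℝ f (u + s • w) w) s := by
  have h1 : HasDerivAt (fun s : ℝ => u + s • w) ((1 : ℝ) • w) s :=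
    ((hasDerivAt_id s).smul_const w).const_add u
  have := (hf.hasF hs).comp_hasDerivAt s h1
  rwa [one_smul] at this

theorem Hom1.line2 {f : E → ℝ} (hf : Hom1 f) {u w : E} {s : ℝ} (hs : u + s • w ≠ 0) :
    HasDerivAt (fun s : ℝ => fderiv ℝ f (u + s • w) w) (D2 f (u + s • w) w w) s := by
  have h1 : HasDerivAt (fun s : ℝ => u + s • w) ((1 : ℝ) • w) s :=
    ((hasDerivAt_id s).smul_const w).const_add u
  have h2 := (hf.hasF2 hs).comp_hasDerivAt s h1
  rw [one_smul] at h2
  have h3 := (ContinuousLinearMap.apply ℝ ℝ w).hasFDerivAt (x := fderiv ℝ f (u + s • w))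
  exact h3.comp_hasDerivAt s h2

/-- the quadratic form `(Df·w)^2 + f D²f(w,w)`, i.e. the Hessian of `f²/2` -/
noncomputable def Phi (f : E → ℝ) (y w : E) : ℝ := (fderiv ℝ f y w) ^ 2 + f y * D2 f y w w

theorem Phi_pos {f : E → ℝ} (hf : Hom1 f) (hpos : ∀ x, x ≠ 0 → 0 < f x)
    (hcurv : ∀ u v : E, u ≠ 0 → v ≠ 0 → inner ℝ u v = 0 → 0 < D2 f u v v) {y w : E}
    (hy : y ≠ 0) (hw : w ≠ 0) : 0 < Phi f y w := by
  set α : ℝ := inner ℝ y w / ‖y‖ ^ 2 with hα
  set w' : E := w - α • y with hw'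
  have hyn : 0 < ‖y‖ := norm_pos_iff.2 hy
  have horth : inner ℝ y w' = 0 := by
    rw [hw', inner_sub_right, inner_smul_right, real_inner_self_eq_norm_sq, hα]
    field_simp
    ring
  have hwe : w = w' + α • y := by rw [hw']; abel
  have hD : D2 f y w w = D2 f y w' w' := by
    rw [hwe]
    simp only [map_add, map_smul, add_apply,
      hf.D2_self hy, hf.D2_self_right hy, smul_eq_mul,
      zero_apply, smul_zero]
    simp
  unfold Phi
  by_cases h0 : w' = 0
  · have hw2 : w = α • y := by rw [hwe, h0, zero_add]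
    have hα0 : α ≠ 0 := by
      intro h; apply hw; rw [hw2, h, zero_smul]
    rw [hD, h0, hw2]
    simp only [map_smul, hf.euler hy, smul_eq_mul, map_zero, mul_zero, add_zero]
    have := hpos y hy
    (clear * - hα0 this; positivity)
  · have h1 := hcurv y w' hy h0 horth
    rw [hD]
    have h2 := hpos y hy
    have h3 : 0 < f y * D2 f y w' w' := mul_pos h2 h1
    have h4 := sq_nonneg (fderiv ℝ f y w)
    linarith only [h3, h4]

theorem Hom1.bounds [FiniteDimensional ℝ E] {f : E → ℝ} (hf : Hom1 f)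
    (hpos : ∀ x, x ≠ 0 → 0 < f x) : ∃ a b : ℝ, 0 < a ∧ a ≤ b ∧
    ∀ u, ‖u‖ = 1 → a ≤ f u ∧ f u ≤ b := by
  have hcont : ContinuousOn f (sphere (0 : E) 1) := by
    intro u hu
    have hu0 : u ≠ 0 := by
      intro h; rw [h] at hu; simp only [mem_sphere_iff_norm, sub_self, norm_zero, zero_ne_one] at hu
    exact (hf.contDiffAt hu0).continuousAt.continuousWithinAt
  by_cases hne : (sphere (0 : E) 1).Nonempty
  · obtain ⟨u₁, hu₁, h1⟩ := (isCompact_sphere (0 : E) 1).exists_isMinOn hne hcont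
    obtain ⟨u₂, hu₂, h2⟩ := (isCompact_sphere (0 : E) 1).exists_isMaxOn hne hcont
    have hu0 : u₁ ≠ 0 := by
      intro h; rw [h] at hu₁; simp only [mem_sphere_iff_norm, sub_self, norm_zero, zero_ne_one] at hu₁
    refine ⟨f u₁, f u₂, hpos u₁ hu0, h1 hu₂, fun u hu => ?_⟩
    exact ⟨h1 (mem_sphere_zero_iff_norm.2 hu), h2 (mem_sphere_zero_iff_norm.2 hu)⟩
  · refine ⟨1, 1, one_pos, le_rfl, fun u hu => ?_⟩
    exact absurd ⟨u, mem_sphere_zero_iff_norm.2 hu⟩ hne

theorem Hom1.continuousOn_D1 {f : E → ℝ} (hf : Hom1 f) : ContinuousOn (fderiv ℝ f) {0}ᶜ := by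
  intro x hx
  exact (hf.contDiffAt_fderiv hx).continuousAt.continuousWithinAt

theorem Hom1.continuousOn_D2 {f : E → ℝ} (hf : Hom1 f) : ContinuousOn (D2 f) {0}ᶜ := by
  intro x hx
  have h : ContDiffAt ℝ 0 (fderiv ℝ (fderiv ℝ f)) x :=
    (hf.contDiffAt_fderiv hx).fderiv_right (by norm_num)
  exact h.continuousAt.continuousWithinAt

theorem Phi_lower [FiniteDimensional ℝ E] {f : E → ℝ} (hf : Hom1 f)
    (hpos : ∀ x, x ≠ 0 → 0 < f x)
    (hcurv : ∀ u v : E, u ≠ 0 → v ≠ 0 → inner ℝ u v = 0 → 0 < D2 f u v v) :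
    ∃ m : ℝ, 0 < m ∧ ∀ y w : E, y ≠ 0 → m * ‖w‖ ^ 2 ≤ Phi f y w := by
  by_cases hne : (sphere (0 : E) 1).Nonempty
  · have hcomp : IsCompact (sphere (0 : E) 1 ×ˢ sphere (0 : E) 1) :=
      (isCompact_sphere _ _).prod (isCompact_sphere _ _)
    have hne' : (sphere (0 : E) 1 ×ˢ sphere (0 : E) 1).Nonempty := hne.prod hne
    have hs0 : ∀ u ∈ sphere (0 : E) 1, u ≠ 0 := by
      intro u hu h
      rw [h] at hu; simp at hu
    have hcf : ContinuousOn (fun p : E × E => f p.1) (sphere (0 : E) 1 ×ˢ sphere (0 : E) 1) := by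
      intro p hp
      exact ((hf.contDiffAt (hs0 _ hp.1)).continuousAt.comp
        continuous_fst.continuousAt).continuousWithinAt
    have hcD1 : ContinuousOn (fun p : E × E => fderiv ℝ f p.1 p.2)
        (sphere (0 : E) 1 ×ˢ sphere (0 : E) 1) := by
      apply ContinuousOn.clm_apply _ continuous_snd.continuousOn
      exact hf.continuousOn_D1.comp continuous_fst.continuousOn (fun p hp => hs0 _ hp.1)
    have hcD2 : ContinuousOn (fun p : E × E => D2 f p.1 p.2 p.2)
        (sphere (0 : E) 1 ×ˢ sphere (0 : E) 1) := by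
      apply ContinuousOn.clm_apply _ continuous_snd.continuousOn
      apply ContinuousOn.clm_apply _ continuous_snd.continuousOn
      exact hf.continuousOn_D2.comp continuous_fst.continuousOn (fun p hp => hs0 _ hp.1)
    have hc : ContinuousOn (fun p : E × E => Phi f p.1 p.2)
        (sphere (0 : E) 1 ×ˢ sphere (0 : E) 1) := (hcD1.pow 2).add (hcf.mul hcD2)
    obtain ⟨p, hp, hmin⟩ := hcomp.exists_isMinOn hne' hc
    refine ⟨Phi f p.1 p.2, Phi_pos hf hpos hcurv (hs0 _ hp.1) (hs0 _ hp.2), ?_⟩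
    intro y w hy
    by_cases hw : w = 0
    · subst hw
      simp [Phi]
    have hyn : 0 < ‖y‖ := norm_pos_iff.2 hy
    have hwn : 0 < ‖w‖ := norm_pos_iff.2 hw
    set y' : E := ‖y‖⁻¹ • y with hy'
    set w' : E := ‖w‖⁻¹ • w with hw'
    have hy'1 : ‖y'‖ = 1 := by rw [hy', norm_smul, norm_inv, norm_norm]; field_simp
    have hw'1 : ‖w'‖ = 1 := by rw [hw', norm_smul, norm_inv, norm_norm]; field_simp
    have hm : Phi f p.1 p.2 ≤ Phi f y' w' := by
      have : (y', w') ∈ sphere (0 : E) 1 ×ˢ sphere (0 : E) 1 :=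
        ⟨mem_sphere_zero_iff_norm.2 hy'1, mem_sphere_zero_iff_norm.2 hw'1⟩
      exact hmin this
    have hye : y = ‖y‖ • y' := by rw [hy', smul_smul, mul_inv_cancel₀ hyn.ne', one_smul]
    have hwe : w = ‖w‖ • w' := by rw [hw', smul_smul, mul_inv_cancel₀ hwn.ne', one_smul]
    have hy'0 : y' ≠ 0 := hs0 _ (mem_sphere_zero_iff_norm.2 hy'1)
    have hkey : Phi f y w = ‖w‖ ^ 2 * Phi f y' w' := by
      have e1 : fderiv ℝ f y = fderiv ℝ f y' := by
        conv_lhs => rw [hye]
        exact hf.fderiv_smul hyn hy'0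
      have e2 : f y = ‖y‖ * f y' := by
        conv_lhs => rw [hye]
        exact hf.hom _ hyn _
      have e3 : ‖y‖ • D2 f y = D2 f y' := by
        conv_lhs => rw [hye]
        rw [norm_smul, norm_norm, hy'1, mul_one]
        exact hf.D2_smul hyn hy'0
      have e4 : ‖y‖ * D2 f y w w = D2 f y' w w := by
        rw [← e3]; simp
      unfold Phi
      rw [e1, e2]
      have e5 : ‖y‖ * f y' * D2 f y w w = f y' * D2 f y' w w := by rw [← e4]; ring
      rw [e5]
      have e6 : fderiv ℝ f y' w = ‖w‖ * fderiv ℝ f y' w' := by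
        conv_lhs => rw [hwe]
        simp
      have e7 : D2 f y' w w = ‖w‖ ^ 2 * D2 f y' w' w' := by
        conv_lhs => rw [hwe]
        simp only [map_smul, smul_apply, smul_eq_mul]
        ring
      rw [e6, e7]
      ring
    rw [hkey, mul_comm]
    exact mul_le_mul_of_nonneg_left hm (by positivity)
  · refine ⟨1, one_pos, fun y w hy => ?_⟩
    exfalso
    apply hne
    have hyn : 0 < ‖y‖ := norm_pos_iff.2 hy
    refine ⟨‖y‖⁻¹ • y, mem_sphere_zero_iff_norm.2 ?_⟩
    rw [norm_smul, norm_inv, norm_norm]; field_simp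

/-- (A1a) quantitative strict convexity of the support function. -/
theorem strong [FiniteDimensional ℝ E] {f : E → ℝ} (hf : Hom1 f)
    (hpos : ∀ x, x ≠ 0 → 0 < f x)
    (hcurv : ∀ u v : E, u ≠ 0 → v ≠ 0 → inner ℝ u v = 0 → 0 < D2 f u v v) :
    ∃ c : ℝ, 0 < c ∧ ∀ u v : E, ‖u‖ = 1 → ‖v‖ = 1 →
      c * ‖v - u‖ ^ 2 ≤ f v - fderiv ℝ f u v := by
  obtain ⟨m, hm0, hm⟩ := Phi_lower hf hpos hcurv
  obtain ⟨a, b, ha, hab, hbd⟩ := hf.bounds hpos
  have hb : 0 < b := ha.trans_le hab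
  refine ⟨min (m * a / (8 * b ^ 2)) (a / 2), by (clear * - hm0 ha hb; positivity), ?_⟩
  intro u v hu hv
  have hu0 : u ≠ 0 := by intro h; rw [h] at hu; simp at hu
  have hv0 : v ≠ 0 := by intro h; rw [h] at hv; simp at hv
  have hfu := hpos u hu0
  have hfv := hpos v hv0
  by_cases hvu : v = -u
  · subst hvu
    have h1 : ‖-u - u‖ ^ 2 = 4 := by
      have : -u - u = -((2 : ℝ) • u) := by rw [two_smul]; abel
      rw [this, norm_neg, norm_smul, hu]
      norm_num
    rw [h1, map_neg, hf.euler hu0]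
    have h2 := (hbd u hu).1
    have h3 := (hbd (-u) hv).1
    have h4 := min_le_right (m * a / (8 * b ^ 2)) (a / 2)
    linarith only [h4, h3, h2]
  · set s : ℝ := f u / f v with hs
    have hs0 : 0 < s := by (clear * - hfu hfv; positivity)
    set w : E := s • v - u with hw
    have hne : ∀ r ∈ Icc (0 : ℝ) 1, u + r • w ≠ 0 := by
      intro r hr h
      apply hvu
      have h1 : (1 - r) • u = -((r * s) • v) := by
        rw [hw] at h
        have : u + r • (s • v - u) = (1 - r) • u + (r * s) • v := by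
          rw [smul_sub, smul_smul, sub_smul, one_smul]; abel
        rw [this] at h
        exact eq_neg_of_add_eq_zero_left h
      have h2 : 1 - r = r * s := by
        have := congrArg norm h1
        rw [norm_neg, norm_smul, norm_smul, hu, hv, mul_one, mul_one,
          Real.norm_of_nonneg (by linarith only [hr.2]), Real.norm_of_nonneg
            (mul_nonneg hr.1 hs0.le)] at this
        exact this
      have h3 : 1 - r ≠ 0 := by
        intro h3
        have hr1 : r = 1 := by linarith only [h3]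
        rw [h3, hr1] at h2
        linarith only [hs0, h2]
      rw [← h2, ← smul_neg] at h1
      have h4 := smul_right_injective E h3 h1
      rw [h4, neg_neg]
    have key := taylor1 (φ := fun r => 1 / 2 * f (u + r • w) ^ 2)
      (φ' := fun r => f (u + r • w) * fderiv ℝ f (u + r • w) w)
      (φ'' := fun r => Phi f (u + r • w) w) (C := m * ‖w‖ ^ 2)
      (by
        intro r hr
        have := ((hf.line1 (hne r hr)).pow 2).const_mul (1 / 2)
        refine this.congr_deriv ?_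
        norm_num
        ring)
      (by
        intro r hr
        have := (hf.line1 (hne r hr)).mul (hf.line2 (hne r hr))
        refine this.congr_deriv ?_
        unfold Phi
        ring)
      (by
        intro r hr
        exact hm _ _ (hne r hr))
    simp only [zero_smul, add_zero, one_smul] at key
    have e1 : u + w = s • v := by rw [hw]; abel
    rw [e1, hf.hom s hs0 v] at key
    have e2 : fderiv ℝ f u w = s * fderiv ℝ f u v - f u := by
      rw [hw, map_sub, map_smul, hf.euler hu0, smul_eq_mul]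
    have e3 : s * f v = f u := by rw [hs]; (clear * - hfv hfu; field_simp)
    rw [e2, e3] at key
    -- ‖v - u‖ ≤ 2 ‖w‖
    have h5 : ‖v - u‖ ≤ 2 * ‖w‖ := by
      have h6 : v - u = w + (1 - s) • v := by rw [hw, sub_smul, one_smul]; abel
      have h7 : |1 - s| ≤ ‖w‖ := by
        have h8 := abs_norm_sub_norm_le (s • v) u
        rw [norm_smul, hv, hu, mul_one, Real.norm_of_nonneg hs0.le] at h8
        rw [abs_sub_comm]
        exact h8
      calc ‖v - u‖ = ‖w + (1 - s) • v‖ := by rw [h6]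
        _ ≤ ‖w‖ + ‖(1 - s) • v‖ := norm_add_le _ _
        _ = ‖w‖ + |1 - s| := by rw [norm_smul, hv, mul_one, Real.norm_eq_abs]
        _ ≤ 2 * ‖w‖ := by linarith only [h7]
    have h9 : ‖v - u‖ ^ 2 ≤ 4 * ‖w‖ ^ 2 := by
      have h10 : ‖v - u‖ ^ 2 ≤ (2 * ‖w‖) ^ 2 :=
        pow_le_pow_left₀ (norm_nonneg _) h5 2
      linarith only [h10]
    -- main
    have h11 : m / 2 * ‖w‖ ^ 2 ≤ f u * (f u - s * fderiv ℝ f u v) := by linarith only [key]
    have h12 : f u * (f u - s * fderiv ℝ f u v) = f u ^ 2 / f v * (f v - fderiv ℝ f u v) := by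
      rw [hs]; (clear * - hfv hfu; field_simp)
    rw [h12] at h11
    have h13 : 0 ≤ f v - fderiv ℝ f u v := by
      have h14 : 0 ≤ f u ^ 2 / f v * (f v - fderiv ℝ f u v) :=
        le_trans (by (clear * - hm0; positivity)) h11
      have h15 : 0 < f u ^ 2 / f v := by (clear * - hfu hfv; positivity)
      exact nonneg_of_mul_nonneg_right h14 h15
    have h16 : f u ^ 2 / f v ≤ b ^ 2 / a := by
      apply div_le_div₀ (by positivity) _ ha (hbd v hv).1
      exact pow_le_pow_left₀ hfu.le (hbd u hu).2 2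
    have h17 : m / 2 * ‖w‖ ^ 2 ≤ b ^ 2 / a * (f v - fderiv ℝ f u v) :=
      h11.trans (mul_le_mul_of_nonneg_right h16 h13)
    calc min (m * a / (8 * b ^ 2)) (a / 2) * ‖v - u‖ ^ 2
        ≤ m * a / (8 * b ^ 2) * ‖v - u‖ ^ 2 :=
          mul_le_mul_of_nonneg_right (min_le_left _ _) (by (clear * -; positivity))
      _ ≤ m * a / (8 * b ^ 2) * (4 * ‖w‖ ^ 2) :=
          mul_le_mul_of_nonneg_left h9 (by (clear * - hm0 ha hb; positivity))
      _ = a / b ^ 2 * (m / 2 * ‖w‖ ^ 2) := by field_simp; ring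
      _ ≤ a / b ^ 2 * (b ^ 2 / a * (f v - fderiv ℝ f u v)) :=
          mul_le_mul_of_nonneg_left h17 (by positivity)
      _ = f v - fderiv ℝ f u v := by (clear * - ha hb; field_simp)

/-- (A1b) second order bound for a general homogeneous function -/
theorem upper [FiniteDimensional ℝ E] {g : E → ℝ} (hg : Hom1 g) :
    ∃ C : ℝ, 0 < C ∧ ∀ u v : E, ‖u‖ = 1 → ‖v‖ = 1 →
      |g v - fderiv ℝ g u v| ≤ C * ‖v - u‖ ^ 2 := by
  have hs0 : ∀ u ∈ sphere (0 : E) 1, u ≠ 0 := by
    intro u hu h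
    rw [h] at hu; simp only [mem_sphere_iff_norm, sub_self, norm_zero, zero_ne_one] at hu
  have hsub : sphere (0 : E) 1 ⊆ {0}ᶜ := fun u hu => hs0 u hu
  have hcn2 : ContinuousOn (fun x => ‖D2 g x‖) (sphere (0 : E) 1) :=
    (continuous_norm (E := E →L[ℝ] E →L[ℝ] ℝ)).comp_continuousOn (hg.continuousOn_D2.mono hsub)
  have hcn1 : ContinuousOn (fun x => ‖fderiv ℝ g x‖) (sphere (0 : E) 1) :=
    (hg.continuousOn_D1.mono hsub).norm
  obtain ⟨M, hM⟩ := (isCompact_sphere (0 : E) 1).exists_bound_of_continuousOn hcn2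
  obtain ⟨M1, hM1⟩ := (isCompact_sphere (0 : E) 1).exists_bound_of_continuousOn hcn1
  replace hM : ∀ x ∈ sphere (0 : E) 1, ‖D2 g x‖ ≤ M := fun x hx => (le_abs_self _).trans (hM x hx)
  replace hM1 : ∀ x ∈ sphere (0 : E) 1, ‖fderiv ℝ g x‖ ≤ M1 :=
    fun x hx => (le_abs_self _).trans (hM1 x hx)
  have hgc : ContinuousOn g (sphere (0 : E) 1) := fun u hu =>
    (hg.contDiffAt (hs0 u hu)).continuousAt.continuousWithinAt
  obtain ⟨M0, hM0⟩ := (isCompact_sphere (0 : E) 1).exists_bound_of_continuousOn hgc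
  refine ⟨|M| + |M0| + |M1| + 1, by (clear * -; positivity), fun u v hu hv => ?_⟩
  have hu0 : u ≠ 0 := hs0 u (mem_sphere_zero_iff_norm.2 hu)
  by_cases hfar : 1 ≤ ‖v - u‖
  · have h1 := hM0 v (mem_sphere_zero_iff_norm.2 hv)
    have h2 := hM1 u (mem_sphere_zero_iff_norm.2 hu)
    have h3 : |fderiv ℝ g u v| ≤ |M1| := by
      have := (fderiv ℝ g u).le_opNorm v
      rw [hv, mul_one] at this
      exact this.trans (h2.trans (le_abs_self _))
    have h4 : |g v| ≤ |M0| := h1.trans (le_abs_self _)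
    have h5 : (1 : ℝ) ≤ ‖v - u‖ ^ 2 := by nlinarith only [hfar]
    calc |g v - fderiv ℝ g u v| ≤ |g v| + |fderiv ℝ g u v| := abs_sub _ _
      _ ≤ |M| + |M0| + |M1| + 1 := by
          have := abs_nonneg M
          linarith only [h3, h4, this]
      _ ≤ (|M| + |M0| + |M1| + 1) * ‖v - u‖ ^ 2 := by
          have h6 : 0 ≤ |M| + |M0| + |M1| + 1 := by (clear * -; positivity)
          linarith only [mul_nonneg (sub_nonneg.2 h5) (sub_nonneg.2 h6)]
  · push Not at hfar
    set w : E := v - u with hw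
    -- norm along the segment at least 1/2
    have hwn : ‖w‖ ^ 2 = 2 - 2 * inner ℝ u v := by
      rw [hw, norm_sub_sq_real, hu, hv, real_inner_comm]; ring
    have hnorm : ∀ r ∈ Icc (0 : ℝ) 1, 1 / 2 ≤ ‖u + r • w‖ := by
      intro r hr
      have h1 : ‖u + r • w‖ ^ 2 = 1 - r * (1 - r) * ‖w‖ ^ 2 := by
        rw [norm_add_sq_real, norm_smul, hu, inner_smul_right, Real.norm_of_nonneg hr.1]
        have : inner ℝ u w = - ‖w‖ ^ 2 / 2 := by
          rw [hwn, hw, inner_sub_right, real_inner_self_eq_norm_sq, hu]; ring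
        rw [this]
        ring
      have h2 : r * (1 - r) ≤ 1 / 4 := by linarith only [sq_nonneg (r - 1 / 2)]
      have h3 : ‖w‖ ^ 2 ≤ 1 := by
        have := norm_nonneg w
        nlinarith only [hfar, this]
      have h4 : 0 ≤ r * (1 - r) := mul_nonneg hr.1 (by linarith only [hr.2])
      have h5 : (1 / 2) ^ 2 ≤ ‖u + r • w‖ ^ 2 := by
        rw [h1]; nlinarith only [h3, h2]
      exact le_of_sq_le_sq h5 (norm_nonneg _)
    have hne : ∀ r ∈ Icc (0 : ℝ) 1, u + r • w ≠ 0 := by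
      intro r hr h
      have := hnorm r hr
      rw [h, norm_zero] at this
      linarith only [this]
    have hD2 : ∀ y : E, 1 / 2 ≤ ‖y‖ → |D2 g y w w| ≤ 2 * |M| * ‖w‖ ^ 2 := by
      intro y hy
      have hyn : 0 < ‖y‖ := by linarith
      have hy0 : y ≠ 0 := norm_pos_iff.1 hyn
      set y' : E := ‖y‖⁻¹ • y with hy'
      have hy'1 : ‖y'‖ = 1 := by rw [hy', norm_smul, norm_inv, norm_norm]; field_simp
      have hye : y = ‖y‖ • y' := by rw [hy', smul_smul, mul_inv_cancel₀ hyn.ne', one_smul]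
      have hy'0 : y' ≠ 0 := hs0 _ (mem_sphere_zero_iff_norm.2 hy'1)
      have e3 : ‖y‖ • D2 g y = D2 g y' := by
        conv_lhs => rw [hye]
        rw [norm_smul, norm_norm, hy'1, mul_one]
        exact hg.D2_smul hyn hy'0
      have e4 : ‖y‖ * D2 g y w w = D2 g y' w w := by
        rw [← e3]; simp
      have h6 : |D2 g y' w w| ≤ |M| * ‖w‖ ^ 2 := by
        have h7 := (D2 g y').le_opNorm₂ w w
        have h8 := hM y' (mem_sphere_zero_iff_norm.2 hy'1)
        rw [Real.norm_eq_abs] at h7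
        calc |D2 g y' w w| ≤ ‖D2 g y'‖ * ‖w‖ * ‖w‖ := h7
          _ ≤ |M| * ‖w‖ * ‖w‖ := by
              apply mul_le_mul_of_nonneg_right _ (norm_nonneg _)
              exact mul_le_mul_of_nonneg_right (h8.trans (le_abs_self _)) (norm_nonneg _)
          _ = |M| * ‖w‖ ^ 2 := by ring
      rw [← e4, abs_mul, abs_of_pos hyn] at h6
      have h9 := abs_nonneg (D2 g y w w)
      linarith only [mul_nonneg (sub_nonneg.2 hy) (sub_nonneg.2 h9), mul_nonneg (mul_self_nonneg (1 : ℝ)) (sub_nonneg.2 h6)]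
    have kp := taylor1 (φ := fun r => g (u + r • w)) (φ' := fun r => fderiv ℝ g (u + r • w) w)
      (φ'' := fun r => D2 g (u + r • w) w w) (C := -(2 * |M| * ‖w‖ ^ 2))
      (fun r hr => hg.line1 (hne r hr)) (fun r hr => hg.line2 (hne r hr))
      (fun r hr => (abs_le.1 (hD2 _ (hnorm r hr))).1)
    have km := taylor1 (φ := fun r => -g (u + r • w)) (φ' := fun r => -fderiv ℝ g (u + r • w) w)
      (φ'' := fun r => -D2 g (u + r • w) w w) (C := -(2 * |M| * ‖w‖ ^ 2))
      (fun r hr => (hg.line1 (hne r hr)).neg) (fun r hr => (hg.line2 (hne r hr)).neg)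
      (fun r hr => by
        have := (abs_le.1 (hD2 _ (hnorm r hr))).2
        linarith only [this])
    simp only [zero_smul, add_zero, one_smul] at kp km
    have e1 : u + w = v := by rw [hw]; abel
    have e2 : fderiv ℝ g u w = fderiv ℝ g u v - g u := by
      rw [hw, map_sub, hg.euler hu0]
    rw [e1, e2] at kp km
    have h10 : |g v - fderiv ℝ g u v| ≤ |M| * ‖w‖ ^ 2 := by
      rw [abs_le]
      constructor <;> linarith only [km, kp]
    refine h10.trans (mul_le_mul_of_nonneg_right ?_ (by (clear * -; positivity)))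
    have := abs_nonneg M0
    have := abs_nonneg M1
    (clear g hg hs0 hsub hcn2 hcn1 hM hM1 hgc hM0 u v hu hv hu0 w hfar hw hwn hnorm hne hD2 kp km e1 e2 h10; linarith)

end Vale.Agent.P227.Loc
end

section
attribute [-instance] ProperSMul.toContinuousSMul IsTopologicalTorsor.toContinuousSMul IdemSemiring.toCanonicallyOrderedAdd IdemSemiring.toMulLeftMono IdemSemiring.toMulRightMono AddQuantale.instAddLeftMono AddQuantale.instAddRightMono Quantale.instMulLeftMono Quantale.instMulRightMono FiniteDimensional.rclike_to_real IsScalarTower.complexToReal FiniteDimensional.complexToReal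

open MeasureTheory Set Metric Filter Topology

namespace Vale.Agent.P227.Loc

variable {E : Type*} [NormedAddCommGroup E] [InnerProductSpace ℝ E]

theorem D2_nonneg {f : E → ℝ} (hf : Hom1 f)
    (hcurv : ∀ u v : E, u ≠ 0 → v ≠ 0 → inner ℝ u v = 0 → 0 < D2 f u v v) {y : E}
    (hy : y ≠ 0) (w : E) : 0 ≤ D2 f y w w ∧ (D2 f y w w = 0 → inner ℝ y w = 0 → w = 0) := by
  set α : ℝ := inner ℝ y w / ‖y‖ ^ 2 with hα
  set w' : E := w - α • y with hw'
  have hyn : 0 < ‖y‖ := norm_pos_iff.2 hy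
  have horth : inner ℝ y w' = 0 := by
    rw [hw', inner_sub_right, inner_smul_right, real_inner_self_eq_norm_sq, hα]
    field_simp
    ring
  have hwe : w = w' + α • y := by rw [hw']; abel
  have hD : D2 f y w w = D2 f y w' w' := by
    rw [hwe]
    simp only [map_add, map_smul, add_apply, hf.D2_self hy, hf.D2_self_right hy, smul_eq_mul,
      zero_apply, smul_zero]
    simp
  constructor
  · rw [hD]
    by_cases h0 : w' = 0
    · rw [h0]; simp
    · exact (hcurv y w' hy h0 horth).le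
  · intro h1 h2
    have hα0 : α = 0 := by rw [hα, h2, zero_div]
    have hww : w = w' := by rw [hwe, hα0, zero_smul, add_zero]
    by_contra hw
    have := hcurv y w hy hw h2
    linarith only [h1, this]

/-- the dual quadratic form of the Hessian. -/
theorem exists_S [FiniteDimensional ℝ E] {f : E → ℝ} (hf : Hom1 f)
    (hpos : ∀ x, x ≠ 0 → 0 < f x)
    (hcurv : ∀ u v : E, u ≠ 0 → v ≠ 0 → inner ℝ u v = 0 → 0 < D2 f u v v) (y : E)
    (hy : y ≠ 0) : ∃ S : (E →L[ℝ] ℝ) →ₗ[ℝ] E, ∀ p : E →L[ℝ] ℝ, p y = 0 →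
      (∀ (z : E) (t : ℝ), -(t ^ 2 * p (S p)) / 2 ≤ t * p z + D2 f y z z / f y / 2) ∧
      (∃ z : E, p z + D2 f y z z / f y / 2 = -(p (S p)) / 2) := by
  have hfy := hpos y hy
  set T : E →ₗ[ℝ] (E →L[ℝ] ℝ) :=
    ((f y)⁻¹ • (D2 f y) : E →L[ℝ] (E →L[ℝ] ℝ)).toLinearMap +
      ((innerSL ℝ y).smulRight (innerSL ℝ y) : E →L[ℝ] (E →L[ℝ] ℝ)).toLinearMap with hT
  have hTa : ∀ w z : E, T w z = (f y)⁻¹ * D2 f y w z + inner ℝ y w * inner ℝ y z := by
    intro w z
    simp only [hT, ContinuousLinearMap.toLinearMap_smul, ContinuousLinearMap.coe_smulRight, ContinuousLinearMap.toLinearMap_innerSL_apply, LinearMap.add_apply, LinearMap.smul_apply, ContinuousLinearMap.coe_coe, LinearMap.coe_smulRight, innerₛₗ_apply_apply, add_apply, smul_apply, smul_eq_mul, coe_innerSL_apply]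
  have hinj : Function.Injective T := by
    rw [injective_iff_map_eq_zero]
    intro w hw
    have h1 := hTa w w
    rw [hw, zero_apply] at h1
    obtain ⟨h2, h3⟩ := D2_nonneg hf hcurv hy w
    have h4 : 0 ≤ (f y)⁻¹ * D2 f y w w := by (clear * - hfy h2; positivity)
    have h5 : 0 ≤ inner ℝ y w * inner ℝ y w := mul_self_nonneg _
    have h6 : inner ℝ y w * inner ℝ y w = 0 := by linarith only [h5, h1, h4]
    have h7 : (f y)⁻¹ * D2 f y w w = 0 := by linarith only [h4, h1, h5]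
    have h8 : inner ℝ y w = 0 := mul_self_eq_zero.1 h6
    have h9 : D2 f y w w = 0 := by
      rcases mul_eq_zero.1 h7 with h | h
      · exact absurd h (by positivity)
      · exact h
    exact h3 h9 h8
  have hdim : Module.finrank ℝ E = Module.finrank ℝ (E →L[ℝ] ℝ) := by
    rw [← (LinearMap.toContinuousLinearMap : (E →ₗ[ℝ] ℝ) ≃ₗ[ℝ] (E →L[ℝ] ℝ)).finrank_eq]
    exact (Subspace.dual_finrank_eq (K := ℝ) (V := E)).symm
  have : FiniteDimensional ℝ (E →L[ℝ] ℝ) := inferInstance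
  set e : E ≃ₗ[ℝ] (E →L[ℝ] ℝ) := LinearMap.linearEquivOfInjective T hinj hdim with he
  refine ⟨e.symm.toLinearMap, fun p hp => ?_⟩
  set s : E := e.symm.toLinearMap p with hs
  have hTs : T s = p := by
    have : e s = p := by rw [hs]; exact e.apply_symm_apply p
    rw [← this]
    rfl
  have hys : inner ℝ y s = 0 := by
    have h1 := hTa s y
    rw [hTs, hp, hf.D2_self_right hy, mul_zero, zero_add, real_inner_self_eq_norm_sq] at h1
    have hyn : 0 < ‖y‖ := norm_pos_iff.2 hy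
    rcases mul_eq_zero.1 h1.symm with h | h
    · exact h
    · exact absurd h (by positivity)
  have hAs : ∀ z, (f y)⁻¹ * D2 f y s z = p z := by
    intro z
    have h1 := hTa s z
    rw [hTs, hys, zero_mul, add_zero] at h1
    exact h1.symm
  constructor
  · intro z t
    have h1 := (D2_nonneg hf hcurv hy (z + t • s)).1
    have h2 : D2 f y (z + t • s) (z + t • s) =
        D2 f y z z + 2 * t * D2 f y s z + t ^ 2 * D2 f y s s := by
      simp only [map_add, map_smul, add_apply, smul_apply, smul_eq_mul]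
      rw [hf.D2_symm hy z s]
      ring
    have h3 : 0 ≤ (f y)⁻¹ * D2 f y (z + t • s) (z + t • s) := by (clear * - hfy h1; positivity)
    rw [h2] at h3
    have h4 : (f y)⁻¹ * (D2 f y z z + 2 * t * D2 f y s z + t ^ 2 * D2 f y s s) =
        D2 f y z z / f y + 2 * t * p z + t ^ 2 * p s := by
      rw [← hAs z, ← hAs s]; ring
    rw [h4] at h3
    linarith only [h3]
  · refine ⟨-s, ?_⟩
    have h1 : D2 f y (-s) (-s) = D2 f y s s := by simp only [map_neg, neg_apply, neg_neg]
    rw [h1, map_neg]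
    have h2 := hAs s
    have h3 : D2 f y s s / f y = p s := by rw [← h2]; ring
    rw [h3]
    ring

end Vale.Agent.P227.Loc
end

section

open MeasureTheory Set Metric Filter Topology

namespace Vale.Agent.P227.Loc

variable {n : ℕ}

theorem C2Plus.hom1 {K : Set (EV n)} (hK : SymConvexBody K) (hC : C2Plus K) :
    Hom1 (supportFn K) where
  hom := fun _ hs x => supportFn_smul hK.isCompact ⟨0, hK.zero_mem⟩ hs.le x
  smooth := hC.smooth

theorem hess_eq {f : EV n → ℝ} (hf : Hom1 f) {u : EV n} (hu : u ≠ 0) (v : EV n) :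
    hess f u v = D2 f u v v := by
  have hne : ∀ᶠ r in 𝓝 (0 : ℝ), u + r • v ≠ 0 := by
    have hc : ContinuousAt (fun r : ℝ => u + r • v) 0 := by fun_prop
    have : u + (0 : ℝ) • v ≠ 0 := by simpa using hu
    exact hc.eventually_ne this
  have h1 : (fun r : ℝ => deriv (fun s : ℝ => f (u + s • v)) r) =ᶠ[𝓝 0]
      fun r : ℝ => fderiv ℝ f (u + r • v) v := by
    filter_upwards [hne] with r hr
    exact (hf.line1 hr).deriv
  have h0 : u + (0 : ℝ) • v ≠ 0 := by simpa using hu
  unfold hess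
  rw [h1.deriv_eq, (hf.line2 h0).deriv, zero_smul, add_zero]

theorem C2Plus.curv' {K : Set (EV n)} (hK : SymConvexBody K) (hC : C2Plus K) :
    ∀ u v : EV n, u ≠ 0 → v ≠ 0 → inner ℝ u v = 0 → 0 < D2 (supportFn K) u v v := by
  intro u v hu hv huv
  rw [← hess_eq (hC.hom1 hK) hu]
  exact hC.curv u v hu hv huv

theorem C2Plus.strong {K : Set (EV n)} (hK : SymConvexBody K) (hC : C2Plus K) :
    ∃ c : ℝ, 0 < c ∧ ∀ u v : EV n, ‖u‖ = 1 → ‖v‖ = 1 →
      c * ‖v - u‖ ^ 2 ≤ supportFn K v - fderiv ℝ (supportFn K) u v :=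
  Loc.strong (hC.hom1 hK) (fun _ hx => hK.supportFn_pos hx) (hC.curv' hK)

/-- a positive even function which has supporting linear functionals at unit vectors is the
support function of its Wulff body (on unit vectors) -/
theorem supportFn_wulff {F : EV n → ℝ} {a b : ℝ} (ha : 0 < a)
    (hFa : ∀ u, ‖u‖ = 1 → a ≤ F u) (hFb : ∀ u, ‖u‖ = 1 → F u ≤ b)
    (heven : ∀ u, F (-u) = F u)
    (hgrad : ∀ u, ‖u‖ = 1 → ∃ x : EV n, inner ℝ x u = F u ∧ ∀ v, ‖v‖ = 1 → inner ℝ x v ≤ F v)
    {u : EV n} (hu : ‖u‖ = 1) : supportFn (wulff F) u = F u := by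
  have hW := wulff_symConvexBody ha hFa hFb heven
  apply le_antisymm
  · exact supportFn_le ⟨0, hW.zero_mem⟩ fun x hx => hx u hu
  · obtain ⟨x, hxu, hx⟩ := hgrad u hu
    rw [← hxu]
    exact inner_le_supportFn hW.isCompact (fun v hv => hx v hv) u

theorem Hom1.bound_sphere {g : EV n → ℝ} (hg : Hom1 g) :
    ∃ G : ℝ, 0 ≤ G ∧ ∀ u : EV n, ‖u‖ = 1 → |g u| ≤ G := by
  have hs0 : ∀ u ∈ sphere (0 : EV n) 1, u ≠ 0 := by
    intro u hu h
    rw [h] at hu; simp at hu
  have hgc : ContinuousOn g (sphere (0 : EV n) 1) := fun u hu =>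
    (hg.contDiffAt (hs0 u hu)).continuousAt.continuousWithinAt
  obtain ⟨M0, hM0⟩ := (isCompact_sphere (0 : EV n) 1).exists_bound_of_continuousOn hgc
  exact ⟨|M0|, abs_nonneg _, fun u hu =>
    (hM0 u (mem_sphere_zero_iff_norm.2 hu)).trans (le_abs_self _)⟩

/-- (A1c): small even `C²` perturbations of the support function of a `C²₊` body are support
functions -/
theorem supportFn_pert {K : Set (EV n)} (hK : SymConvexBody K) (hC : C2Plus K) {g : EV n → ℝ}
    (hg : Hom1 g) (heven : ∀ u, g (-u) = g u) :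
    ∀ᶠ t in 𝓝 (0 : ℝ), SymConvexBody (wulff (fun u => supportFn K u + t * g u)) ∧
      ∀ u : EV n, ‖u‖ = 1 →
        supportFn (wulff (fun u => supportFn K u + t * g u)) u = supportFn K u + t * g u := by
  obtain ⟨c, hc0, hc⟩ := hC.strong hK
  obtain ⟨C, hC0, hCb⟩ := upper hg
  obtain ⟨G, hG0, hG⟩ := hg.bound_sphere
  obtain ⟨a, b, ha, hab, hbd⟩ := (hC.hom1 hK).bounds (fun _ hx => hK.supportFn_pos hx)
  have hδ : 0 < min (c / C) (a / (2 * (G + 1))) := by positivity
  filter_upwards [Metric.ball_mem_nhds (0 : ℝ) hδ] with t ht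
  rw [mem_ball_zero_iff, Real.norm_eq_abs, lt_min_iff] at ht
  obtain ⟨ht1, ht2⟩ := ht
  rw [lt_div_iff₀ hC0] at ht1
  rw [lt_div_iff₀ (by positivity)] at ht2
  have htG : |t| * G ≤ a / 2 := by
    have := abs_nonneg t
    linarith only [this, ht2]
  have h1 : ∀ u : EV n, ‖u‖ = 1 → a / 2 ≤ supportFn K u + t * g u := by
    intro u hu
    have h2 : |t * g u| ≤ |t| * G := by
      rw [abs_mul]; exact mul_le_mul_of_nonneg_left (hG u hu) (abs_nonneg _)
    have h3 := (abs_le.1 h2).1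
    have h4 := (hbd u hu).1
    linarith
  have h2 : ∀ u : EV n, ‖u‖ = 1 → supportFn K u + t * g u ≤ b + a := by
    intro u hu
    have h2 : |t * g u| ≤ |t| * G := by
      rw [abs_mul]; exact mul_le_mul_of_nonneg_left (hG u hu) (abs_nonneg _)
    have h3 := (abs_le.1 h2).2
    have h4 := (hbd u hu).2
    linarith
  have h3 : ∀ u : EV n, supportFn K (-u) + t * g (-u) = supportFn K u + t * g u := by
    intro u
    rw [hK.supportFn_neg, heven]
  have ha2 : 0 < a / 2 := by positivity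
  refine ⟨wulff_symConvexBody ha2 h1 h2 h3, fun u hu => supportFn_wulff ha2 h1 h2 h3 ?_ hu⟩
  intro u hu
  have hu0 : u ≠ 0 := by intro h; rw [h] at hu; simp at hu
  refine ⟨(InnerProductSpace.toDual ℝ (EV n)).symm
    (fderiv ℝ (supportFn K) u + t • fderiv ℝ g u), ?_, fun v hv => ?_⟩
  · rw [InnerProductSpace.toDual_symm_apply, add_apply, smul_apply, (hC.hom1 hK).euler hu0,
      hg.euler hu0, smul_eq_mul]
  · rw [InnerProductSpace.toDual_symm_apply, add_apply, smul_apply, smul_eq_mul]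
    have h5 := hc u v hu hv
    have h6 := hCb u v hu hv
    have h7 : |t * (g v - fderiv ℝ g u v)| ≤ c * ‖v - u‖ ^ 2 := by
      rw [abs_mul]
      calc |t| * |g v - fderiv ℝ g u v| ≤ |t| * (C * ‖v - u‖ ^ 2) :=
            mul_le_mul_of_nonneg_left h6 (abs_nonneg _)
        _ = (|t| * C) * ‖v - u‖ ^ 2 := by ring
        _ ≤ c * ‖v - u‖ ^ 2 := mul_le_mul_of_nonneg_right ht1.le (by (clear * -; positivity))
    have h8 := (abs_le.1 h7).1
    have h9 : t * (g v - fderiv ℝ g u v) = t * g v - t * fderiv ℝ g u v := by ring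
    rw [h9] at h8
    linarith only [h8, h5]

end Vale.Agent.P227.Loc
end

section
attribute [-instance] ProperSMul.toContinuousSMul IsTopologicalTorsor.toContinuousSMul IdemSemiring.toCanonicallyOrderedAdd IdemSemiring.toMulLeftMono IdemSemiring.toMulRightMono AddQuantale.instAddLeftMono AddQuantale.instAddRightMono Quantale.instMulLeftMono Quantale.instMulRightMono FiniteDimensional.rclike_to_real IsScalarTower.complexToReal FiniteDimensional.complexToReal

open MeasureTheory Set Metric Filter Topology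

namespace Vale.Agent.P227.Loc

variable {n : ℕ}

/-- the Wulff body of `h_K e^φ` -/
noncomputable def wexp (K : Set (EV n)) (φ : EV n → ℝ) : Set (EV n) :=
  wulff (fun u => supportFn K u * Real.exp (φ u))

/-- even, continuous off the origin, homogeneous of degree zero -/
structure Adm (φ : EV n → ℝ) : Prop where
  even : ∀ u, φ (-u) = φ u
  cont : ContinuousOn φ {0}ᶜ
  hom : ∀ s : ℝ, 0 < s → ∀ u, φ (s • u) = φ u

theorem ne0 {u : EV n} (hu : ‖u‖ = 1) : u ≠ 0 := by
  intro h; rw [h] at hu; simp at hu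

theorem Adm.bound {φ : EV n → ℝ} (hφ : Adm φ) : ∃ B : ℝ, 0 ≤ B ∧ ∀ u : EV n, ‖u‖ = 1 → |φ u| ≤ B := by
  have hc : ContinuousOn φ (sphere (0 : EV n) 1) :=
    hφ.cont.mono fun u hu => ne0 (mem_sphere_zero_iff_norm.1 hu)
  obtain ⟨M0, hM0⟩ := (isCompact_sphere (0 : EV n) 1).exists_bound_of_continuousOn hc
  exact ⟨|M0|, abs_nonneg _, fun u hu =>
    (hM0 u (mem_sphere_zero_iff_norm.2 hu)).trans (le_abs_self _)⟩

theorem wexp_facts {K : Set (EV n)} (hK : SymConvexBody K) {φ : EV n → ℝ} (hφ : Adm φ) :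
    ∃ a b : ℝ, 0 < a ∧ (∀ u, ‖u‖ = 1 → a ≤ supportFn K u * Real.exp (φ u)) ∧
      (∀ u, ‖u‖ = 1 → supportFn K u * Real.exp (φ u) ≤ b) ∧
      (∀ u, supportFn K (-u) * Real.exp (φ (-u)) = supportFn K u * Real.exp (φ u)) ∧
      ContinuousOn (fun u => supportFn K u * Real.exp (φ u)) (sphere 0 1) := by
  have hc : ContinuousOn φ (sphere (0 : EV n) 1) :=
    hφ.cont.mono fun u hu => ne0 (mem_sphere_zero_iff_norm.1 hu)
  have hcont : ContinuousOn (fun u => supportFn K u * Real.exp (φ u)) (sphere 0 1) := by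
    apply ContinuousOn.mul hK.continuous_supportFn.continuousOn
    exact Real.continuous_exp.comp_continuousOn hc
  obtain ⟨r, hr0, hr⟩ := hK.exists_ball
  obtain ⟨R, hR0, hR⟩ := hK.exists_bound
  obtain ⟨B, hB0, hB⟩ := hφ.bound
  refine ⟨r * Real.exp (-B), R * Real.exp B, by (clear * - hr0; positivity), ?_, ?_, ?_, hcont⟩
  · intro u hu
    have h1 := SymConvexBody.supportFn_ge hr0 hK.isCompact hr u
    rw [hu, mul_one] at h1
    apply mul_le_mul h1 _ (Real.exp_pos _).le (by linarith only [hr0, h1])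
    apply Real.exp_le_exp.2
    exact (abs_le.1 (hB u hu)).1
  · intro u hu
    have h1 := hK.supportFn_le_norm hR u
    rw [hu, mul_one] at h1
    apply mul_le_mul h1 _ (Real.exp_pos _).le hR0.le
    apply Real.exp_le_exp.2
    exact (abs_le.1 (hB u hu)).2
  · intro u
    rw [hK.supportFn_neg, hφ.even]

theorem wexp_scb {K : Set (EV n)} (hK : SymConvexBody K) {φ : EV n → ℝ} (hφ : Adm φ) :
    SymConvexBody (wexp K φ) := by
  obtain ⟨a, b, ha, h1, h2, h3, h4⟩ := wexp_facts hK hφ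
  exact wulff_symConvexBody ha h1 h2 h3

/-- logarithm of the ratio of the gauges -/
noncomputable def lrat (K : Set (EV n)) (φ : EV n → ℝ) (x : EV n) : ℝ :=
  Real.log (gauge K x) - Real.log (gauge (wexp K φ) x)

/-- the gradient of the support function at the normal -/
theorem grad_normal (hn : 0 < n) {K : Set (EV n)} (hK : SymConvexBody K) (hC : C2Plus K)
    {x ν : EV n} (hν : ‖ν‖ = 1) (hx : inner ℝ x ν = gauge K x * supportFn K ν) (v : EV n) :
    inner ℝ x v = gauge K x * fderiv ℝ (supportFn K) ν v := by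
  have hH := hC.hom1 hK
  have hν0 := ne0 hν
  have hmin : IsLocalMin (fun v => gauge K x * supportFn K v - innerSL ℝ x v) ν := by
    apply Filter.Eventually.of_forall
    intro v
    have h0 : gauge K x * supportFn K ν - innerSL ℝ x ν = 0 := by
      rw [innerSL_apply_apply, hx]; ring
    beta_reduce
    rw [h0]
    by_cases hv : v = 0
    · subst hv
      rw [supportFn_zero hK.isCompact ⟨0, hK.zero_mem⟩]
      simp
    · have hvn : 0 < ‖v‖ := norm_pos_iff.2 hv
      have h1 : ‖‖v‖⁻¹ • v‖ = 1 := by rw [norm_smul, norm_inv, norm_norm]; field_simp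
      have h2 := (hK.exists_normal hn x).1 _ h1
      have hve : v = ‖v‖ • (‖v‖⁻¹ • v) := by
        rw [smul_smul, mul_inv_cancel₀ hvn.ne', one_smul]
      have h3 : supportFn K v = ‖v‖ * supportFn K (‖v‖⁻¹ • v) := by
        conv_lhs => rw [hve]
        exact hH.hom _ hvn _
      have h4 : innerSL ℝ x v = ‖v‖ * inner ℝ x (‖v‖⁻¹ • v) := by
        rw [innerSL_apply_apply, inner_smul_right]
        (clear * - hv; field_simp)
      rw [h3, h4]
      linarith only [mul_nonneg (le_of_lt (sub_pos.2 hvn)) (sub_nonneg.2 h2)]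
  have hd := hmin.fderiv_eq_zero
  have h1 : HasFDerivAt (fun v => gauge K x * supportFn K v - innerSL ℝ x v)
      (gauge K x • fderiv ℝ (supportFn K) ν - innerSL ℝ x) ν :=
    ((hH.hasF hν0).const_mul (gauge K x)).sub (innerSL ℝ x).hasFDerivAt
  rw [h1.fderiv] at hd
  have h2 := congrArg (fun L : EV n →L[ℝ] ℝ => L v) hd
  simp only [sub_apply, smul_apply, smul_eq_mul, zero_apply, innerSL_apply_apply] at h2
  linarith only [h2]

/-- upper and lower bounds for the log-ratio of the gauges -/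
theorem lrat_bounds (hn : 0 < n) {K : Set (EV n)} (hK : SymConvexBody K) (hC : C2Plus K)
    {φ : EV n → ℝ} (hφ : Adm φ)
    {x ν : EV n} (hx0 : x ≠ 0) (hν : ‖ν‖ = 1) (hx : inner ℝ x ν = gauge K x * supportFn K ν) :
    (∀ v : EV n, 0 < fderiv ℝ (supportFn K) ν v →
      lrat K φ x ≤ φ v + (supportFn K v - fderiv ℝ (supportFn K) ν v) /
        fderiv ℝ (supportFn K) ν v) ∧
    (∃ u : EV n, ‖u‖ = 1 ∧
      φ u + (supportFn K u - fderiv ℝ (supportFn K) ν u) / supportFn K u ≤ lrat K φ x) := by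
  obtain ⟨a, b, ha, h1, h2, h3, h4⟩ := wexp_facts hK hφ
  have hP := wexp_scb hK hφ
  have hH := hC.hom1 hK
  have hg := hK.gauge_pos hx0
  have hgP := hP.gauge_pos hx0
  obtain ⟨hle, u, hu, hxu⟩ := gauge_wulff_attained hn h4 ha h1 h2 h3 x
  change ∀ u : EV n, ‖u‖ = 1 → inner ℝ x u ≤ gauge (wexp K φ) x *
    (supportFn K u * Real.exp (φ u)) at hle
  change inner ℝ x u = gauge (wexp K φ) x * (supportFn K u * Real.exp (φ u)) at hxu
  constructor
  · intro v hv
    have hv0 : v ≠ 0 := by intro h; rw [h] at hv; simp only [map_zero, lt_self_iff_false] at hv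
    have hvn : 0 < ‖v‖ := norm_pos_iff.2 hv0
    set w := ‖v‖⁻¹ • v with hw
    have hw1 : ‖w‖ = 1 := by rw [hw, norm_smul, norm_inv, norm_norm]; field_simp
    have hve : v = ‖v‖ • w := by rw [hw, smul_smul, mul_inv_cancel₀ hvn.ne', one_smul]
    have hKw := hK.supportFn_pos (ne0 hw1)
    set ℓ := fderiv ℝ (supportFn K) ν with hℓ
    have e1 : supportFn K v = ‖v‖ * supportFn K w := by
      conv_lhs => rw [hve]
      exact hH.hom _ hvn _
    have e2 : ℓ v = ‖v‖ * ℓ w := by
      conv_lhs => rw [hve]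
      rw [map_smul, smul_eq_mul]
    have e3 : φ v = φ w := by
      conv_lhs => rw [hve]
      exact hφ.hom _ hvn _
    have hℓw : 0 < ℓ w := by
      rw [e2] at hv
      exact (mul_pos_iff_of_pos_left hvn).1 hv
    rw [e1, e2, e3, ← mul_sub, mul_div_mul_left _ _ hvn.ne']
    have h5 := hle w hw1
    rw [grad_normal hn hK hC hν hx w] at h5
    have h6 := Real.log_le_log (by (clear * - hg hℓw; positivity)) h5
    rw [Real.log_mul hg.ne' hℓw.ne', Real.log_mul hgP.ne' (by (clear * - hKw; positivity)),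
      Real.log_mul hKw.ne' (Real.exp_pos _).ne', Real.log_exp] at h6
    have h7 : Real.log (supportFn K w) - Real.log (ℓ w) ≤ (supportFn K w - ℓ w) / ℓ w := by
      rw [← Real.log_div hKw.ne' hℓw.ne']
      have := Real.log_le_sub_one_of_pos (show 0 < supportFn K w / ℓ w by (clear * - hKw hℓw; (clear * - hKw hℓw; positivity)))
      refine this.trans (le_of_eq ?_)
      (clear * - hℓw; field_simp)
    unfold lrat
    linarith only [h6, h7]
  · refine ⟨u, hu, ?_⟩
    have hKu := hK.supportFn_pos (ne0 hu)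
    have hpos : 0 < inner ℝ x u := by
      rw [hxu]
      exact mul_pos hgP (lt_of_lt_of_le ha (h1 u hu))
    set ℓ := fderiv ℝ (supportFn K) ν with hℓ
    rw [grad_normal hn hK hC hν hx u] at hxu hpos
    have hℓu : 0 < ℓ u := (mul_pos_iff_of_pos_left hg).1 hpos
    have h6 := congrArg Real.log hxu
    rw [Real.log_mul hg.ne' hℓu.ne', Real.log_mul hgP.ne' (by (clear * - hKu; positivity)),
      Real.log_mul hKu.ne' (Real.exp_pos _).ne', Real.log_exp] at h6
    have h7 : (supportFn K u - ℓ u) / supportFn K u ≤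
        Real.log (supportFn K u) - Real.log (ℓ u) := by
      have := Real.log_le_sub_one_of_pos (show 0 < ℓ u / supportFn K u by (clear * - hℓu hKu; (clear * - hℓu hKu; positivity)))
      rw [Real.log_div hℓu.ne' hKu.ne'] at this
      have e : (supportFn K u - ℓ u) / supportFn K u = 1 - ℓ u / supportFn K u := by
        (clear * - hKu; field_simp)
      rw [e]
      linarith only [this]
    unfold lrat
    linarith only [h6, h7]

end Vale.Agent.P227.Loc
end

section

open MeasureTheory Set Metric Filter Topology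

namespace Vale.Agent.P227.Loc

variable {n : ℕ}

/-- second order Taylor expansion of a homogeneous function -/
theorem taylor2 {E : Type*} [NormedAddCommGroup E] [InnerProductSpace ℝ E] {f : E → ℝ}
    (hf : Hom1 f) {ν : E} (hν : ν ≠ 0) {ε : ℝ} (hε : 0 < ε) :
    ∃ δ > 0, ∀ z : E, ‖z‖ < δ →
      |f (ν + z) - fderiv ℝ f ν (ν + z) - D2 f ν z z / 2| ≤ ε * ‖z‖ ^ 2 := by
  have hc : ContinuousAt (D2 f) ν :=
    (hf.continuousOn_D2).continuousAt (isOpen_compl_singleton.mem_nhds hν)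
  obtain ⟨δ₁, hδ₁, h1⟩ :=
    (@Metric.continuousAt_iff E (E →L[ℝ] E →L[ℝ] ℝ) _ _ (D2 f) ν).1 hc ε hε
  have hνn : 0 < ‖ν‖ := norm_pos_iff.2 hν
  refine ⟨min δ₁ ‖ν‖, lt_min hδ₁ hνn, fun z hz => ?_⟩
  obtain ⟨hz1, hz2⟩ := lt_min_iff.1 hz
  have hzs : ∀ s ∈ Icc (0 : ℝ) 1, ‖s • z‖ ≤ ‖z‖ := by
    intro s hs
    rw [norm_smul, Real.norm_of_nonneg hs.1]
    exact mul_le_of_le_one_left (norm_nonneg _) hs.2
  have hne : ∀ s ∈ Icc (0 : ℝ) 1, ν + s • z ≠ 0 := by
    intro s hs h
    have h2 : ν = -(s • z) := eq_neg_of_add_eq_zero_left h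
    have h3 := hzs s hs
    have h4 : ‖ν‖ = ‖s • z‖ := by rw [h2, norm_neg]
    linarith only [hz2, h3, h4]
  have hD : ∀ s ∈ Icc (0 : ℝ) 1, |D2 f (ν + s • z) z z - D2 f ν z z| ≤ ε * ‖z‖ ^ 2 := by
    intro s hs
    have h3 : dist (ν + s • z) ν < δ₁ := by
      rw [dist_eq_norm, add_sub_cancel_left]
      exact (hzs s hs).trans_lt hz1
    have h4 : ‖D2 f (ν + s • z) - D2 f ν‖ ≤ ε :=
      (dist_eq_norm (D2 f (ν + s • z)) (D2 f ν)).symm.le.trans (h1 h3).le
    have h5 := (D2 f (ν + s • z) - D2 f ν).le_opNorm₂ z z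
    rw [sub_apply, sub_apply, Real.norm_eq_abs] at h5
    calc |D2 f (ν + s • z) z z - D2 f ν z z| ≤ ‖D2 f (ν + s • z) - D2 f ν‖ * ‖z‖ * ‖z‖ := h5
      _ = ‖D2 f (ν + s • z) - D2 f ν‖ * (‖z‖ * ‖z‖) := by ring
      _ ≤ ε * (‖z‖ * ‖z‖) := mul_le_mul_of_nonneg_right h4 (by (clear * -; positivity))
      _ = ε * ‖z‖ ^ 2 := by ring
  have kp := taylor1 (φ := fun r => f (ν + r • z)) (φ' := fun r => fderiv ℝ f (ν + r • z) z)
    (φ'' := fun r => D2 f (ν + r • z) z z) (C := D2 f ν z z - ε * ‖z‖ ^ 2)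
    (fun r hr => hf.line1 (hne r hr)) (fun r hr => hf.line2 (hne r hr))
    (fun r hr => by have := (abs_le.1 (hD r hr)).1; linarith only [this])
  have km := taylor1 (φ := fun r => -f (ν + r • z)) (φ' := fun r => -fderiv ℝ f (ν + r • z) z)
    (φ'' := fun r => -D2 f (ν + r • z) z z) (C := -D2 f ν z z - ε * ‖z‖ ^ 2)
    (fun r hr => (hf.line1 (hne r hr)).neg) (fun r hr => (hf.line2 (hne r hr)).neg)
    (fun r hr => by have := (abs_le.1 (hD r hr)).2; linarith only [this])
  simp only [zero_smul, add_zero, one_smul] at kp km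
  have e : fderiv ℝ f ν (ν + z) = f ν + fderiv ℝ f ν z := by rw [map_add, hf.euler hν]
  rw [e, abs_le]
  have h6 : 0 ≤ ε * ‖z‖ ^ 2 := by (clear * - hε; positivity)
  constructor <;> linarith

/-- arithmetic core of the pointwise expansion -/
theorem core_est {ε r t a χ pz Dz zn av χv φv δv Hi hi B : ℝ} (hε0 : 0 < ε)
    (hε1 : ε ≤ 1) (hzn : 0 ≤ zn) (hz : zn ≤ r * |t|) (hhi : 0 ≤ hi) (hB : 0 ≤ B)
    (hD : |Dz| ≤ B * zn ^ 2) (h1 : |φv - t * av - t ^ 2 * χv| ≤ ε * t ^ 2)
    (h2 : |av - a - pz| ≤ ε * zn) (h3 : |χv - χ| ≤ ε) (h4 : |δv - Dz / 2| ≤ ε * zn ^ 2)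
    (h5 : |Hi - hi| ≤ ε) :
    |φv + δv * Hi - (t * a + t * pz + t ^ 2 * χ + Dz / 2 * hi)| ≤
      ε * (r + 2 + r ^ 2 * hi + (B / 2 + 1) * r ^ 2) * t ^ 2 := by
  have hzn2 : zn ^ 2 ≤ r ^ 2 * t ^ 2 := by
    have : zn ^ 2 ≤ (r * |t|) ^ 2 := pow_le_pow_left₀ hzn hz 2
    rwa [mul_pow, sq_abs] at this
  have e : φv + δv * Hi - (t * a + t * pz + t ^ 2 * χ + Dz / 2 * hi) =
      (φv - t * av - t ^ 2 * χv) + t * (av - a - pz) + t ^ 2 * (χv - χ) +
      (δv - Dz / 2) * hi + δv * (Hi - hi) := by ring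
  have b2 : |t * (av - a - pz)| ≤ ε * r * t ^ 2 := by
    rw [abs_mul]
    calc |t| * |av - a - pz| ≤ |t| * (ε * zn) := mul_le_mul_of_nonneg_left h2 (abs_nonneg _)
      _ ≤ |t| * (ε * (r * |t|)) := by
          apply mul_le_mul_of_nonneg_left _ (abs_nonneg _)
          exact mul_le_mul_of_nonneg_left hz hε0.le
      _ = ε * r * |t| ^ 2 := by ring
      _ = ε * r * t ^ 2 := by rw [sq_abs]
  have b3 : |t ^ 2 * (χv - χ)| ≤ ε * t ^ 2 := by
    rw [abs_mul, abs_of_nonneg (sq_nonneg t), mul_comm]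
    exact mul_le_mul_of_nonneg_right h3 (sq_nonneg _)
  have b4 : |(δv - Dz / 2) * hi| ≤ ε * (r ^ 2 * hi) * t ^ 2 := by
    rw [abs_mul, abs_of_nonneg hhi]
    calc |δv - Dz / 2| * hi ≤ (ε * zn ^ 2) * hi := mul_le_mul_of_nonneg_right h4 hhi
      _ ≤ (ε * (r ^ 2 * t ^ 2)) * hi := by
          apply mul_le_mul_of_nonneg_right _ hhi
          exact mul_le_mul_of_nonneg_left hzn2 hε0.le
      _ = ε * (r ^ 2 * hi) * t ^ 2 := by ring
  have b5' : |δv| ≤ (B / 2 + 1) * (r ^ 2 * t ^ 2) := by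
    have h6 : |δv| ≤ |δv - Dz / 2| + |Dz / 2| := by
      have := abs_add_le (δv - Dz / 2) (Dz / 2)
      simpa only [ge_iff_le, sub_add_cancel] using this
    have h7 : |Dz / 2| ≤ B / 2 * zn ^ 2 := by
      rw [abs_div, abs_of_pos (show (0 : ℝ) < 2 by norm_num)]
      linarith only [hD]
    calc |δv| ≤ ε * zn ^ 2 + B / 2 * zn ^ 2 := by linarith only [h4, h6, h7]
      _ = (B / 2 + ε) * zn ^ 2 := by ring
      _ ≤ (B / 2 + 1) * zn ^ 2 := mul_le_mul_of_nonneg_right (by linarith only [hε1]) (sq_nonneg _)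
      _ ≤ (B / 2 + 1) * (r ^ 2 * t ^ 2) := mul_le_mul_of_nonneg_left hzn2 (by positivity)
  have b5 : |δv * (Hi - hi)| ≤ ε * ((B / 2 + 1) * r ^ 2) * t ^ 2 := by
    rw [abs_mul]
    calc |δv| * |Hi - hi| ≤ ((B / 2 + 1) * (r ^ 2 * t ^ 2)) * ε :=
          mul_le_mul b5' h5 (abs_nonneg _) (by (clear * - hB; positivity))
      _ = ε * ((B / 2 + 1) * r ^ 2) * t ^ 2 := by ring
  rw [e]
  have c1 := abs_add_le ((φv - t * av - t ^ 2 * χv) + t * (av - a - pz) + t ^ 2 * (χv - χ) +
      (δv - Dz / 2) * hi) (δv * (Hi - hi))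
  have c2 := abs_add_le ((φv - t * av - t ^ 2 * χv) + t * (av - a - pz) + t ^ 2 * (χv - χ))
      ((δv - Dz / 2) * hi)
  have c3 := abs_add_le ((φv - t * av - t ^ 2 * χv) + t * (av - a - pz)) (t ^ 2 * (χv - χ))
  have c4 := abs_add_le (φv - t * av - t ^ 2 * χv) (t * (av - a - pz))
  calc _ ≤ ε * t ^ 2 + ε * r * t ^ 2 + ε * t ^ 2 + ε * (r ^ 2 * hi) * t ^ 2 +
        ε * ((B / 2 + 1) * r ^ 2) * t ^ 2 := by linarith only [h1, b2, b3, b4, b5, c1, c2, c3, c4]
    _ = _ := by ring

/-- the maximiser stays `O(t)`-close to the normal -/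
theorem key_attained {K : Set (EV n)} (hK : SymConvexBody K) {c b L C₁ : ℝ} (hc0 : 0 < c)
    (hb0 : 0 < b) (hL0 : 0 ≤ L) (hC0 : 0 ≤ C₁)
    (hc : ∀ u v : EV n, ‖u‖ = 1 → ‖v‖ = 1 →
      c * ‖v - u‖ ^ 2 ≤ supportFn K v - fderiv ℝ (supportFn K) u v)
    (hb : ∀ u : EV n, ‖u‖ = 1 → supportFn K u ≤ b) {ψ φ : EV n → ℝ}
    (hLip : ∀ u v : EV n, ‖u‖ = 1 → ‖v‖ = 1 → |ψ u - ψ v| ≤ L * ‖u - v‖) {t : ℝ}
    (hφ : ∀ u : EV n, ‖u‖ = 1 → |φ u - t * ψ u| ≤ C₁ * t ^ 2) {ν u : EV n} (hν : ‖ν‖ = 1)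
    (hu : ‖u‖ = 1)
    (h : φ u + (supportFn K u - fderiv ℝ (supportFn K) ν u) / supportFn K u ≤ φ ν) :
    ‖u - ν‖ ≤ (1 + b / c * (L + 2 * C₁)) * |t| := by
  set d := ‖u - ν‖ with hd
  have hd0 : 0 ≤ d := norm_nonneg _
  have hKu := hK.supportFn_pos (ne0 hu)
  have h1 : c / b * d ^ 2 ≤ (supportFn K u - fderiv ℝ (supportFn K) ν u) / supportFn K u := by
    have h2 := hc ν u hν hu
    rw [le_div_iff₀ hKu]
    calc c / b * d ^ 2 * supportFn K u ≤ c / b * d ^ 2 * b :=
          mul_le_mul_of_nonneg_left (hb u hu) (by (clear * - hc0 hb0; positivity))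
      _ = c * d ^ 2 := by field_simp
      _ ≤ _ := h2
  have h3 : φ ν - φ u ≤ |t| * L * d + 2 * C₁ * t ^ 2 := by
    have a1 := (abs_le.1 (hφ ν hν)).2
    have a2 := (abs_le.1 (hφ u hu)).1
    have a3 : t * (ψ ν - ψ u) ≤ |t| * (L * d) := by
      calc t * (ψ ν - ψ u) ≤ |t * (ψ ν - ψ u)| := le_abs_self _
        _ = |t| * |ψ ν - ψ u| := abs_mul _ _
        _ ≤ |t| * (L * ‖ν - u‖) := mul_le_mul_of_nonneg_left (hLip ν u hν hu) (abs_nonneg _)
        _ = |t| * (L * d) := by rw [hd, norm_sub_rev]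
    linarith only [a3, a2, a1]
  have h4 : c / b * d ^ 2 ≤ |t| * L * d + 2 * C₁ * t ^ 2 := by linarith
  by_contra hcon
  push Not at hcon
  have ht0 := abs_nonneg t
  have hcb : 0 < b / c := by (clear * - hb0 hc0; positivity)
  have h5 : |t| ≤ d := by
    have : 0 ≤ b / c * (L + 2 * C₁) * |t| := by (clear * - hb0 hc0 hL0 hC0; positivity)
    linarith only [this, hcon]
  have hdpos : 0 < d := lt_of_le_of_lt (by (clear * - hb0 hc0 hL0 hC0; positivity)) hcon
  have h6 : 2 * C₁ * t ^ 2 ≤ 2 * C₁ * (|t| * d) := by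
    apply mul_le_mul_of_nonneg_left _ (by (clear * - hC0; positivity))
    rw [← sq_abs]
    nlinarith only [ht0, h5]
  have h7 : c / b * d ^ 2 ≤ (L + 2 * C₁) * |t| * d := by linarith only [h6, h4]
  have h8 : c / b * d ≤ (L + 2 * C₁) * |t| := by
    have : c / b * d * d ≤ (L + 2 * C₁) * |t| * d := by linarith only [h7]
    exact le_of_mul_le_mul_right this hdpos
  have h9 : d ≤ b / c * ((L + 2 * C₁) * |t|) := by
    calc d = b / c * (c / b * d) := by (clear * - hb0 hc0 hdpos; field_simp)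
      _ ≤ _ := mul_le_mul_of_nonneg_left h8 hcb.le
  linarith only [h9, ht0, hcon]

end Vale.Agent.P227.Loc
end

section

open MeasureTheory Set Metric Filter Topology

namespace Vale.Agent.P227.Loc

variable {n : ℕ}

/-- relative perturbation `g / h_K` -/
noncomputable def psi (K : Set (EV n)) (g : EV n → ℝ) (u : EV n) : ℝ := g u / supportFn K u

/-- even, homogeneous of degree one, `C²` off the origin -/
structure Pt (g : EV n → ℝ) : Prop where
  hom1 : Hom1 g
  even : ∀ u, g (-u) = g u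

theorem psi_adm {K : Set (EV n)} (hK : SymConvexBody K) {g : EV n → ℝ}
    (hg : Pt g) : Adm (psi K g) where
  even := by
    intro u
    unfold psi
    rw [hg.even, hK.supportFn_neg]
  cont := by
    unfold psi
    apply ContinuousOn.div
    · intro x hx
      exact (hg.hom1.contDiffAt hx).continuousAt.continuousWithinAt
    · exact hK.continuous_supportFn.continuousOn
    · intro u hu
      exact (hK.supportFn_pos hu).ne'
  hom := by
    intro s hs u
    unfold psi
    rw [hg.hom1.hom s hs, supportFn_smul hK.isCompact ⟨0, hK.zero_mem⟩ hs.le,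
      mul_div_mul_left _ _ hs.ne']

theorem psi_diff {K : Set (EV n)} (hK : SymConvexBody K) (hC : C2Plus K) {g : EV n → ℝ}
    (hg : Pt g) {ν : EV n} (hν : ν ≠ 0) :
    HasFDerivAt (psi K g) (fderiv ℝ (psi K g) ν) ν := by
  have h1 := (hg.hom1.hasF hν).differentiableAt
  have h2 := ((hC.hom1 hK).hasF hν).differentiableAt
  have e : psi K g = fun u => g u * (supportFn K u)⁻¹ := by
    funext u; unfold psi; rw [div_eq_mul_inv]
  rw [e]
  exact (h1.fun_mul (h2.fun_inv (hK.supportFn_pos hν).ne')).hasFDerivAt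

theorem psi_fderiv_self {K : Set (EV n)} (hK : SymConvexBody K) (hC : C2Plus K) {g : EV n → ℝ}
    (hg : Pt g) {ν : EV n} (hν : ν ≠ 0) : fderiv ℝ (psi K g) ν ν = 0 := by
  have hA := psi_adm hK hg
  have h1 : HasDerivAt (fun s : ℝ => psi K g (s • ν)) (fderiv ℝ (psi K g) ((1 : ℝ) • ν)
      ((1 : ℝ) • ν)) 1 := by
    have hx1 : (1 : ℝ) • ν ≠ 0 := by rwa [one_smul]
    exact (psi_diff hK hC hg hx1).comp_hasDerivAt (1 : ℝ)
      ((hasDerivAt_id (1 : ℝ)).smul_const ν)
  have h2 : HasDerivAt (fun s : ℝ => psi K g (s • ν)) 0 1 := by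
    refine (hasDerivAt_const (1 : ℝ) (psi K g ν)).congr_of_eventuallyEq ?_
    filter_upwards [lt_mem_nhds (show (0 : ℝ) < 1 by norm_num)] with s hs
    exact hA.hom s hs ν
  have h3 := h1.unique h2
  simpa using h3

theorem Hom1.lipschitz {g : EV n → ℝ} (hg : Hom1 g) :
    ∃ L : ℝ, 0 < L ∧ ∀ u v : EV n, ‖u‖ = 1 → ‖v‖ = 1 → |g u - g v| ≤ L * ‖u - v‖ := by
  obtain ⟨C, hC0, hC⟩ := upper hg
  have hsub : sphere (0 : EV n) 1 ⊆ {0}ᶜ := fun u hu => ne0 (mem_sphere_zero_iff_norm.1 hu)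
  have hcn1 : ContinuousOn (fun x => ‖fderiv ℝ g x‖) (sphere (0 : EV n) 1) :=
    (hg.continuousOn_D1.mono hsub).norm
  obtain ⟨M1, hM1⟩ := (isCompact_sphere (0 : EV n) 1).exists_bound_of_continuousOn hcn1
  replace hM1 : ∀ x ∈ sphere (0 : EV n) 1, ‖fderiv ℝ g x‖ ≤ M1 :=
    fun x hx => (le_abs_self _).trans (hM1 x hx)
  refine ⟨2 * C + |M1|, by positivity, fun u v hu hv => ?_⟩
  have h1 := hC v u hv hu
  have h2 : g u - g v = (g u - fderiv ℝ g v u) + fderiv ℝ g v (u - v) := by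
    rw [map_sub, hg.euler (ne0 hv)]; ring
  have h3 : |fderiv ℝ g v (u - v)| ≤ |M1| * ‖u - v‖ := by
    have h4 := (fderiv ℝ g v).le_opNorm (u - v)
    refine h4.trans (mul_le_mul_of_nonneg_right ?_ (norm_nonneg _))
    exact (hM1 v (mem_sphere_zero_iff_norm.2 hv)).trans (le_abs_self _)
  have h5 : ‖u - v‖ ≤ 2 := by
    calc ‖u - v‖ ≤ ‖u‖ + ‖v‖ := norm_sub_le _ _
      _ = 2 := by rw [hu, hv]; norm_num
  have h6 : C * ‖u - v‖ ^ 2 ≤ 2 * C * ‖u - v‖ := by
    have := norm_nonneg (u - v)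
    linarith only [mul_nonneg (sub_nonneg.2 h5) (sub_nonneg.2 (mul_nonneg hC0.le this))]
  calc |g u - g v| = |(g u - fderiv ℝ g v u) + fderiv ℝ g v (u - v)| := by rw [h2]
    _ ≤ |g u - fderiv ℝ g v u| + |fderiv ℝ g v (u - v)| := abs_add_le _ _
    _ ≤ C * ‖u - v‖ ^ 2 + |M1| * ‖u - v‖ := add_le_add h1 h3
    _ ≤ (2 * C + |M1|) * ‖u - v‖ := by linarith

theorem psi_lipschitz {K : Set (EV n)} (hK : SymConvexBody K) (hC : C2Plus K) {g : EV n → ℝ}
    (hg : Pt g) : ∃ L : ℝ, 0 < L ∧ ∀ u v : EV n, ‖u‖ = 1 → ‖v‖ = 1 →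
      |psi K g u - psi K g v| ≤ L * ‖u - v‖ := by
  obtain ⟨L1, hL1, h1⟩ := hg.hom1.lipschitz
  obtain ⟨L2, hL2, h2⟩ := (hC.hom1 hK).lipschitz
  obtain ⟨a, b, ha, hab, hbd⟩ := (hC.hom1 hK).bounds (fun _ hx => hK.supportFn_pos hx)
  obtain ⟨G, hG0, hG⟩ := hg.hom1.bound_sphere
  refine ⟨(L1 + G / a * L2) / a, by (clear * - hL1 hG0 ha hL2; positivity), fun u v hu hv => ?_⟩
  have hKu := hK.supportFn_pos (ne0 hu)
  have hKv := hK.supportFn_pos (ne0 hv)
  have e : psi K g u - psi K g v =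
      ((g u - g v) + g v / supportFn K v * (supportFn K v - supportFn K u)) / supportFn K u := by
    unfold psi
    field_simp
    ring
  rw [e, abs_div, abs_of_pos hKu]
  have h3 : |g v / supportFn K v| ≤ G / a := by
    rw [abs_div, abs_of_pos hKv]
    exact div_le_div₀ hG0 (hG v hv) ha (hbd v hv).1
  have h4 : |(g u - g v) + g v / supportFn K v * (supportFn K v - supportFn K u)| ≤
      (L1 + G / a * L2) * ‖u - v‖ := by
    calc _ ≤ |g u - g v| + |g v / supportFn K v * (supportFn K v - supportFn K u)| :=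
          abs_add_le _ _
      _ ≤ L1 * ‖u - v‖ + G / a * (L2 * ‖u - v‖) := by
          apply add_le_add (h1 u v hu hv)
          rw [abs_mul]
          apply mul_le_mul h3 _ (abs_nonneg _) (by positivity)
          rw [abs_sub_comm]
          exact h2 u v hu hv
      _ = _ := by ring
  calc _ ≤ (L1 + G / a * L2) * ‖u - v‖ / a := by
        apply div_le_div₀ (by (clear * - hL1 hG0 ha hL2; positivity)) h4 ha (hbd u hu).1
    _ = _ := by ring

theorem psi_add (K : Set (EV n)) (g₁ g₂ : EV n → ℝ) :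
    psi K (fun u => g₁ u + g₂ u) = fun u => psi K g₁ u + psi K g₂ u := by
  funext u
  unfold psi
  ring

theorem psi_sub (K : Set (EV n)) (g₁ g₂ : EV n → ℝ) :
    psi K (fun u => g₁ u - g₂ u) = fun u => psi K g₁ u - psi K g₂ u := by
  funext u
  unfold psi
  ring

theorem Pt.add {g₁ g₂ : EV n → ℝ} (h₁ : Pt g₁) (h₂ : Pt g₂) : Pt (fun u => g₁ u + g₂ u) where
  hom1 :=
    { hom := by intro s hs x; rw [h₁.hom1.hom s hs, h₂.hom1.hom s hs]; ring
      smooth := h₁.hom1.smooth.add h₂.hom1.smooth }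
  even := by intro u; rw [h₁.even, h₂.even]

theorem Pt.sub {g₁ g₂ : EV n → ℝ} (h₁ : Pt g₁) (h₂ : Pt g₂) : Pt (fun u => g₁ u - g₂ u) where
  hom1 :=
    { hom := by intro s hs x; rw [h₁.hom1.hom s hs, h₂.hom1.hom s hs]; ring
      smooth := h₁.hom1.smooth.sub h₂.hom1.smooth }
  even := by intro u; rw [h₁.even, h₂.even]

theorem Pt.smul {g : EV n → ℝ} (h : Pt g) (c : ℝ) : Pt (fun u => c * g u) where
  hom1 :=
    { hom := by intro s hs x; rw [h.hom1.hom s hs]; ring
      smooth := contDiffOn_const.mul h.hom1.smooth }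
  even := by intro u; rw [h.even]

end Vale.Agent.P227.Loc
end

section

open MeasureTheory Set Metric Filter Topology

namespace Vale.Agent.P227.Loc

variable {n : ℕ}

/-- a family of admissible functions with a uniform second order expansion
`φ_t = t ψ + t² χ + o(t²)` on the sphere, `ψ = g / h_K` -/
structure Fam (K : Set (EV n)) (g χ : EV n → ℝ) (φ : ℝ → EV n → ℝ) : Prop where
  adm : ∀ᶠ t in 𝓝 (0 : ℝ), Adm (φ t)
  chi : Adm χ
  exp : ∀ ε > 0, ∀ᶠ t in 𝓝 (0 : ℝ), ∀ u : EV n, ‖u‖ = 1 →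
    |φ t u - t * psi K g u - t ^ 2 * χ u| ≤ ε * t ^ 2

theorem fam_dom (hn : 0 < n) {K : Set (EV n)} (hK : SymConvexBody K) (hC : C2Plus K)
    {g χ : EV n → ℝ} {φ : ℝ → EV n → ℝ} (hg : Pt g) (hF : Fam K g χ φ) :
    ∃ M : ℝ, 0 < M ∧ ∀ᶠ t in 𝓝 (0 : ℝ), ∀ x ν : EV n, x ≠ 0 → ‖ν‖ = 1 →
      inner ℝ x ν = gauge K x * supportFn K ν →
      |lrat K (φ t) x - t * psi K g ν| ≤ M * t ^ 2 ∧
      ∃ u : EV n, ‖u‖ = 1 ∧ φ t u + (supportFn K u - fderiv ℝ (supportFn K) ν u) /
        supportFn K u ≤ lrat K (φ t) x ∧ ‖u - ν‖ ≤ M * |t| := by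
  obtain ⟨c, hc0, hc⟩ := hC.strong hK
  obtain ⟨a, b, ha, hab, hbd⟩ := (hC.hom1 hK).bounds (fun _ hx => hK.supportFn_pos hx)
  have hb : 0 < b := ha.trans_le hab
  obtain ⟨L, hL0, hL⟩ := psi_lipschitz hK hC hg
  obtain ⟨X, hX0, hX⟩ := hF.chi.bound
  set C₁ : ℝ := X + 1 with hC₁
  have hC₁0 : 0 < C₁ := by positivity
  set M₀ : ℝ := 1 + b / c * (L + 2 * C₁) with hM₀
  have hM₀0 : 0 < M₀ := by (clear * - hb hc0 hL0 hX0; positivity)
  refine ⟨L * M₀ + C₁ + M₀, by (clear * - hL0 hb hc0 hX0; positivity), ?_⟩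
  filter_upwards [hF.adm, hF.exp 1 one_pos] with t hadm hexp
  have hφ : ∀ u : EV n, ‖u‖ = 1 → |φ t u - t * psi K g u| ≤ C₁ * t ^ 2 := by
    intro u hu
    have h1 := hexp u hu
    have h2 : |t ^ 2 * χ u| ≤ X * t ^ 2 := by
      rw [abs_mul, abs_of_nonneg (sq_nonneg t), mul_comm]
      exact mul_le_mul_of_nonneg_right (hX u hu) (sq_nonneg _)
    have h3 := abs_add_le (φ t u - t * psi K g u - t ^ 2 * χ u) (t ^ 2 * χ u)
    rw [sub_add_cancel] at h3
    calc _ ≤ _ := h3
      _ ≤ 1 * t ^ 2 + X * t ^ 2 := add_le_add h1 h2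
      _ = C₁ * t ^ 2 := by rw [hC₁]; ring
  intro x ν hx0 hν hx
  obtain ⟨hup, u, hu, hlow⟩ := lrat_bounds hn hK hC hadm hx0 hν hx
  have hν0 := ne0 hν
  have hKν := hK.supportFn_pos hν0
  have hupν : lrat K (φ t) x ≤ φ t ν := by
    have h1 := hup ν (by rw [(hC.hom1 hK).euler hν0]; exact hKν)
    rw [(hC.hom1 hK).euler hν0, sub_self, zero_div, add_zero] at h1
    exact h1
  have hdist : ‖u - ν‖ ≤ M₀ * |t| :=
    key_attained hK hc0 hb hL0.le hC₁0.le hc (fun u hu => (hbd u hu).2) hL hφ hν hu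
      (hlow.trans hupν)
  have ht0 := abs_nonneg t
  have ht2 := sq_nonneg t
  constructor
  · rw [abs_le]
    constructor
    · -- lower bound
      have h1 : 0 ≤ (supportFn K u - fderiv ℝ (supportFn K) ν u) / supportFn K u := by
        have hKu := hK.supportFn_pos (ne0 hu)
        apply div_nonneg _ hKu.le
        exact le_trans (by (clear * - hc0; positivity)) (hc ν u hν hu)
      have h2 := (abs_le.1 (hφ u hu)).1
      have h3 : t * (psi K g ν - psi K g u) ≤ L * M₀ * t ^ 2 := by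
        calc t * (psi K g ν - psi K g u) ≤ |t * (psi K g ν - psi K g u)| := le_abs_self _
          _ = |t| * |psi K g ν - psi K g u| := abs_mul _ _
          _ ≤ |t| * (L * ‖ν - u‖) := mul_le_mul_of_nonneg_left (hL ν u hν hu) ht0
          _ = |t| * (L * ‖u - ν‖) := by rw [norm_sub_rev]
          _ ≤ |t| * (L * (M₀ * |t|)) := by
              apply mul_le_mul_of_nonneg_left _ ht0
              exact mul_le_mul_of_nonneg_left hdist hL0.le
          _ = L * M₀ * |t| ^ 2 := by ring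
          _ = L * M₀ * t ^ 2 := by rw [sq_abs]
      linarith only [mul_nonneg (sq_nonneg (t : ℝ)) (le_of_lt (sub_pos.2 hM₀0)), h3, h2, h1, hlow]
    · have h2 := (abs_le.1 (hφ ν hν)).2
      have h3 : 0 ≤ (L * M₀ + M₀) * t ^ 2 := by (clear * - hL0 hb hc0 hX0; positivity)
      linarith only [hupν, h2, h3]
  · refine ⟨u, hu, hlow, hdist.trans ?_⟩
    apply mul_le_mul_of_nonneg_right _ ht0
    have : 0 ≤ L * M₀ + C₁ := by (clear * - hL0 hb hc0 hX0; positivity)
    linarith only [this]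

/-- all local estimates near the normal -/
theorem loc_est {K : Set (EV n)} (hK : SymConvexBody K) (hC : C2Plus K) {g χ : EV n → ℝ}
    (hg : Pt g) (hχ : Adm χ) {ν : EV n} (hν : ‖ν‖ = 1) {ε : ℝ} (hε : 0 < ε) :
    ∃ δ > 0, ∀ z : EV n, ‖z‖ < δ →
      |psi K g (ν + z) - psi K g ν - fderiv ℝ (psi K g) ν z| ≤ ε * ‖z‖ ∧
      |χ (ν + z) - χ ν| ≤ ε ∧
      |supportFn K (ν + z) - fderiv ℝ (supportFn K) ν (ν + z) -
        D2 (supportFn K) ν z z / 2| ≤ ε * ‖z‖ ^ 2 ∧
      |(supportFn K (ν + z))⁻¹ - (supportFn K ν)⁻¹| ≤ ε ∧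
      |(fderiv ℝ (supportFn K) ν (ν + z))⁻¹ - (supportFn K ν)⁻¹| ≤ ε ∧
      0 < fderiv ℝ (supportFn K) ν (ν + z) := by
  have hν0 := ne0 hν
  have hKν := hK.supportFn_pos hν0
  have hH := hC.hom1 hK
  have he1 : ∀ᶠ z in 𝓝 (0 : EV n),
      |psi K g (ν + z) - psi K g ν - fderiv ℝ (psi K g) ν z| ≤ ε * ‖z‖ := by
    have h1 := (hasFDerivAt_iff_isLittleO_nhds_zero.1 (psi_diff hK hC hg hν0)).def hε
    filter_upwards [h1] with z hz
    simpa only [Real.norm_eq_abs] using hz
  have he2 : ∀ᶠ z in 𝓝 (0 : EV n), |χ (ν + z) - χ ν| ≤ ε := by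
    have h1 : ContinuousAt χ ν := hχ.cont.continuousAt (isOpen_compl_singleton.mem_nhds hν0)
    have h2 : Tendsto (fun z : EV n => χ (ν + z)) (𝓝 0) (𝓝 (χ ν)) := by
      have h3 : Tendsto (fun z : EV n => ν + z) (𝓝 0) (𝓝 ν) := by
        have : Continuous (fun z : EV n => ν + z) := by (clear * -; fun_prop)
        simpa only [add_zero] using this.tendsto 0
      exact h1.tendsto.comp h3
    have h4 := Metric.tendsto_nhds.1 h2 ε hε
    filter_upwards [h4] with z hz
    rw [Real.dist_eq] at hz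
    exact hz.le
  obtain ⟨δ₃, hδ₃, h3⟩ := taylor2 hH hν0 hε
  have he3 : ∀ᶠ z in 𝓝 (0 : EV n), |supportFn K (ν + z) - fderiv ℝ (supportFn K) ν (ν + z) -
        D2 (supportFn K) ν z z / 2| ≤ ε * ‖z‖ ^ 2 := by
    filter_upwards [Metric.ball_mem_nhds (0 : EV n) hδ₃] with z hz
    exact h3 z (by rwa [mem_ball_zero_iff] at hz)
  have he4 : ∀ᶠ z in 𝓝 (0 : EV n), |(supportFn K (ν + z))⁻¹ - (supportFn K ν)⁻¹| ≤ ε := by
    have h2 : Tendsto (fun z : EV n => (supportFn K (ν + z))⁻¹) (𝓝 0) (𝓝 (supportFn K ν)⁻¹) := by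
      have h3 : Tendsto (fun z : EV n => supportFn K (ν + z)) (𝓝 0) (𝓝 (supportFn K ν)) := by
        have : Continuous (fun z : EV n => supportFn K (ν + z)) :=
          hK.continuous_supportFn.comp (by fun_prop)
        simpa only [add_zero] using this.tendsto 0
      exact h3.inv₀ hKν.ne'
    have h4 := Metric.tendsto_nhds.1 h2 ε hε
    filter_upwards [h4] with z hz
    rw [Real.dist_eq] at hz
    exact hz.le
  have hℓt : Tendsto (fun z : EV n => fderiv ℝ (supportFn K) ν (ν + z)) (𝓝 0)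
      (𝓝 (supportFn K ν)) := by
    have : Continuous (fun z : EV n => fderiv ℝ (supportFn K) ν (ν + z)) := by fun_prop
    have h5 := this.tendsto 0
    rw [add_zero, hH.euler hν0] at h5
    exact h5
  have he5 : ∀ᶠ z in 𝓝 (0 : EV n),
      |(fderiv ℝ (supportFn K) ν (ν + z))⁻¹ - (supportFn K ν)⁻¹| ≤ ε := by
    have h4 := Metric.tendsto_nhds.1 (hℓt.inv₀ hKν.ne') ε hε
    filter_upwards [h4] with z hz
    rw [Real.dist_eq] at hz
    exact hz.le
  have he6 : ∀ᶠ z in 𝓝 (0 : EV n), 0 < fderiv ℝ (supportFn K) ν (ν + z) :=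
    hℓt.eventually_const_lt hKν
  have hall := he1.and (he2.and (he3.and (he4.and (he5.and he6))))
  obtain ⟨δ, hδ, h⟩ := Metric.eventually_nhds_iff.1 hall
  refine ⟨δ, hδ, fun z hz => h ?_⟩
  rwa [dist_zero_right]

theorem fam_tendsto (hn : 0 < n) {K : Set (EV n)} (hK : SymConvexBody K) (hC : C2Plus K)
    {g χ : EV n → ℝ} {φ : ℝ → EV n → ℝ} (hg : Pt g) (hF : Fam K g χ φ) {x ν : EV n}
    (hx0 : x ≠ 0) (hν : ‖ν‖ = 1) (hx : inner ℝ x ν = gauge K x * supportFn K ν) {q : ℝ}
    (hq1 : ∀ (z : EV n) (t : ℝ), -(t ^ 2 * q) / 2 ≤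
      t * fderiv ℝ (psi K g) ν z + D2 (supportFn K) ν z z / supportFn K ν / 2)
    (hq2 : ∃ z : EV n, fderiv ℝ (psi K g) ν z + D2 (supportFn K) ν z z / supportFn K ν / 2 =
      -q / 2) :
    Tendsto (fun t => (lrat K (φ t) x - t * psi K g ν) / t ^ 2) (𝓝[≠] 0)
      (𝓝 (χ ν - q / 2)) := by
  have hν0 := ne0 hν
  have hKν := hK.supportFn_pos hν0
  have hH := hC.hom1 hK
  obtain ⟨M, hM0, hdom⟩ := fam_dom hn hK hC hg hF
  obtain ⟨z₀, hz₀⟩ := hq2
  set B : ℝ := ‖D2 (supportFn K) ν‖ with hB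
  have hB0 : 0 ≤ B := norm_nonneg (D2 (supportFn K) ν)
  have hDb : ∀ z : EV n, |D2 (supportFn K) ν z z| ≤ B * ‖z‖ ^ 2 := by
    intro z
    have h5 := (D2 (supportFn K) ν).le_opNorm₂ z z
    rw [Real.norm_eq_abs] at h5
    calc _ ≤ _ := h5
      _ = B * ‖z‖ ^ 2 := by rw [hB]; ring
  set r : ℝ := max M ‖z₀‖ with hr
  have hr0 : 0 ≤ r := le_trans hM0.le (le_max_left _ _)
  set hi : ℝ := (supportFn K ν)⁻¹ with hhi
  have hhi0 : 0 ≤ hi := by positivity
  set N : ℝ := r + 2 + r ^ 2 * hi + (B / 2 + 1) * r ^ 2 with hN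
  have hN0 : 0 < N := by (clear * - hM0 hKν; (clear * - hM0 hKν; positivity))
  have key : ∀ η : ℝ, 0 < η → ∀ᶠ t in 𝓝[≠] (0 : ℝ),
      |(lrat K (φ t) x - t * psi K g ν) / t ^ 2 - (χ ν - q / 2)| ≤ η := by
    intro η hη
    set ε : ℝ := min 1 (η / N) with hε
    have hε0 : 0 < ε := lt_min one_pos (by (clear * - hη hM0 hKν; positivity))
    have hε1 : ε ≤ 1 := min_le_left _ _
    have hεN : ε * N ≤ η := by
      calc ε * N ≤ η / N * N := mul_le_mul_of_nonneg_right (min_le_right _ _) hN0.le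
        _ = η := by (clear * - hN0 hη; field_simp)
    obtain ⟨δ, hδ, hloc⟩ := loc_est hK hC hg hF.chi hν hε0
    have hsmall : ∀ᶠ t in 𝓝 (0 : ℝ), (r + 1) * |t| < δ := by
      have : Tendsto (fun t : ℝ => (r + 1) * |t|) (𝓝 0) (𝓝 ((r + 1) * |(0 : ℝ)|)) := by
        have hc : Continuous (fun t : ℝ => (r + 1) * |t|) := by fun_prop
        exact hc.tendsto 0
      rw [abs_zero, mul_zero] at this
      exact this.eventually_lt_const hδ
    have hev := (hsmall.and (hdom.and (hF.adm.and (hF.exp ε hε0)))).filter_mono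
      (nhdsWithin_le_nhds (s := {(0 : ℝ)}ᶜ))
    filter_upwards [hev, self_mem_nhdsWithin] with t ht ht0
    obtain ⟨hts, htdom, hadm, hexp⟩ := ht
    have ht0' : t ≠ 0 := ht0
    have ht2 : 0 < t ^ 2 := by (clear * - ht0'; positivity)
    have hta := abs_nonneg t
    -- expansion on all nonzero vectors
    have hexp' : ∀ v : EV n, v ≠ 0 → |φ t v - t * psi K g v - t ^ 2 * χ v| ≤ ε * t ^ 2 := by
      intro v hv
      have hvn : 0 < ‖v‖ := norm_pos_iff.2 hv
      have h1 : ‖‖v‖⁻¹ • v‖ = 1 := by rw [norm_smul, norm_inv, norm_norm]; field_simp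
      have h2 := hexp _ h1
      rw [hadm.hom _ (inv_pos.2 hvn), (psi_adm hK hg).hom _ (inv_pos.2 hvn),
        hF.chi.hom _ (inv_pos.2 hvn)] at h2
      exact h2
    obtain ⟨_, u, hu, hlow, hdist⟩ := htdom x ν hx0 hν hx
    obtain ⟨hup, _⟩ := lrat_bounds hn hK hC hadm hx0 hν hx
    -- upper bound
    have hU : lrat K (φ t) x - t * psi K g ν ≤ t ^ 2 * (χ ν - q / 2) + ε * N * t ^ 2 := by
      set z : EV n := t • z₀ with hz
      have hzn : ‖z‖ ≤ r * |t| := by
        rw [hz, norm_smul, Real.norm_eq_abs, mul_comm]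
        exact mul_le_mul_of_nonneg_right (le_max_right _ _) hta
      have hzδ : ‖z‖ < δ := by
        refine lt_of_le_of_lt hzn ?_
        nlinarith only [hts, hta]
      obtain ⟨l1, l2, l3, l4, l5, l6⟩ := hloc z hzδ
      have hv0 : ν + z ≠ 0 := by
        intro h; rw [h] at l6; simp only [map_zero, lt_self_iff_false] at l6
      have h1 := hup (ν + z) l6
      have h2 := core_est (t := t) (zn := ‖z‖) hε0 hε1 (norm_nonneg z) hzn hhi0 hB0 (hDb z)
        (hexp' _ hv0) l1 l2 l3 l5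
      have h3 : t * fderiv ℝ (psi K g) ν z + D2 (supportFn K) ν z z / 2 * hi =
          -(t ^ 2 * q) / 2 := by
        rw [hz, map_smul]
        have h4 : D2 (supportFn K) ν (t • z₀) (t • z₀) =
            t ^ 2 * D2 (supportFn K) ν z₀ z₀ := by
          simp; ring
        rw [h4, smul_eq_mul]
        calc t * (t * fderiv ℝ (psi K g) ν z₀) + t ^ 2 * D2 (supportFn K) ν z₀ z₀ / 2 * hi =
            t ^ 2 * (fderiv ℝ (psi K g) ν z₀ +
              D2 (supportFn K) ν z₀ z₀ / supportFn K ν / 2) := by rw [hhi]; ring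
          _ = _ := by rw [hz₀]; ring
      have h5 := (abs_le.1 h2).2
      rw [← hN] at h5
      rw [div_eq_mul_inv] at h1
      linarith only [h5, h3, h1]
    -- lower bound
    have hL : t ^ 2 * (χ ν - q / 2) - ε * N * t ^ 2 ≤ lrat K (φ t) x - t * psi K g ν := by
      set z : EV n := u - ν with hz
      have hzn : ‖z‖ ≤ r * |t| :=
        hdist.trans (mul_le_mul_of_nonneg_right (le_max_left _ _) hta)
      have hzδ : ‖z‖ < δ := by
        refine lt_of_le_of_lt hzn ?_
        nlinarith only [hts, hta]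
      obtain ⟨l1, l2, l3, l4, l5, l6⟩ := hloc z hzδ
      have hνz : ν + z = u := by rw [hz]; abel
      have h2 := core_est (t := t) (zn := ‖z‖) hε0 hε1 (norm_nonneg z) hzn hhi0 hB0 (hDb z)
        (hexp' (ν + z) (by rw [hνz]; exact ne0 hu)) l1 l2 l3 l4
      have h3 := hq1 z t
      have h5 := (abs_le.1 h2).1
      rw [hνz, ← hN] at h5
      rw [div_eq_mul_inv] at hlow
      have h6 : D2 (supportFn K) ν z z / 2 * hi =
          D2 (supportFn K) ν z z / supportFn K ν / 2 := by rw [hhi]; ring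
      linarith only [hlow, h3, h5, h6]
    have hL' : (χ ν - q / 2) - ε * N ≤ (lrat K (φ t) x - t * psi K g ν) / t ^ 2 := by
      rw [le_div_iff₀ ht2]; linarith only [hL]
    have hU' : (lrat K (φ t) x - t * psi K g ν) / t ^ 2 ≤ (χ ν - q / 2) + ε * N := by
      rw [div_le_iff₀ ht2]; linarith only [hU]
    rw [abs_le]
    constructor <;> linarith only [hεN, hL', hU']
  rw [Metric.tendsto_nhds]
  intro η hη
  filter_upwards [key (η / 2) (by positivity)] with t ht
  rw [Real.dist_eq]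
  linarith only [hη, ht]

end Vale.Agent.P227.Loc
end

section
attribute [-instance] ProperSMul.toContinuousSMul IsTopologicalTorsor.toContinuousSMul IdemSemiring.toCanonicallyOrderedAdd IdemSemiring.toMulLeftMono IdemSemiring.toMulRightMono AddQuantale.instAddLeftMono AddQuantale.instAddRightMono Quantale.instMulLeftMono Quantale.instMulRightMono FiniteDimensional.rclike_to_real IsScalarTower.complexToReal FiniteDimensional.complexToReal

open MeasureTheory Set Metric Filter Topology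
open scoped ENNReal

namespace Vale.Agent.P227.Loc

variable {n : ℕ}

/-- real-variable lemma: second order expansion of the exponential along a family -/
theorem exp_tendsto {R : ℝ → ℝ} {a : ℝ} (h : Tendsto (fun t => R t / t) (𝓝[≠] 0) (𝓝 a)) :
    Tendsto (fun t => (Real.exp (R t) - 1 - R t) / t ^ 2) (𝓝[≠] 0) (𝓝 (a ^ 2 / 2)) := by
  have ht : Tendsto (fun t : ℝ => t) (𝓝[≠] 0) (𝓝 0) := tendsto_nhdsWithin_of_tendsto_nhds tendsto_id
  have hR : Tendsto R (𝓝[≠] 0) (𝓝 0) := by
    have h1 := h.mul ht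
    rw [mul_zero] at h1
    refine h1.congr' ?_
    filter_upwards [self_mem_nhdsWithin] with t ht0
    have : t ≠ 0 := ht0
    field_simp
  have hsq : Tendsto (fun t => (R t / t) ^ 2 / 2) (𝓝[≠] 0) (𝓝 (a ^ 2 / 2)) :=
    (h.pow 2).div_const 2
  have herr : Tendsto (fun t => (Real.exp (R t) - 1 - R t) / t ^ 2 - (R t / t) ^ 2 / 2)
      (𝓝[≠] 0) (𝓝 0) := by
    have hb : Tendsto (fun t => |R t| * (R t / t) ^ 2) (𝓝[≠] 0) (𝓝 0) := by
      have := hR.abs.mul (h.pow 2)
      rwa [abs_zero, zero_mul] at this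
    apply squeeze_zero_norm' _ hb
    have hsm : ∀ᶠ t in 𝓝[≠] (0 : ℝ), |R t| < 1 := by
      have := hR.abs
      rw [abs_zero] at this
      exact this.eventually_lt_const one_pos
    filter_upwards [hsm, self_mem_nhdsWithin] with t ht1 ht0
    have ht0' : t ≠ 0 := ht0
    have h2 := Real.exp_bound ht1.le (n := 3) (by norm_num)
    simp only [Finset.sum_range_succ, Finset.sum_range_zero] at h2
    norm_num [Nat.factorial] at h2
    have e : (Real.exp (R t) - 1 - R t) / t ^ 2 - (R t / t) ^ 2 / 2 =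
        (Real.exp (R t) - (1 + R t + R t ^ 2 / 2)) / t ^ 2 := by
      field_simp
      ring
    rw [e, Real.norm_eq_abs, abs_div, abs_of_pos (show 0 < t ^ 2 by positivity),
      div_le_iff₀ (by positivity)]
    have e2 : |R t| * (R t / t) ^ 2 * t ^ 2 = |R t| ^ 3 := by
      have : |R t| ^ 3 = |R t| * |R t| ^ 2 := by ring
      rw [this, sq_abs]
      (clear * - ht0'; field_simp)
    rw [e2]
    have h3 : 0 ≤ |R t| ^ 3 := by (clear * -; positivity)
    linarith only [h3, h2]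
  have := herr.add hsq
  simpa only [sub_add_cancel, zero_add] using this

/-- a choice of dual quadratic forms of the Hessians of the support function -/
def IsDual (K : Set (EV n)) (S : EV n → ((EV n →L[ℝ] ℝ) →ₗ[ℝ] EV n)) : Prop :=
  ∀ y : EV n, y ≠ 0 → ∀ p : EV n →L[ℝ] ℝ, p y = 0 →
    (∀ (z : EV n) (t : ℝ), -(t ^ 2 * p (S y p)) / 2 ≤
      t * p z + D2 (supportFn K) y z z / supportFn K y / 2) ∧
    (∃ z : EV n, p z + D2 (supportFn K) y z z / supportFn K y / 2 = -(p (S y p)) / 2)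

theorem exists_dual {K : Set (EV n)} (hK : SymConvexBody K) (hC : C2Plus K) :
    ∃ S : EV n → ((EV n →L[ℝ] ℝ) →ₗ[ℝ] EV n), IsDual K S := by
  have h : ∀ y : EV n, ∃ S : (EV n →L[ℝ] ℝ) →ₗ[ℝ] EV n, y ≠ 0 → ∀ p : EV n →L[ℝ] ℝ, p y = 0 →
      (∀ (z : EV n) (t : ℝ), -(t ^ 2 * p (S p)) / 2 ≤
        t * p z + D2 (supportFn K) y z z / supportFn K y / 2) ∧
      (∃ z : EV n, p z + D2 (supportFn K) y z z / supportFn K y / 2 = -(p (S p)) / 2) := by
    intro y
    by_cases hy : y = 0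
    · exact ⟨0, fun h => absurd hy h⟩
    · obtain ⟨S, hS⟩ := exists_S (hC.hom1 hK) (fun _ hx => hK.supportFn_pos hx) (hC.curv' hK) y hy
      exact ⟨S, fun _ => hS⟩
  choose S hS using h
  exact ⟨S, hS⟩

/-- the quadratic form `⟨A⁻¹ ∇ψ, ∇ψ⟩` at a normal -/
noncomputable def qf (K : Set (EV n)) (S : EV n → ((EV n →L[ℝ] ℝ) →ₗ[ℝ] EV n)) (g : EV n → ℝ)
    (y : EV n) : ℝ :=
  fderiv ℝ (psi K g) y (S y (fderiv ℝ (psi K g) y))

/-- volume of the perturbed body -/
noncomputable def Vol (K : Set (EV n)) (φ : EV n → ℝ) : ℝ := evol (wexp K φ)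

theorem ae_ne_zero (hn : 0 < n) (A : Set (EV n)) : ∀ᵐ x ∂(volume.restrict A), x ≠ 0 := by
  have : Nontrivial (EV n) := by
    have : 0 < Module.finrank ℝ (EV n) := by rw [finrank_euclideanSpace_fin]; exact hn
    exact Module.nontrivial_of_finrank_pos this
  apply ae_restrict_of_ae
  rw [ae_iff]
  simp

theorem finite_restrict {K : Set (EV n)} (hK : SymConvexBody K) :
    IsFiniteMeasure (volume.restrict (interior K)) := by
  refine ⟨?_⟩
  rw [Measure.restrict_apply_univ, evol_interior hK]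
  exact hK.isCompact.measure_lt_top

theorem lrat_measurable {K : Set (EV n)} (hK : SymConvexBody K) {φ : EV n → ℝ} (hφ : Adm φ) :
    Measurable (lrat K φ) := by
  have hP := wexp_scb hK hφ
  exact (Real.measurable_log.comp hK.continuous_gauge.measurable).sub
    (Real.measurable_log.comp hP.continuous_gauge.measurable)

theorem Vol_eq (hn : 0 < n) {K : Set (EV n)} (hK : SymConvexBody K) {φ : EV n → ℝ}
    (hφ : Adm φ) : Vol K φ = ∫ x in interior K, Real.exp (n * lrat K φ x) := by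
  have hP := wexp_scb hK hφ
  have h1 : Vol K φ = ∫ x in interior K, (gauge K x / gauge (wexp K φ) x) ^ n := by
    rw [Vol, evol, evol_eq_integral hn hK hP, integral_eq_lintegral_of_nonneg_ae]
    · apply Filter.Eventually.of_forall
      intro x
      exact pow_nonneg (div_nonneg (gauge_nonneg _) (gauge_nonneg _)) _
    · exact ((hK.continuous_gauge.measurable.div
        hP.continuous_gauge.measurable).pow_const _).aestronglyMeasurable
  rw [h1]
  apply integral_congr_ae
  filter_upwards [ae_ne_zero hn (interior K)] with x hx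
  have p1 := hK.gauge_pos hx
  have p2 := hP.gauge_pos hx
  rw [← Real.exp_log (div_pos p1 p2), ← Real.exp_nat_mul, Real.log_div p1.ne' p2.ne']
  rfl

theorem measurable_adm {φ : EV n → ℝ} (hφ : Adm φ) : Measurable φ :=
  measurable_of_continuousOn_compl_singleton 0 hφ.cont

/-- Second order expansion of the volume. -/
theorem vol_expansion (hn : 0 < n) {K : Set (EV n)} (hK : SymConvexBody K) (hC : C2Plus K)
    {S : EV n → ((EV n →L[ℝ] ℝ) →ₗ[ℝ] EV n)} (hS : IsDual K S) {ν : EV n → EV n}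
    (hν : IsConeNormal K ν) {g χ : EV n → ℝ} {φ : ℝ → EV n → ℝ} (hg : Pt g)
    (hF : Fam K g χ φ) :
    Tendsto (fun t => (Vol K (φ t) - evol K -
        t * (n * ∫ x in interior K, psi K g (ν x))) / t ^ 2) (𝓝[≠] 0)
      (𝓝 (∫ x in interior K, (n * (χ (ν x) - qf K S g (ν x) / 2) +
        (n : ℝ) ^ 2 / 2 * psi K g (ν x) ^ 2))) := by
  have hfin := finite_restrict hK
  set ρ : Measure (EV n) := volume.restrict (interior K) with hρ
  have hne0 : ∀ᵐ x ∂ρ, x ≠ 0 := ae_ne_zero hn _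
  have haeν : ∀ᵐ x ∂ρ, ‖ν x‖ = 1 ∧ inner ℝ x (ν x) = gauge K x * supportFn K (ν x) :=
    ae_restrict_of_ae_restrict_of_subset interior_subset hν.2
  obtain ⟨M, hM0, hdom⟩ := fam_dom hn hK hC hg hF
  obtain ⟨P, hP0, hP⟩ := (psi_adm hK hg).bound
  have hn' : (0 : ℝ) < n := by exact_mod_cast hn
  have hψm : Measurable (fun x => psi K g (ν x)) := (measurable_adm (psi_adm hK hg)).comp hν.1
  have hψi : Integrable (fun x => psi K g (ν x)) ρ := by
    apply Integrable.of_bound hψm.aestronglyMeasurable P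
    filter_upwards [haeν] with x hx
    exact hP _ hx.1
  set G : ℝ → EV n → ℝ := fun t x =>
    (Real.exp (n * lrat K (φ t) x) - 1 - t * (n * psi K g (ν x))) / t ^ 2 with hG
  -- small parameters
  set η : ℝ := min 1 (1 / (n * (P + M))) with hη
  have hPM : 0 < P + M := by (clear * - hP0 hM0; positivity)
  have hη0 : 0 < η := by positivity
  have hsmall : ∀ᶠ t in 𝓝 (0 : ℝ), |t| < η := by
    filter_upwards [Metric.ball_mem_nhds (0 : ℝ) hη0] with t ht
    rwa [mem_ball_zero_iff, Real.norm_eq_abs] at ht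
  -- pointwise bound
  have hbound : ∀ᶠ t in 𝓝[≠] (0 : ℝ), ∀ᵐ x ∂ρ,
      |n * lrat K (φ t) x| ≤ 1 ∧ ‖G t x‖ ≤ n ^ 2 * (P + M) ^ 2 + n * M := by
    have hev := (hsmall.and hdom).filter_mono (nhdsWithin_le_nhds (s := {(0 : ℝ)}ᶜ))
    filter_upwards [hev, self_mem_nhdsWithin] with t ht ht0
    obtain ⟨hts, htd⟩ := ht
    have ht0' : t ≠ 0 := ht0
    have ht2 : 0 < t ^ 2 := by (clear * - ht0'; positivity)
    have hta := abs_nonneg t
    filter_upwards [hne0, haeν] with x hx hνx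
    obtain ⟨h1, _⟩ := htd x (ν x) hx hνx.1 hνx.2
    have h2 := hP _ hνx.1
    have ht1 : |t| ≤ 1 := hts.le.trans (min_le_left _ _)
    have h3 : |lrat K (φ t) x| ≤ (P + M) * |t| := by
      have h4 := abs_add_le (lrat K (φ t) x - t * psi K g (ν x)) (t * psi K g (ν x))
      rw [sub_add_cancel] at h4
      have h5 : |t * psi K g (ν x)| ≤ P * |t| := by
        rw [abs_mul, mul_comm]; exact mul_le_mul_of_nonneg_right h2 hta
      have h6 : M * t ^ 2 ≤ M * |t| := by
        apply mul_le_mul_of_nonneg_left _ hM0.le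
        rw [← sq_abs]
        nlinarith only [hta, ht1]
      calc _ ≤ _ := h4
        _ ≤ M * |t| + P * |t| := add_le_add (h1.trans h6) h5
        _ = (P + M) * |t| := by ring
    have h7 : |n * lrat K (φ t) x| ≤ n * (P + M) * |t| := by
      rw [abs_mul, abs_of_pos hn']
      calc _ ≤ n * ((P + M) * |t|) := mul_le_mul_of_nonneg_left h3 hn'.le
        _ = _ := by ring
    have h8 : |n * lrat K (φ t) x| ≤ 1 := by
      refine h7.trans ?_
      calc n * (P + M) * |t| ≤ n * (P + M) * (1 / (n * (P + M))) := by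
            apply mul_le_mul_of_nonneg_left _ (by (clear * - hn hP0 hM0; positivity))
            exact hts.le.trans (min_le_right _ _)
        _ = 1 := by (clear * - hn hP0 hM0; field_simp)
    refine ⟨h8, ?_⟩
    have h9 := Real.abs_exp_sub_one_sub_id_le h8
    have h10 : (n * lrat K (φ t) x) ^ 2 ≤ n ^ 2 * (P + M) ^ 2 * t ^ 2 := by
      rw [← sq_abs]
      calc |n * lrat K (φ t) x| ^ 2 ≤ (n * (P + M) * |t|) ^ 2 :=
            pow_le_pow_left₀ (abs_nonneg _) h7 2
        _ = n ^ 2 * (P + M) ^ 2 * |t| ^ 2 := by ring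
        _ = _ := by rw [sq_abs]
    rw [hG]
    simp only
    rw [Real.norm_eq_abs, abs_div, abs_of_pos ht2, div_le_iff₀ ht2]
    have e : Real.exp (n * lrat K (φ t) x) - 1 - t * (n * psi K g (ν x)) =
        (Real.exp (n * lrat K (φ t) x) - 1 - n * lrat K (φ t) x) +
        n * (lrat K (φ t) x - t * psi K g (ν x)) := by ring
    rw [e]
    have h11 : |n * (lrat K (φ t) x - t * psi K g (ν x))| ≤ n * M * t ^ 2 := by
      rw [abs_mul, abs_of_pos hn']
      calc _ ≤ n * (M * t ^ 2) := mul_le_mul_of_nonneg_left h1 hn'.le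
        _ = _ := by ring
    calc _ ≤ _ := abs_add_le _ _
      _ ≤ n ^ 2 * (P + M) ^ 2 * t ^ 2 + n * M * t ^ 2 := add_le_add (h9.trans h10) h11
      _ = _ := by ring
  have hlim : Tendsto (fun t => ∫ x, G t x ∂ρ) (𝓝[≠] 0)
      (𝓝 (∫ x, (n * (χ (ν x) - qf K S g (ν x) / 2) +
        (n : ℝ) ^ 2 / 2 * psi K g (ν x) ^ 2) ∂ρ)) := by
    apply tendsto_integral_filter_of_dominated_convergence
      (fun _ => n ^ 2 * (P + M) ^ 2 + n * M)
    · filter_upwards [hF.adm.filter_mono (nhdsWithin_le_nhds (s := {(0 : ℝ)}ᶜ))] with t ht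
      apply Measurable.aestronglyMeasurable
      apply Measurable.div_const
      apply Measurable.sub
      · apply Measurable.sub _ measurable_const
        exact Real.measurable_exp.comp ((lrat_measurable hK ht).const_mul _)
      · exact (hψm.const_mul _).const_mul _
    · filter_upwards [hbound] with t ht
      filter_upwards [ht] with x hx
      exact hx.2
    · exact integrable_const _
    · filter_upwards [hne0, haeν] with x hx hνx
      have hν0 := ne0 hνx.1
      obtain ⟨hq1, hq2⟩ := hS (ν x) hν0 (fderiv ℝ (psi K g) (ν x))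
        (psi_fderiv_self hK hC hg hν0)
      have h1 := fam_tendsto hn hK hC hg hF hx hνx.1 hνx.2 (q := qf K S g (ν x)) hq1 hq2
      have h2 : Tendsto (fun t => (n * lrat K (φ t) x) / t) (𝓝[≠] 0)
          (𝓝 (n * psi K g (ν x))) := by
        have ht : Tendsto (fun t : ℝ => t) (𝓝[≠] 0) (𝓝 0) :=
          tendsto_nhdsWithin_of_tendsto_nhds tendsto_id
        have h3 := ((h1.mul ht).add_const (psi K g (ν x))).const_mul (n : ℝ)
        rw [mul_zero, zero_add] at h3
        refine h3.congr' ?_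
        filter_upwards [self_mem_nhdsWithin] with t ht0
        have : t ≠ 0 := ht0
        field_simp
        ring
      have h4 := exp_tendsto h2
      have h5 := (h1.const_mul (n : ℝ)).add h4
      have e : n * (χ (ν x) - qf K S g (ν x) / 2) + (n : ℝ) ^ 2 / 2 * psi K g (ν x) ^ 2 =
          n * (χ (ν x) - qf K S g (ν x) / 2) + (n * psi K g (ν x)) ^ 2 / 2 := by ring
      rw [e]
      refine h5.congr fun t => ?_
      rw [hG]
      simp only
      ring
  refine hlim.congr' ?_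
  have hev := hF.adm.filter_mono (nhdsWithin_le_nhds (s := {(0 : ℝ)}ᶜ))
  filter_upwards [hbound, hev] with t ht hadm
  have hei : Integrable (fun x => Real.exp (n * lrat K (φ t) x)) ρ := by
    apply Integrable.of_bound (C := Real.exp 1)
    · exact (Real.measurable_exp.comp
        ((lrat_measurable hK hadm).const_mul _)).aestronglyMeasurable
    · filter_upwards [ht] with x hx
      rw [Real.norm_eq_abs, Real.abs_exp]
      exact Real.exp_le_exp.2 (le_of_abs_le hx.1)
  have hs1 : Integrable (fun x => Real.exp (n * lrat K (φ t) x) - 1) ρ :=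
    hei.sub (integrable_const 1)
  have hs2 : Integrable (fun x => t * (n * psi K g (ν x))) ρ := (hψi.const_mul _).const_mul _
  rw [hG]
  simp only
  rw [integral_div, integral_sub hs1 hs2,
    integral_sub hei (integrable_const _), integral_const_mul, integral_const_mul,
    Vol_eq hn hK hadm]
  congr 2
  rw [integral_const, hρ]
  simp only [smul_eq_mul, mul_one]
  rw [measureReal_restrict_apply_univ, Measure.real, evol_interior hK]
  rfl

end Vale.Agent.P227.Loc
end
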