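import Mathlib
import Vale.Agent.P227.Bdl.B1
import Vale.Agent.P227.Bdl.B3
import Vale.Agent.P227.Bdl.B2

set_option linter.all false

section
attribute [-instance] ProperSMul.toContinuousSMul IsTopologicalTorsor.toContinuousSMul IdemSemiring.toCanonicallyOrderedAdd IdemSemiring.toMulLeftMono IdemSemiring.toMulRightMono AddQuantale.instAddLeftMono AddQuantale.instAddRightMono Quantale.instMulLeftMono Quantale.instMulRightMono FiniteDimensional.rclike_to_real IsScalarTower.complexToReal FiniteDimensional.complexToReal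

open MeasureTheory Set
open scoped ENNReal NNReal Pointwise Matrix

namespace Vale.Agent.P227.T1

/-- Coordinates change volume by a constant factor. -/
theorem exists_scale {n : ℕ} (T : EuclideanSpace ℝ (Fin n) ≃L[ℝ] (Fin n → ℝ)) :
    ∃ c : ℝ≥0∞, c ≠ 0 ∧ c ≠ ∞ ∧ ∀ S : Set (EuclideanSpace ℝ (Fin n)),
      volume (T '' S) = c * volume S := by
  have h1 : (Measure.map T.symm (volume : Measure (Fin n → ℝ))).IsAddHaarMeasure :=
    T.symm.isAddHaarMeasure_map _
  have h2 := Measure.isAddLeftInvariant_eq_smul (Measure.map T.symm (volume : Measure (Fin n → ℝ)))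
    (volume : Measure (EuclideanSpace ℝ (Fin n)))
  set c := Measure.addHaarScalarFactor (Measure.map T.symm (volume : Measure (Fin n → ℝ)))
    (volume : Measure (EuclideanSpace ℝ (Fin n))) with hc
  refine ⟨c, ?_, ENNReal.coe_ne_top, ?_⟩
  · have := Measure.addHaarScalarFactor_pos_of_isAddHaarMeasure
      (Measure.map T.symm (volume : Measure (Fin n → ℝ)))
      (volume : Measure (EuclideanSpace ℝ (Fin n)))
    exact_mod_cast this.ne'
  · intro S
    have h3 : volume (T '' S) = (Measure.map T.symm (volume : Measure (Fin n → ℝ))) S := by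
      have := T.symm.toHomeomorph.toMeasurableEquiv.map_apply (μ := volume) S
      rw [show (Measure.map T.symm (volume : Measure (Fin n → ℝ))) S =
        volume (T.symm ⁻¹' S) from this]
      congr 1
      exact T.image_eq_preimage_symm S
    rw [h3, h2]
    rfl

/-- Main theorem: log-Brunn-Minkowski for bodies with `n - 2` common commuting reflections. -/
theorem main {n : ℕ} (hn : 2 ≤ n) (b : Module.Basis (Fin n) ℝ (EuclideanSpace ℝ (Fin n)))
    (K L : Set (EuclideanSpace ℝ (Fin n))) (hK : SymConvexBody K) (hL : SymConvexBody L)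
    (rK : ∀ i : Fin n, (i : ℕ) + 2 < n → ∀ x ∈ K, x - (2 * b.repr x i) • b i ∈ K)
    (rL : ∀ i : Fin n, (i : ℕ) + 2 < n → ∀ x ∈ L, x - (2 * b.repr x i) • b i ∈ L)
    (t : ℝ) (ht : t ∈ Icc (0 : ℝ) 1) :
    volume K ^ (1 - t) * volume L ^ t ≤ volume (logComb t K L) := by
  have bdd : ∀ (S : Set (EuclideanSpace ℝ (Fin n))), IsCompact S → ∀ u,
      BddAbove ((fun x => inner ℝ x u) '' S) := by
    intro S hS u
    exact (hS.image (by fun_prop)).bddAbove
  rcases ht.1.eq_or_lt with h0 | h0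
  · subst h0
    rw [sub_zero, ENNReal.rpow_one, ENNReal.rpow_zero, mul_one]
    apply measure_mono
    intro x hx u _
    simp only [sub_zero, Real.rpow_one, Real.rpow_zero, mul_one]
    exact le_csSup (bdd K hK.isCompact u) ⟨x, hx, rfl⟩
  rcases ht.2.eq_or_lt with h1 | h1
  · subst h1
    rw [sub_self, ENNReal.rpow_one, ENNReal.rpow_zero, one_mul]
    apply measure_mono
    intro x hx u _
    simp only [sub_self, Real.rpow_one, Real.rpow_zero, one_mul]
    exact le_csSup (bdd L hL.isCompact u) ⟨x, hx, rfl⟩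
  obtain ⟨m, rfl⟩ : ∃ m, n = m + 2 := ⟨n - 2, by omega⟩
  set T : EuclideanSpace ℝ (Fin (m + 2)) ≃L[ℝ] (Fin (m + 2) → ℝ) :=
    b.equivFun.toContinuousLinearEquiv with hT
  have hTr : ∀ x, T x = b.repr x := fun x => rfl
  obtain ⟨c, hc0, hc1, hc⟩ := exists_scale T
  -- dual coordinates
  set v : EuclideanSpace ℝ (Fin (m + 2)) → (Fin (m + 2) → ℝ) := fun u i => inner ℝ (b i) u with hv
  have hdot : ∀ x u, (T x) ⬝ᵥ (v u) = inner ℝ x u := by
    intro x u
    have : x = ∑ i, b.repr x i • b i := (b.sum_repr x).symm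
    conv_rhs => rw [this, sum_inner]
    simp only [inner_smul_left, dotProduct, hTr, hv]
    rfl
  have hsup : ∀ (S : Set (EuclideanSpace ℝ (Fin (m + 2)))) u,
      hs (T '' S) (v u) = supportFn S u := by
    intro S u
    unfold hs supportFn
    rw [image_image]
    congr 1
    apply image_congr
    intro x _
    exact hdot x u
  have hconv : ∀ S, Convex ℝ S → Convex ℝ (T '' S) := fun S hS =>
    hS.is_linear_image (T : EuclideanSpace ℝ (Fin (m + 2)) →ₗ[ℝ] (Fin (m + 2) → ℝ)).isLinear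
  have hcomp : ∀ S, IsCompact S → IsCompact (T '' S) := fun S hS => hS.image T.continuous
  have hsym : ∀ S : Set (EuclideanSpace ℝ (Fin (m + 2))), (∀ x ∈ S, -x ∈ S) →
      ∀ y ∈ T '' S, -y ∈ T '' S := by
    rintro S hS _ ⟨x, hx, rfl⟩
    exact ⟨-x, hS x hx, by simp⟩
  have hrefl : ∀ S : Set (EuclideanSpace ℝ (Fin (m + 2))),
      (∀ i : Fin (m + 2), (i : ℕ) + 2 < m + 2 → ∀ x ∈ S, x - (2 * b.repr x i) • b i ∈ S) →
      ∀ i : Fin (m + 2), i.val < m → ∀ y ∈ T '' S, Function.update y i (-y i) ∈ T '' S := by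
    rintro S hS i hi _ ⟨x, hx, rfl⟩
    refine ⟨_, hS i (by omega) x hx, ?_⟩
    rw [map_sub, map_smul]
    funext j
    have hb : T (b i) = Pi.single i 1 := by
      funext k
      rw [hTr, b.repr_self, Finsupp.single_eq_pi_single]
    rw [hb]
    by_cases hj : j = i
    · subst hj
      simp [hTr]
      ring
    · simp [Function.update_of_ne hj, Pi.single_eq_of_ne hj]
  have key := logBM_refl h0 h1 m (T '' K) (T '' L) (hconv K hK.convex) (hconv L hL.convex)
    (hcomp K hK.isCompact) (hcomp L hL.isCompact) (hsym K hK.symm) (hsym L hL.symm)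
    (hrefl K rK) (hrefl L rL)
  have hincl : (wf fun u => hs (T '' K) u ^ (1 - t) * hs (T '' L) u ^ t) ⊆
      T '' (logComb t K L) := by
    intro y hy
    refine ⟨T.symm y, ?_, by simp⟩
    intro u _
    have := hy (v u)
    rw [← hdot, T.apply_symm_apply]
    simpa only [hsup] using this
  have key2 := le_trans key (measure_mono hincl)
  rw [hc, hc, hc, ENNReal.mul_rpow_of_nonneg _ _ (by linarith only [h1]), ENNReal.mul_rpow_of_nonneg _ _ h0.le,
    mul_mul_mul_comm, ← ENNReal.rpow_add _ _ hc0 hc1] at key2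
  simp only [sub_add_cancel, ENNReal.rpow_one] at key2
  exact (ENNReal.mul_le_mul_iff_right hc0 hc1).1 key2

end Vale.Agent.P227.T1
end

section

open MeasureTheory Set
open scoped ENNReal NNReal Pointwise Matrix

namespace Vale.Agent.P227.T1

theorem exists_basis {m : ℕ} (v w : Fin m → EuclideanSpace ℝ (Fin (m + 2)))
    (hvw : ∀ i j, inner ℝ (v i) (w j) = if i = j then (1 : ℝ) else 0) :
    ∃ b : Module.Basis (Fin (m + 2)) ℝ (EuclideanSpace ℝ (Fin (m + 2))),
      (∀ i : Fin m, b (Fin.castAdd 2 i) = v i) ∧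
      (∀ i : Fin m, ∀ x, b.repr x (Fin.castAdd 2 i) = inner ℝ x (w i)) := by
  classical
  let Φ : EuclideanSpace ℝ (Fin (m + 2)) →ₗ[ℝ] (Fin m → ℝ) :=
    LinearMap.pi fun i => (innerₛₗ ℝ (w i))
  have hΦ : ∀ x i, Φ x i = inner ℝ (w i) x := fun x i => rfl
  have hsurj : Function.Surjective Φ := by
    intro y
    refine ⟨∑ i, y i • v i, ?_⟩
    funext j
    rw [hΦ, inner_sum]
    simp only [inner_smul_right]
    rw [Finset.sum_eq_single j]
    · rw [real_inner_comm, hvw]; simp
    · intro i _ hij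
      rw [real_inner_comm, hvw, if_neg hij, mul_zero]
    · simp only [Finset.mem_univ, not_true_eq_false, mul_eq_zero, IsEmpty.forall_iff]
  have hdim : Module.finrank ℝ (LinearMap.ker Φ) = 2 := by
    have h1 := LinearMap.finrank_range_add_finrank_ker Φ
    rw [LinearMap.range_eq_top.2 hsurj, finrank_top] at h1
    simp only [Module.finrank_fintype_fun_eq_card, Fintype.card_fin, finrank_euclideanSpace, Nat.add_left_cancel_iff] at h1
    omega
  let c : Module.Basis (Fin 2) ℝ (LinearMap.ker Φ) := Module.finBasisOfFinrankEq ℝ _ hdim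
  let f : Fin (m + 2) → EuclideanSpace ℝ (Fin (m + 2)) :=
    Fin.addCases v (fun j => (c j : EuclideanSpace ℝ (Fin (m + 2))))
  have hfl : ∀ i, f (Fin.castAdd 2 i) = v i := fun i => by simp [f]
  have hfr : ∀ j, f (Fin.natAdd m j) = c j := fun j => by simp [f]
  have hck : ∀ j k, inner ℝ (w k) (c j : EuclideanSpace ℝ (Fin (m + 2))) = 0 := by
    intro j k
    have : Φ (c j : EuclideanSpace ℝ (Fin (m + 2))) = 0 := (c j).2
    rw [← hΦ, this]; rfl
  have hli : LinearIndependent ℝ f := by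
    rw [Fintype.linearIndependent_iff]
    intro g hg
    rw [Fin.sum_univ_add] at hg
    simp only [hfl, hfr] at hg
    have ha : ∀ k : Fin m, g (Fin.castAdd 2 k) = 0 := by
      intro k
      have h2 := congrArg (fun z => inner ℝ (w k) z) hg
      simp only [inner_add_right, inner_sum, inner_smul_right, inner_zero_right, hck, mul_zero,
        Finset.sum_const_zero, add_zero] at h2
      rw [Finset.sum_eq_single k] at h2
      · rw [real_inner_comm, hvw] at h2
        simpa using h2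
      · intro i _ hik
        rw [real_inner_comm, hvw, if_neg hik, mul_zero]
      · simp only [Finset.mem_univ, not_true_eq_false, mul_eq_zero, IsEmpty.forall_iff]
    simp only [ha, zero_smul, Finset.sum_const_zero, zero_add] at hg
    have hc' : ∑ j : Fin 2, g (Fin.natAdd m j) • c j = 0 := by
      apply Subtype.ext
      push_cast
      exact hg
    have hd := Fintype.linearIndependent_iff.1 c.linearIndependent _ hc'
    intro i
    refine Fin.addCases (fun i => ha i) (fun j => hd j) i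
  let b := basisOfLinearIndependentOfCardEqFinrank hli (by simp)
  have hb : ∀ i, b i = f i := fun i => by simp [b]
  refine ⟨b, fun i => by rw [hb, hfl], ?_⟩
  intro i x
  have hcoord : b.coord (Fin.castAdd 2 i) = (innerₛₗ ℝ (w i)) := by
    apply b.ext
    intro j
    rw [Module.Basis.coord_apply, Module.Basis.repr_self]
    refine Fin.addCases (fun j => ?_) (fun j => ?_) j
    · rw [hb, hfl]
      show _ = inner ℝ (w i) (v j)
      rw [real_inner_comm, hvw, Finsupp.single_apply]
      by_cases hij : j = i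
      · simp [hij]
      · rw [if_neg hij, if_neg]
        intro h
        exact hij (Fin.castAdd_injective m 2 h)
    · rw [hb, hfr]
      show _ = inner ℝ (w i) (c j : EuclideanSpace ℝ (Fin (m + 2)))
      rw [hck, Finsupp.single_apply, if_neg]
      intro h
      have := congrArg Fin.val h
      simp at this
      omega
  have := congrArg (fun φ => φ x) hcoord
  simp only [Module.Basis.coord_apply] at this
  rw [this]
  show inner ℝ (w i) x = inner ℝ x (w i)
  exact real_inner_comm _ _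

/-- Main theorem, biorthogonal form. -/
theorem main_biorth {m : ℕ} (v w : Fin m → EuclideanSpace ℝ (Fin (m + 2)))
    (hvw : ∀ i j, inner ℝ (v i) (w j) = if i = j then (1 : ℝ) else 0)
    (K L : Set (EuclideanSpace ℝ (Fin (m + 2)))) (hK : SymConvexBody K) (hL : SymConvexBody L)
    (rK : ∀ i, ∀ x ∈ K, x - (2 * inner ℝ x (w i)) • v i ∈ K)
    (rL : ∀ i, ∀ x ∈ L, x - (2 * inner ℝ x (w i)) • v i ∈ L)
    (t : ℝ) (ht : t ∈ Icc (0 : ℝ) 1) :
    volume K ^ (1 - t) * volume L ^ t ≤ volume (logComb t K L) := by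
  obtain ⟨b, hb, hr⟩ := exists_basis v w hvw
  refine main (by omega) b K L hK hL ?_ ?_ t ht
  · intro i hi x hx
    have := rK ⟨i, by omega⟩ x hx
    rw [← hb, ← hr] at this
    exact this
  · intro i hi x hx
    have := rL ⟨i, by omega⟩ x hx
    rw [← hb, ← hr] at this
    exact this

end Vale.Agent.P227.T1
end

section

/-!
# P227 / C2 : area of a rotation invariant polygon in polar coordinates
-/

open Finset Real MeasureTheory
open scoped ENNReal

namespace Vale.Agent.P227.C2
namespace AreaA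

/-- the polygon in `ℝ × ℝ` -/
def P2 (d : ℝ) (g : ℤ → ℝ) : Set (ℝ × ℝ) :=
  {p | ∀ j : ℤ, p.1 * cos (j * d) + p.2 * sin (j * d) ≤ g j}

lemma isClosed_P2 (d : ℝ) (g : ℤ → ℝ) : IsClosed (P2 d g) := by
  have : P2 d g = ⋂ j : ℤ, {p : ℝ × ℝ | p.1 * cos (j * d) + p.2 * sin (j * d) ≤ g j} := by
    ext p
    simp only [P2, Set.mem_ofPred_eq, Set.mem_iInter]
  rw [this]
  apply isClosed_iInter
  intro j
  apply isClosed_le
  · fun_prop
  · exact continuous_const

/-- half of the square of the radial function -/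
noncomputable def Psi (d : ℝ) (g : ℤ → ℝ) (θ : ℝ) : ℝ≥0∞ :=
  ∫⁻ ρ in Set.Ioi (0 : ℝ), ENNReal.ofReal ρ *
    (P2 d g).indicator (fun _ => (1 : ℝ≥0∞)) (ρ * cos θ, ρ * sin θ)

lemma vol_P2 (d : ℝ) (g : ℤ → ℝ) :
    volume (P2 d g) = ∫⁻ θ in Set.Ioo (-π) π, Psi d g θ := by
  have hm : MeasurableSet (P2 d g) := (isClosed_P2 d g).measurableSet
  rw [← lintegral_indicator_one hm, ← lintegral_comp_polarCoord_symm]
  have ht : polarCoord.target = Set.Ioi (0 : ℝ) ×ˢ Set.Ioo (-π) π := rfl
  rw [ht, Measure.volume_eq_prod, ← Measure.prod_restrict, lintegral_prod_symm]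
  · rfl
  · apply Measurable.aemeasurable
    have h1 : Measurable (fun p : ℝ × ℝ => (p.1 * cos p.2, p.1 * sin p.2)) := by fun_prop
    have h2 : Measurable (fun p : ℝ × ℝ => ENNReal.ofReal p.1) := by fun_prop
    exact h2.mul ((measurable_one.indicator hm).comp h1)

/-- integral of `ρ` on `(0, a]` -/
lemma lint_id {a : ℝ} (ha : 0 ≤ a) :
    ∫⁻ ρ in Set.Ioc (0 : ℝ) a, ENNReal.ofReal ρ = ENNReal.ofReal (a ^ 2 / 2) := by
  rw [← ofReal_integral_eq_lintegral_ofReal]
  · rw [← intervalIntegral.integral_of_le ha, integral_id]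
    congr 1
    ring
  · have : IntervalIntegrable (fun x : ℝ => x) volume 0 a := continuous_id.intervalIntegrable _ _
    exact (intervalIntegrable_iff_integrableOn_Ioc_of_le ha).1 this
  · rw [Filter.EventuallyLE, ae_restrict_iff' measurableSet_Ioc]
    exact Filter.Eventually.of_forall fun x hx => hx.1.le

/-- the radial function on the `j`-th arc -/
lemma Psi_eq {d : ℝ} {g : ℤ → ℝ} {N : ℕ} (hd0 : 0 < d) (hN : (N : ℝ) * d = π) (hN1 : 2 ≤ N)
    (hper : ∀ j, g (j + 2 * N) = g j) (hg : ∀ j, 0 < g j) (hL : ∀ j, 0 ≤ L d g j) (j : ℤ)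
    {θ : ℝ}
    (h1 : θ - j * d ≤ arctan ((g (j + 1) - cos d * g j) / sin d / g j))
    (h2 : arctan ((cos d * g j - g (j - 1)) / sin d / g j) ≤ θ - j * d) :
    Psi d g θ = ENNReal.ofReal (g j ^ 2 / 2 * (1 / cos (θ - j * d) ^ 2)) := by
  have hdpi : d < π := by
    have h1 : (2 : ℝ) ≤ N := by exact_mod_cast hN1
    nlinarith only [hd0, hN, h1]
  have hsd : 0 < sin d := sin_pos_of_pos_of_lt_pi hd0 hdpi
  set α : ℝ := θ - j * d with hα
  have hα1 : α < π / 2 := lt_of_le_of_lt h1 (arctan_lt_pi_div_two _)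
  have hα2 : -(π / 2) < α := lt_of_lt_of_le (neg_pi_div_two_lt_arctan _) h2
  have hc : 0 < cos α := cos_pos_of_mem_Ioo ⟨hα2, hα1⟩
  have hgj := hg j
  set s : ℝ := g j * tan α with hs
  have ht1 : tan α ≤ (g (j + 1) - cos d * g j) / sin d / g j := by
    rw [← tan_arctan ((g (j + 1) - cos d * g j) / sin d / g j)]
    rcases h1.lt_or_eq with h | h
    · exact (tan_lt_tan_of_lt_of_lt_pi_div_two hα2 (arctan_lt_pi_div_two _) h).le
    · rw [h]
  have ht2 : (cos d * g j - g (j - 1)) / sin d / g j ≤ tan α := by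
    rw [← tan_arctan ((cos d * g j - g (j - 1)) / sin d / g j)]
    rcases h2.lt_or_eq with h | h
    · exact (tan_lt_tan_of_lt_of_lt_pi_div_two (neg_pi_div_two_lt_arctan _) hα1 h).le
    · rw [h]
  have hs1 : s * sin d ≤ g (j + 1) - cos d * g j := by
    rw [div_div, le_div_iff₀ (by (clear * - hsd hgj; positivity))] at ht1
    rw [hs]
    linarith only [ht1]
  have hs2 : cos d * g j - g (j - 1) ≤ s * sin d := by
    rw [div_div, div_le_iff₀ (by (clear * - hsd hgj; positivity))] at ht2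
    rw [hs]
    linarith only [ht2]
  have hray := ray hd0 hN hN1 hper hL j s hs1 hs2
  have hsc : s * cos α = g j * sin α := by
    rw [hs, mul_assoc, tan_mul_cos hc.ne']
  have hmem : ∀ ρ : ℝ, 0 < ρ → ((ρ * cos θ, ρ * sin θ) ∈ P2 d g ↔ ρ ≤ g j / cos α) := by
    intro ρ hρ
    rw [le_div_iff₀ hc]
    constructor
    · intro h
      have h3 := h j
      simp only at h3
      have e : ρ * cos θ * cos (j * d) + ρ * sin θ * sin (j * d) = ρ * cos α := by
        rw [hα, cos_sub]
        ring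
      rw [e] at h3
      exact h3
    · intro h k
      simp only
      have e : ρ * cos θ * cos (k * d) + ρ * sin θ * sin (k * d) =
          (ρ * cos α / g j) * (g j * cos ((k - j) * d) + s * sin ((k - j) * d)) := by
        have e1 : ρ * cos θ * cos (k * d) + ρ * sin θ * sin (k * d) = ρ * cos (α - (k - j) * d) := by
          have : α - (k - j) * d = θ - k * d := by rw [hα]; ring
          rw [this, cos_sub]
          ring
        rw [e1, cos_sub]
        have e2 : (ρ * cos α / g j) * (g j * cos ((k - j) * d) + s * sin ((k - j) * d)) =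
            ρ * cos α * cos ((k - j) * d) + ρ / g j * (s * cos α) * sin ((k - j) * d) := by
          (clear * - hgj hc hρ; field_simp)
        rw [e2, hsc]
        (clear * - hgj hρ; field_simp)
      rw [e]
      have h4 : 0 < ρ * cos α / g j := by (clear * - hρ hc hgj; positivity)
      have h5 : ρ * cos α / g j ≤ 1 := by
        rw [div_le_one hgj]
        exact h
      have h6 := hray k
      have h7 := hg k
      calc (ρ * cos α / g j) * (g j * cos ((k - j) * d) + s * sin ((k - j) * d))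
          ≤ (ρ * cos α / g j) * g k := mul_le_mul_of_nonneg_left h6 h4.le
        _ ≤ 1 * g k := mul_le_mul_of_nonneg_right h5 h7.le
        _ = g k := one_mul _
  have ha : 0 < g j / cos α := by (clear * - hgj hc; positivity)
  have e : Psi d g θ = ∫⁻ ρ in Set.Ioc (0 : ℝ) (g j / cos α), ENNReal.ofReal ρ := by
    rw [Psi, ← lintegral_indicator measurableSet_Ioi, ← lintegral_indicator measurableSet_Ioc]
    congr 1
    funext ρ
    by_cases hρ : 0 < ρ
    · rw [Set.indicator_of_mem (show ρ ∈ Set.Ioi (0 : ℝ) from hρ)]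
      by_cases h : ρ ≤ g j / cos α
      · rw [Set.indicator_of_mem ((hmem ρ hρ).2 h),
          Set.indicator_of_mem (show ρ ∈ Set.Ioc (0 : ℝ) (g j / cos α) from ⟨hρ, h⟩), mul_one]
      · rw [Set.indicator_of_notMem (fun h' => h ((hmem ρ hρ).1 h')),
          Set.indicator_of_notMem (fun h' : ρ ∈ Set.Ioc (0 : ℝ) (g j / cos α) => h h'.2), mul_zero]
    · rw [Set.indicator_of_notMem (show ρ ∉ Set.Ioi (0 : ℝ) from hρ),
        Set.indicator_of_notMem (fun h' : ρ ∈ Set.Ioc (0 : ℝ) (g j / cos α) => hρ h'.1)]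
  rw [e, lint_id ha.le]
  congr 1
  (clear * - hc hgj; field_simp)

/-- the integral over the `j`-th arc -/
lemma piece {d : ℝ} {g : ℤ → ℝ} {N : ℕ} (hd0 : 0 < d) (hN : (N : ℝ) * d = π) (hN1 : 2 ≤ N)
    (hper : ∀ j, g (j + 2 * N) = g j) (hg : ∀ j, 0 < g j) (hL : ∀ j, 0 ≤ L d g j) (j : ℤ) :
    ∫⁻ θ in Set.Ioc (j * d + arctan ((cos d * g j - g (j - 1)) / sin d / g j))
      (j * d + arctan ((g (j + 1) - cos d * g j) / sin d / g j)), Psi d g θ =
      ENNReal.ofReal (g j * L d g j / (2 * sin d)) := by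
  have hdpi : d < π := by
    have h1 : (2 : ℝ) ≤ N := by exact_mod_cast hN1
    nlinarith only [hd0, hN, h1]
  have hsd : 0 < sin d := sin_pos_of_pos_of_lt_pi hd0 hdpi
  have hgj := hg j
  have hcong : ∫⁻ θ in Set.Ioc (j * d + arctan ((cos d * g j - g (j - 1)) / sin d / g j))
      (j * d + arctan ((g (j + 1) - cos d * g j) / sin d / g j)), Psi d g θ =
      ∫⁻ θ in Set.Ioc (j * d + arctan ((cos d * g j - g (j - 1)) / sin d / g j))
      (j * d + arctan ((g (j + 1) - cos d * g j) / sin d / g j)),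
      ENNReal.ofReal (g j ^ 2 / 2 * (1 / cos (θ - j * d) ^ 2)) := by
    apply setLIntegral_congr_fun measurableSet_Ioc
    intro θ hθ
    exact Psi_eq hd0 hN hN1 hper hg hL j (by linarith only [hθ.2]) (by linarith only [hθ.1])
  rw [hcong]
  set A := arctan ((cos d * g j - g (j - 1)) / sin d / g j) with hA
  set B := arctan ((g (j + 1) - cos d * g j) / sin d / g j) with hB
  have hAB : A ≤ B := by
    apply arctan_strictMono.monotone
    apply div_le_div_of_nonneg_right _ hgj.le
    apply div_le_div_of_nonneg_right _ hsd.le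
    have := hL j
    simp only [L] at this
    linarith only [this]
  have hcos : ∀ θ ∈ Set.Icc (j * d + A) (j * d + B), cos (θ - j * d) ≠ 0 := by
    intro θ hθ
    apply (cos_pos_of_mem_Ioo ⟨_, _⟩).ne'
    · have := neg_pi_div_two_lt_arctan ((cos d * g j - g (j - 1)) / sin d / g j)
      rw [← hA] at this
      linarith only [this, hθ.1]
    · have := arctan_lt_pi_div_two ((g (j + 1) - cos d * g j) / sin d / g j)
      rw [← hB] at this
      linarith only [this, hθ.2]
  have hcont : ContinuousOn (fun θ : ℝ => g j ^ 2 / 2 * (1 / cos (θ - j * d) ^ 2))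
      (Set.Icc (j * d + A) (j * d + B)) := by
    apply ContinuousOn.mul continuousOn_const
    apply ContinuousOn.div continuousOn_const
    · fun_prop
    · intro θ hθ
      exact pow_ne_zero 2 (hcos θ hθ)
  have hle : j * d + A ≤ j * d + B := by linarith only [hAB]
  have hint : IntervalIntegrable (fun θ : ℝ => g j ^ 2 / 2 * (1 / cos (θ - j * d) ^ 2)) volume
      (j * d + A) (j * d + B) := by
    apply ContinuousOn.intervalIntegrable
    rw [Set.uIcc_of_le hle]
    exact hcont
  rw [← ofReal_integral_eq_lintegral_ofReal]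
  · congr 1
    rw [← intervalIntegral.integral_of_le hle]
    have hder : ∀ θ ∈ Set.uIcc (j * d + A) (j * d + B),
        HasDerivAt (fun θ : ℝ => g j ^ 2 / 2 * tan (θ - j * d))
          (g j ^ 2 / 2 * (1 / cos (θ - j * d) ^ 2)) θ := by
      intro θ hθ
      rw [Set.uIcc_of_le hle] at hθ
      have h1 := (hasDerivAt_tan (hcos θ hθ)).comp_sub_const θ (j * d)
      exact h1.const_mul (g j ^ 2 / 2)
    rw [intervalIntegral.integral_eq_sub_of_hasDerivAt hder hint]
    have e1 : (j : ℝ) * d + B - j * d = B := by ring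
    have e2 : (j : ℝ) * d + A - j * d = A := by ring
    rw [e1, e2, hA, hB, tan_arctan, tan_arctan, L]
    field_simp
    ring
  · exact (intervalIntegrable_iff_integrableOn_Ioc_of_le hle).1 hint
  · exact Filter.Eventually.of_forall fun θ => by (clear * - hgj; positivity)

end AreaA
end Vale.Agent.P227.C2
end

section

/-!
# P227 / C2 : area of a rotation invariant polygon
-/

open Finset Real MeasureTheory

namespace Vale.Agent.P227.C2

namespace AreaA

open scoped ENNReal

lemma lintegral_Ioc_sum (φ : ℕ → ℝ) (hφ : Monotone φ) (F : ℝ → ℝ≥0∞) (n : ℕ) :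
    ∫⁻ θ in Set.Ioc (φ 0) (φ n), F θ = ∑ k ∈ range n, ∫⁻ θ in Set.Ioc (φ k) (φ (k + 1)), F θ := by
  induction n with
  | zero => simp only [lt_self_iff_false, not_false_eq_true, Set.Ioc_eq_empty, Measure.restrict_empty, lintegral_zero_measure, range_zero, sum_empty]
  | succ n ih =>
    rw [sum_range_succ, ← ih, ← lintegral_union measurableSet_Ioc,
      Set.Ioc_union_Ioc_eq_Ioc (hφ (Nat.zero_le n)) (hφ (Nat.le_succ n))]
    rw [Set.disjoint_left]
    intro x hx hx'
    exact absurd hx.2 (not_le.2 hx'.1)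

lemma vol_P2_eq {d : ℝ} {g : ℤ → ℝ} {N : ℕ} (hd0 : 0 < d) (hN : (N : ℝ) * d = π) (hN1 : 3 ≤ N)
    (hper : ∀ j, g (j + 2 * N) = g j) (hg : ∀ j, 0 < g j) (hL : ∀ j, 0 ≤ L d g j) :
    volume (P2 d g) =
      ∑ k ∈ range (2 * N), ENNReal.ofReal (g (k + 1) * L d g (k + 1) / (2 * sin d)) := by
  have hd2 : d < π / 2 := by
    have h1 : (3 : ℝ) ≤ N := by exact_mod_cast hN1
    nlinarith only [hd0, hN, h1]
  have hsd : 0 < sin d := sin_pos_of_pos_of_lt_pi hd0 (by linarith only [hd0, hd2])
  set φ : ℕ → ℝ := fun n =>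
    (n : ℝ) * d + arctan ((g (n + 1) - cos d * g n) / sin d / g n) with hφ
  have hlink : ∀ n : ℕ, φ n = ((n + 1 : ℤ) : ℝ) * d +
      arctan ((cos d * g (n + 1) - g (n + 1 - 1)) / sin d / g (n + 1)) := by
    intro n
    simp only [hφ]
    rw [link hd0 hd2 (hg n) (hg (n + 1))]
    have e : (n : ℤ) + 1 - 1 = n := by ring
    rw [e]
    push_cast
    ring
  have hlink2 : ∀ n : ℕ, φ (n + 1) = ((n + 1 : ℤ) : ℝ) * d +
      arctan ((g (n + 1 + 1) - cos d * g (n + 1)) / sin d / g (n + 1)) := by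
    intro n
    simp only [hφ]
    push_cast
    rfl
  have hmono : Monotone φ := by
    apply monotone_nat_of_le_succ
    intro n
    rw [hlink n, hlink2 n]
    have := hL (n + 1)
    simp only [L] at this
    have h1 : arctan ((cos d * g (n + 1) - g (n + 1 - 1)) / sin d / g (n + 1)) ≤
        arctan ((g (n + 1 + 1) - cos d * g (n + 1)) / sin d / g (n + 1)) := by
      apply arctan_strictMono.monotone
      apply div_le_div_of_nonneg_right _ (hg _).le
      apply div_le_div_of_nonneg_right _ hsd.le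
      linarith only [this]
    linarith only [h1]
  have hend : φ (2 * N) = φ 0 + 2 * π := by
    simp only [hφ]
    have e1 : g (((2 * N : ℕ) : ℤ) + 1) = g (((0 : ℕ) : ℤ) + 1) := by
      rw [← hper (((0 : ℕ) : ℤ) + 1)]
      congr 1
      push_cast
      ring
    have e2 : g ((2 * N : ℕ) : ℤ) = g ((0 : ℕ) : ℤ) := by
      rw [← hper ((0 : ℕ) : ℤ)]
      congr 1
      push_cast
      ring
    rw [e1, e2, ← hN]
    push_cast
    ring
  have hperiodic : Function.Periodic (Psi d g) (2 * π) := by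
    intro θ
    simp only [Psi]
    rw [cos_add_two_pi, sin_add_two_pi]
  rw [vol_P2]
  have e1 : ∫⁻ θ in Set.Ioo (-π) π, Psi d g θ = ∫⁻ θ in Set.Ioc (-π) (-π + 2 * π), Psi d g θ := by
    have : -π + 2 * π = π := by ring
    rw [this]
    exact setLIntegral_congr Ioo_ae_eq_Ioc
  have e2 : ∫⁻ θ in Set.Ioc (-π) (-π + 2 * π), Psi d g θ =
      ∫⁻ θ in Set.Ioc (φ 0) (φ 0 + 2 * π), Psi d g θ := by
    have : VAddInvariantMeasure (AddSubgroup.zmultiples (2 * π)) ℝ volume :=
      ⟨fun c s _ => measure_preimage_add _ _ _⟩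
    apply IsAddFundamentalDomain.setLIntegral_eq (G := AddSubgroup.zmultiples (2 * π))
    exacts [isAddFundamentalDomain_Ioc two_pi_pos _, isAddFundamentalDomain_Ioc two_pi_pos _,
      hperiodic.map_vadd_zmultiples]
  rw [e1, e2, ← hend, lintegral_Ioc_sum φ hmono]
  apply sum_congr rfl
  intro k _
  rw [← piece hd0 hN (by omega) hper hg hL (k + 1), hlink k, hlink2 k]

end AreaA

open AreaA

/-- area of a rotation invariant polygon with support numbers `f` -/
theorem area_adm {m r : ℕ} [NeZero r] (hm : 3 ≤ m) (f : ZMod (2 * r) → ℝ) (hf : ∀ j, 0 < f j)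
    (hl : ∀ j, 0 ≤ el (π / m) r f j) :
    volume (poly (π / m) r f) =
      ENNReal.ofReal (m / (2 * sin (π / m / r)) * qa (π / m) r f) := by
  have hr : 0 < r := Nat.pos_of_ne_zero (NeZero.ne r)
  have hrR : (0 : ℝ) < r := by exact_mod_cast hr
  have hmR : (0 : ℝ) < m := by
    have : 0 < m := by omega
    exact_mod_cast this
  set d : ℝ := π / m / r with hd
  set g : ℤ → ℝ := fun j => f (j : ZMod (2 * r)) with hgdef
  have hd0 : 0 < d := by (clear * - hm hr; positivity)
  have hN : ((r * m : ℕ) : ℝ) * d = π := by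
    rw [hd]
    push_cast
    (clear * - hr hm; field_simp)
  have hN1 : 3 ≤ r * m := le_trans hm (Nat.le_mul_of_pos_left m hr)
  have hper : ∀ j, g (j + 2 * ((r * m : ℕ) : ℤ)) = g j := by
    intro j
    simp only [hgdef]
    congr 1
    push_cast
    have : (2 : ZMod (2 * r)) * ((r : ZMod (2 * r)) * (m : ZMod (2 * r))) = 0 := by
      rw [← mul_assoc]
      have h2 : ((2 * r : ℕ) : ZMod (2 * r)) = 0 := ZMod.natCast_self _
      push_cast at h2
      rw [h2, zero_mul]
    rw [this, add_zero]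
  have hg : ∀ j, 0 < g j := fun j => hf _
  have hLel : ∀ j : ℤ, L d g j = el (π / m) r f (j : ZMod (2 * r)) := by
    intro j
    simp only [L, el, hgdef]
    push_cast
    rfl
  have hL : ∀ j, 0 ≤ L d g j := by
    intro j
    rw [hLel]
    exact hl _
  have hsd : 0 < sin d := by
    apply sin_pos_of_pos_of_lt_pi hd0
    have h1 : (3 : ℝ) ≤ ((r * m : ℕ) : ℝ) := by exact_mod_cast hN1
    nlinarith only [hd0, hN, h1]
  have hpoly : poly (π / m) r f = (MeasurableEquiv.finTwoArrow : (Fin 2 → ℝ) ≃ᵐ ℝ × ℝ) ⁻¹'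
      (P2 d g) := by
    ext y
    simp only [poly, Fin.isValue, Set.mem_ofPred_eq, MeasurableEquiv.finTwoArrow, MeasurableEquiv.piFinTwo_apply, P2, hd, hgdef, Set.preimage_ofPred_eq]
  rw [hpoly, (volume_preserving_finTwoArrow ℝ).measure_preimage
    (isClosed_P2 d g).measurableSet.nullMeasurableSet, vol_P2_eq hd0 hN hN1 hper hg hL]
  rw [← ENNReal.ofReal_sum_of_nonneg]
  swap
  · intro k _
    have h1 := hL (k + 1)
    have h2 := hg (k + 1)
    (clear * - h2 h1 hsd; positivity)
  congr 1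
  -- the sum over `2 r m` indices
  set G : ZMod (2 * r) → ℝ := fun x => f x * el (π / m) r f x / (2 * sin d) with hG
  have h1 : ∀ k : ℕ, g (k + 1) * L d g (k + 1) / (2 * sin d) = G ((k : ZMod (2 * r)) + 1) := by
    intro k
    rw [hLel]
    simp only [hG, hgdef]
    push_cast
    rfl
  simp_rw [h1]
  have hone : ∀ q : ℕ, ∑ k ∈ range (2 * r), G (((k + q * (2 * r) : ℕ) : ZMod (2 * r)) + 1) =
      ∑ x, G x := by
    intro q
    have h2 : ∀ k : ℕ, ((k + q * (2 * r) : ℕ) : ZMod (2 * r)) = (k : ZMod (2 * r)) := by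
      intro k
      have h2 : ((2 * r : ℕ) : ZMod (2 * r)) = 0 := ZMod.natCast_self _
      rw [Nat.cast_add, Nat.cast_mul, h2, mul_zero, add_zero]
    simp_rw [h2]
    have h3 : ∑ x, G x = ∑ x, G (x + 1) :=
      (Fintype.sum_equiv (Equiv.addRight (1 : ZMod (2 * r))) _ _ (fun x => rfl)).symm
    rw [h3]
    apply Finset.sum_bij' (fun (k : ℕ) _ => (k : ZMod (2 * r))) (fun x _ => x.val)
    · intro k _
      exact mem_univ _
    · intro x _
      exact mem_range.2 (ZMod.val_lt x)
    · intro k hk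
      exact ZMod.val_cast_of_lt (mem_range.1 hk)
    · intro x _
      exact ZMod.natCast_zmod_val x
    · intro k _
      rfl
  have hmul : ∀ q : ℕ, ∑ k ∈ range (q * (2 * r)), G ((k : ZMod (2 * r)) + 1) = q * ∑ x, G x := by
    intro q
    induction q with
    | zero => simp only [zero_mul, range_zero, sum_empty, CharP.cast_eq_zero]
    | succ q ih =>
      rw [Nat.succ_mul, sum_range_add, ih]
      have h4 := hone q
      have h5 : ∀ k : ℕ, q * (2 * r) + k = k + q * (2 * r) := fun k => Nat.add_comm _ _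
      simp_rw [h5]
      rw [h4]
      push_cast
      ring
  have e3 : 2 * (r * m) = m * (2 * r) := by ring
  rw [e3, hmul m, qa, hG, ← sum_div]
  field_simp

/-- the polygon does not change when the right hand sides are replaced by the support numbers -/
theorem poly_supp {m r : ℕ} [NeZero r] (hm : 3 ≤ m) {c f : ZMod (2 * r) → ℝ}
    (h : IsSupp (π / m) r c f) : poly (π / m) r c = poly (π / m) r f := by
  have hr : 0 < r := Nat.pos_of_ne_zero (NeZero.ne r)
  have hrR : (1 : ℝ) ≤ r := by exact_mod_cast hr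
  have hmR : (3 : ℝ) ≤ m := by exact_mod_cast hm
  have hcos : 0 < cos (π / m / r) := by
    apply cos_pos_of_mem_Ioo
    have h0 : 0 < π / m / r := by positivity
    constructor
    · linarith only [h0, pi_pos]
    · rw [div_div, div_lt_div_iff_of_pos_left pi_pos (by positivity) (by norm_num)]
      nlinarith only [hmR, hrR]
  apply Set.Subset.antisymm
  · intro y hy
    -- the support function of the orbit
    set S : ZMod (2 * r) → Set ℝ := fun x =>
      {t | ∃ j : ℤ, (j : ZMod (2 * r)) = x ∧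
        t = y 0 * cos (j * (π / m / r)) + y 1 * sin (j * (π / m / r))} with hS
    have hne : ∀ x, (S x).Nonempty := by
      intro x
      obtain ⟨j, hj⟩ := ZMod.intCast_surjective x
      exact ⟨_, j, hj, rfl⟩
    have hub : ∀ x, ∀ t ∈ S x, t ≤ c x := by
      rintro x t ⟨j, hj, rfl⟩
      rw [← hj]
      exact hy j
    have hbdd : ∀ x, BddAbove (S x) := fun x => ⟨c x, hub x⟩
    have hmem : ∀ j : ℤ, y 0 * cos (j * (π / m / r)) + y 1 * sin (j * (π / m / r)) ≤
        sSup (S (j : ZMod (2 * r))) := fun j => le_csSup (hbdd _) ⟨j, rfl, rfl⟩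
    have hle := h.max (fun x => sSup (S x)) (fun x => csSup_le (hne x) (hub x)) (by
      intro x
      simp only [el]
      have h1 : sSup (S x) ≤ (sSup (S (x + 1)) + sSup (S (x - 1))) / (2 * cos (π / m / r)) := by
        apply csSup_le (hne x)
        rintro t ⟨j, hj, rfl⟩
        rw [le_div_iff₀ (by (clear * - hcos; positivity))]
        have h2 := hmem (j + 1)
        have h3 := hmem (j - 1)
        have e1 : (((j + 1 : ℤ) : ℝ)) * (π / m / r) = j * (π / m / r) + π / m / r := by
          push_cast; ring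
        have e2 : (((j - 1 : ℤ) : ℝ)) * (π / m / r) = j * (π / m / r) - π / m / r := by
          push_cast; ring
        have e3 : ((j + 1 : ℤ) : ZMod (2 * r)) = x + 1 := by push_cast; rw [hj]
        have e4 : ((j - 1 : ℤ) : ZMod (2 * r)) = x - 1 := by push_cast; rw [hj]
        rw [e1, e3, cos_add, sin_add] at h2
        rw [e2, e4, cos_sub, sin_sub] at h3
        (clear * - h2 h3; linarith only [h3, h2])
      rw [le_div_iff₀ (by (clear * - hcos; positivity))] at h1
      linarith only [h1])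
    intro j
    exact (hmem j).trans (hle _)
  · intro y hy j
    exact (hy j).trans (h.le _)

/-- a polygon of positive area contains the origin in its interior -/
theorem pos_of_poly {m r : ℕ} [NeZero r] (hm : 3 ≤ m) {c : ZMod (2 * r) → ℝ}
    (h : volume (poly (π / m) r c) ≠ 0) (j : ZMod (2 * r)) : 0 < c j := by
  by_contra hc
  push Not at hc
  apply h
  have hr : 0 < r := Nat.pos_of_ne_zero (NeZero.ne r)
  have hrR : (0 : ℝ) < r := by exact_mod_cast hr
  have hmR : (3 : ℝ) ≤ m := by exact_mod_cast hm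
  have hm0 : (0 : ℝ) < m := by linarith only [hmR]
  obtain ⟨i, hi⟩ := ZMod.intCast_surjective j
  have hsub : poly (π / m) r c ⊆ {0} := by
    intro y hy
    set v : ℕ → ℝ := fun k =>
      y 0 * cos (i * (π / m / r) + k * (2 * (π / m))) +
      y 1 * sin (i * (π / m / r) + k * (2 * (π / m))) with hv
    have hv0 : ∀ k, v k ≤ 0 := by
      intro k
      have h1 := hy (i + k * (2 * r : ℕ))
      have e1 : ((i + k * (2 * r : ℕ) : ℤ) : ℝ) * (π / m / r) =
          i * (π / m / r) + k * (2 * (π / m)) := by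
        push_cast
        field_simp
      have e2 : ((i + k * (2 * r : ℕ) : ℤ) : ZMod (2 * r)) = j := by
        have h2 : ((2 * r : ℕ) : ZMod (2 * r)) = 0 := ZMod.natCast_self _
        rw [Int.cast_add, Int.cast_mul, Int.cast_natCast, Int.cast_natCast, h2, mul_zero,
          add_zero, hi]
      rw [e1, e2] at h1
      exact h1.trans hc
    have hrec : ∀ k, v (k + 2) = 2 * cos (2 * (π / m)) * v (k + 1) - v k := by
      intro k
      simp only [hv]
      have e1 : (i : ℝ) * (π / m / r) + ((k + 2 : ℕ) : ℝ) * (2 * (π / m)) =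
          (i * (π / m / r) + ((k + 1 : ℕ) : ℝ) * (2 * (π / m))) + 2 * (π / m) := by
        push_cast; ring
      have e2 : (i : ℝ) * (π / m / r) + (k : ℝ) * (2 * (π / m)) =
          (i * (π / m / r) + ((k + 1 : ℕ) : ℝ) * (2 * (π / m))) - 2 * (π / m) := by
        push_cast; ring
      rw [e1, e2]
      generalize (i : ℝ) * (π / m / r) + ((k + 1 : ℕ) : ℝ) * (2 * (π / m)) = A
      rw [cos_add, cos_sub, sin_add, sin_sub]
      ring
    have hperv : ∀ k, v (k + m) = v k := by
      intro k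
      simp only [hv]
      have e1 : (i : ℝ) * (π / m / r) + ((k + m : ℕ) : ℝ) * (2 * (π / m)) =
          (i * (π / m / r) + (k : ℝ) * (2 * (π / m))) + 2 * π := by
        push_cast
        field_simp
        ring
      rw [e1, cos_add_two_pi, sin_add_two_pi]
    have hshift : ∀ q : ℕ, ∑ k ∈ range m, v (k + q) = ∑ k ∈ range m, v k := by
      intro q
      induction q with
      | zero => simp
      | succ q ih =>
        rw [← ih]
        have h1 := Finset.sum_range_succ' (fun k => v (k + q)) m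
        have h2 := Finset.sum_range_succ (fun k => v (k + q)) m
        rw [h1] at h2
        have h3 : v (m + q) = v (0 + q) := by
          rw [Nat.zero_add, Nat.add_comm m q, hperv]
        simp only [h3] at h2
        have h4 : ∑ k ∈ range m, v (k + (q + 1)) = ∑ k ∈ range m, v (k + 1 + q) := by
          apply sum_congr rfl
          intro k _
          congr 1
          ring
        rw [h4]
        linarith only [h2]
    have hcos1 : cos (2 * (π / m)) < 1 := by
      have h1 : 0 < 2 * (π / m) := by positivity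
      have h2 : 2 * (π / m) ≤ π := by
        have : π / m ≤ π / 3 := div_le_div_of_nonneg_left pi_pos.le (by norm_num) hmR
        linarith only [this, h1]
      have := cos_lt_cos_of_nonneg_of_le_pi le_rfl h2 h1
      rwa [cos_zero] at this
    have hS0 : ∑ k ∈ range m, v k = 0 := by
      have h1 : ∑ k ∈ range m, v (k + 2) =
          2 * cos (2 * (π / m)) * ∑ k ∈ range m, v (k + 1) - ∑ k ∈ range m, v k := by
        rw [mul_sum, ← sum_sub_distrib]
        exact sum_congr rfl fun k _ => hrec k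
      rw [hshift 2, hshift 1] at h1
      have h2 : (2 * (1 - cos (2 * (π / m)))) * ∑ k ∈ range m, v k = 0 := by (clear * - h1; linarith)
      rcases mul_eq_zero.1 h2 with h3 | h3
      · exfalso
        linarith only [hcos1, h3]
      · exact h3
    have hall : ∀ k ∈ range m, v k = 0 := by
      intro k hk
      exact (Finset.sum_eq_zero_iff_of_nonpos (fun k _ => hv0 k)).1 hS0 k hk
    have h0 : v 0 = 0 := hall 0 (mem_range.2 (by omega))
    have h1 : v 1 = 0 := hall 1 (mem_range.2 (by omega))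
    have hsin : 0 < sin (2 * (π / m)) := by
      apply sin_pos_of_pos_of_lt_pi
      · positivity
      · have : π / m ≤ π / 3 := div_le_div_of_nonneg_left pi_pos.le (by norm_num) hmR
        linarith only [this, pi_pos]
    simp only [hv] at h0 h1
    have e0 : (i : ℝ) * (π / m / r) + ((0 : ℕ) : ℝ) * (2 * (π / m)) = i * (π / m / r) := by
      push_cast; ring
    have e1 : (i : ℝ) * (π / m / r) + ((1 : ℕ) : ℝ) * (2 * (π / m)) =
        i * (π / m / r) + 2 * (π / m) := by
      push_cast; ring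
    rw [e0] at h0
    rw [e1, cos_add, sin_add] at h1
    set A := cos (i * (π / m / r))
    set B := sin (i * (π / m / r))
    have hAB : A ^ 2 + B ^ 2 = 1 := cos_sq_add_sin_sq _
    have h2 : sin (2 * (π / m)) * (y 1 * A - y 0 * B) = 0 := by
      linear_combination h1 - cos (2 * (π / m)) * h0
    have h3 : y 1 * A - y 0 * B = 0 := by
      rcases mul_eq_zero.1 h2 with h | h
      · exact absurd h hsin.ne'
      · exact h
    have hy0 : y 0 = 0 := by
      linear_combination (-(y 0)) * hAB + A * h0 - B * h3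
    have hy1 : y 1 = 0 := by
      linear_combination (-(y 1)) * hAB + B * h0 + A * h3
    rw [Set.mem_singleton_iff]
    funext k
    fin_cases k
    · exact hy0
    · exact hy1
  exact measure_mono_null hsub (measure_singleton _)

end Vale.Agent.P227.C2
end

section
attribute [-instance] ProperSMul.toContinuousSMul IsTopologicalTorsor.toContinuousSMul IdemSemiring.toCanonicallyOrderedAdd IdemSemiring.toMulLeftMono IdemSemiring.toMulRightMono AddQuantale.instAddLeftMono AddQuantale.instAddRightMono Quantale.instMulLeftMono Quantale.instMulRightMono FiniteDimensional.rclike_to_real IsScalarTower.complexToReal FiniteDimensional.complexToReal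

/-!
# P227 / C2 : finite systems of normals in `R³` (slices and Prekopa-Leindler)
-/

open Finset Real MeasureTheory
open scoped ENNReal Pointwise

namespace Vale.Agent.P227.C2

open Vale.Agent.P227.T1 (sec volume_sec measurable_sec lintegral_even pl_mul)

theorem pol3_isClosed (b : ℝ) (r : ℕ) (V : Finset ℝ) (H : ZMod (2 * r) → ℝ → ℝ) :
    IsClosed (pol3 b r V H) := by
  have h : pol3 b r V H = ⋂ j : ℤ, ⋂ v ∈ V, {x : Fin 3 → ℝ |
      x 0 * v + x 1 * cos (j * (b / r)) + x 2 * sin (j * (b / r)) ≤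
        H (j : ZMod (2 * r)) v} := by
    ext x
    simp only [pol3, Fin.isValue, Set.mem_ofPred_eq, Set.mem_iInter]
  rw [h]
  refine isClosed_iInter fun j => isClosed_iInter fun v => isClosed_iInter fun _ => ?_
  exact isClosed_le (by fun_prop) continuous_const

theorem mem_sec_pol3 {b : ℝ} {r : ℕ} {V : Finset ℝ} {H : ZMod (2 * r) → ℝ → ℝ} {a : ℝ}
    {x : Fin 2 → ℝ} : x ∈ sec (pol3 b r V H) a ↔ ∀ j : ℤ, ∀ v ∈ V,
      a * v + x 0 * cos (j * (b / r)) + x 1 * sin (j * (b / r)) ≤ H (j : ZMod (2 * r)) v :=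
  Iff.rfl

/-- the section at height `a > 0` -/
theorem sec_pol3 {b : ℝ} {r : ℕ} {V : Finset ℝ} (hV : V.Nonempty) {H : ZMod (2 * r) → ℝ → ℝ}
    {a : ℝ} (ha : 0 < a) :
    sec (pol3 b r V H) a = a • poly b r (cm V hV fun j v => H j v / a) := by
  ext x
  rw [Set.mem_smul_set_iff_inv_smul_mem₀ ha.ne', mem_sec_pol3]
  simp only [poly, Set.mem_ofPred_eq, cm, Pi.smul_apply, smul_eq_mul, le_inf'_iff]
  refine forall_congr' fun j => forall_congr' fun v => imp_congr_right fun _ => ?_
  rw [le_sub_iff_add_le, le_div_iff₀ ha]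
  have : (a⁻¹ * x 0 * cos (j * (b / r)) + a⁻¹ * x 1 * sin (j * (b / r)) + v) * a =
      a * v + x 0 * cos (j * (b / r)) + x 1 * sin (j * (b / r)) := by
    field_simp
    ring
  rw [this]

theorem volume_sec_pol3 {b : ℝ} {r : ℕ} {V : Finset ℝ} (hV : V.Nonempty)
    {H : ZMod (2 * r) → ℝ → ℝ} {a : ℝ} (ha : 0 < a) :
    volume (sec (pol3 b r V H) a) =
      ENNReal.ofReal (a ^ 2) * volume (poly b r (cm V hV fun j v => H j v / a)) := by
  rw [sec_pol3 hV ha, Measure.addHaar_smul]
  simp only [Module.finrank_fintype_fun_eq_card, Fintype.card_fin, abs_pow, sq_abs]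

/-- `-1` symmetry of the sections -/
theorem sec_pol3_neg {m r : ℕ} [NeZero r] (hm : 3 ≤ m) (hodd : Odd m) {V : Finset ℝ}
    (hVs : ∀ v ∈ V, -v ∈ V) {H : ZMod (2 * r) → ℝ → ℝ}
    (e : ∀ j, ∀ v ∈ V, H (j + r) (-v) = H j v) (a : ℝ) :
    sec (pol3 (π / m) r V H) (-a) = -sec (pol3 (π / m) r V H) a := by
  have hr : (r : ℝ) ≠ 0 := by exact_mod_cast NeZero.ne r
  have hm0 : (m : ℝ) ≠ 0 := by
    have : m ≠ 0 := by omega
    exact_mod_cast this
  have hcast : ∀ j : ℤ, ((j + m * r : ℤ) : ZMod (2 * r)) = (j : ZMod (2 * r)) + r := by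
    intro j
    obtain ⟨k, hk⟩ := hodd
    have h2 : ((2 * r : ℕ) : ZMod (2 * r)) = 0 := ZMod.natCast_self _
    push_cast at h2 ⊢
    rw [hk]
    push_cast
    linear_combination (k : ZMod (2 * r)) * h2
  have key : ∀ (a : ℝ) (x : Fin 2 → ℝ), x ∈ sec (pol3 (π / m) r V H) a →
      -x ∈ sec (pol3 (π / m) r V H) (-a) := by
    intro a x hx
    rw [mem_sec_pol3] at hx ⊢
    intro j v hv
    have h := hx (j + m * r) (-v) (hVs v hv)
    rw [hcast, e _ v hv] at h
    have hang : ((j + m * r : ℤ) : ℝ) * (π / m / r) = j * (π / m / r) + π := by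
      push_cast
      (clear * - hr hm0; field_simp)
    rw [hang, cos_add_pi, sin_add_pi] at h
    simp only [Pi.neg_apply]
    linarith only [h]
  ext x
  rw [Set.mem_neg]
  constructor
  · intro hx
    have := key _ _ hx
    rwa [neg_neg] at this
  · intro hx
    have := key _ _ hx
    rwa [neg_neg] at this

/-- the inequality for a finite system of normals, invariant under the rotation of order `m` and
under `-1` -/
theorem slice_main {m r : ℕ} [NeZero r] (hm : 3 ≤ m) (hodd : Odd m) {V : Finset ℝ}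
    (hV : V.Nonempty) (hVs : ∀ v ∈ V, -v ∈ V) {H0 H1 : ZMod (2 * r) → ℝ → ℝ}
    (p0 : ∀ j, ∀ v ∈ V, 0 < H0 j v) (p1 : ∀ j, ∀ v ∈ V, 0 < H1 j v)
    (e0 : ∀ j, ∀ v ∈ V, H0 (j + r) (-v) = H0 j v) (e1 : ∀ j, ∀ v ∈ V, H1 (j + r) (-v) = H1 j v)
    {t : ℝ} (ht0 : 0 < t) (ht1 : t < 1) :
    volume (pol3 (π / m) r V H0) ^ (1 - t) * volume (pol3 (π / m) r V H1) ^ t ≤
      volume (pol3 (π / m) r V fun j v => H0 j v ^ (1 - t) * H1 j v ^ t) := by
  have h1t : 0 < 1 - t := by linarith only [ht1]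
  have hmr : (3 : ℝ) ≤ m := by exact_mod_cast hm
  have hr1 : (1 : ℝ) ≤ r := by exact_mod_cast NeZero.one_le
  have hb0 : 0 < π / m := div_pos pi_pos (by linarith only [hmr])
  have hb3 : π / m ≤ π / 3 := div_le_div_of_nonneg_left pi_pos.le (by norm_num) hmr
  have hs0 : 0 < sin (π / m / r) := by
    refine sin_pos_of_pos_of_lt_pi (by (clear * - hm hr1; positivity)) ?_
    have : π / m / r ≤ π / m := div_le_self hb0.le hr1
    linarith only [hb0, hb3, this]
  have hC0 : 0 < m / (2 * sin (π / m / r)) := by positivity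
  set M : ZMod (2 * r) → ℝ → ℝ := fun j v => H0 j v ^ (1 - t) * H1 j v ^ t with hM
  have eM : ∀ j, ∀ v ∈ V, M (j + r) (-v) = M j v := by
    intro j v hv
    simp only [hM, e0 j v hv, e1 j v hv]
  have m0 := (pol3_isClosed (π / m) r V H0).measurableSet
  have m1 := (pol3_isClosed (π / m) r V H1).measurableSet
  have mM := (pol3_isClosed (π / m) r V M).measurableSet
  have E0 := volume_sec m0
  have E1 := volume_sec m1
  have EM := volume_sec mM
  rw [lintegral_even (measurable_sec m0) fun a => by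
    rw [sec_pol3_neg hm hodd hVs e0, Measure.measure_neg]] at E0
  rw [lintegral_even (measurable_sec m1) fun a => by
    rw [sec_pol3_neg hm hodd hVs e1, Measure.measure_neg]] at E1
  rw [lintegral_even (measurable_sec mM) fun a => by
    rw [sec_pol3_neg hm hodd hVs eM, Measure.measure_neg]] at EM
  rw [E0, E1, EM, ENNReal.mul_rpow_of_nonneg _ _ h1t.le, ENNReal.mul_rpow_of_nonneg _ _ ht0.le]
  have h2 : (2 : ℝ≥0∞) ^ (1 - t) * 2 ^ t = 2 := by
    rw [← ENNReal.rpow_add _ _ (by norm_num) (by norm_num)]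
    simp
  rw [mul_mul_mul_comm, h2]
  gcongr
  apply pl_mul ht0 ht1 _ _ _ (measurable_sec m0) (measurable_sec m1) (measurable_sec mM)
  intro a0 a1 ha0 ha1
  have ha : 0 < a0 ^ (1 - t) * a1 ^ t := by (clear * - ha0 ha1; positivity)
  rw [volume_sec_pol3 hV ha0, volume_sec_pol3 hV ha1, volume_sec_pol3 hV ha]
  set G0 : ZMod (2 * r) → ℝ → ℝ := fun j v => H0 j v / a0 with hG0
  set G1 : ZMod (2 * r) → ℝ → ℝ := fun j v => H1 j v / a1 with hG1
  by_cases v0 : volume (poly (π / m) r (cm V hV G0)) = 0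
  · rw [v0, mul_zero, ENNReal.zero_rpow_of_pos h1t, zero_mul]
    exact zero_le
  by_cases v1 : volume (poly (π / m) r (cm V hV G1)) = 0
  · rw [v1, mul_zero, ENNReal.zero_rpow_of_pos ht0, mul_zero]
    exact zero_le
  have c0 := pos_of_poly hm v0
  have c1 := pos_of_poly hm v1
  have pG0 : ∀ j, ∀ v ∈ V, 0 < G0 j v := fun j v hv => div_pos (p0 j v hv) ha0
  have pG1 : ∀ j, ∀ v ∈ V, 0 < G1 j v := fun j v hv => div_pos (p1 j v hv) ha1
  have g0 : ∀ j, ∀ v ∈ V, v < G0 j v := by
    intro j v hv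
    have := (c0 j).trans_le (cm_le G0 j hv (hV := hV))
    linarith only [this]
  have g1 : ∀ j, ∀ v ∈ V, v < G1 j v := by
    intro j v hv
    have := (c1 j).trans_le (cm_le G1 j hv (hV := hV))
    linarith only [this]
  have hG : cm V hV (fun j v => M j v / (a0 ^ (1 - t) * a1 ^ t)) =
      cm V hV (fun j v => G0 j v ^ (1 - t) * G1 j v ^ t) := by
    apply cm_congr
    intro j v hv
    simp only [hM, hG0, hG1]
    rw [div_rpow (p0 j v hv).le ha0.le, div_rpow (p1 j v hv).le ha1.le]
    (clear * - ha1 ha0; field_simp)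
  rw [hG]
  have cG : ∀ j, 0 < cm V hV (fun j v => G0 j v ^ (1 - t) * G1 j v ^ t) j := by
    intro j
    rw [cm, lt_inf'_iff]
    intro v hv
    have q0 := pG0 j v hv
    have q1 := pG1 j v hv
    rcases le_or_gt v 0 with h | h
    · have : 0 < G0 j v ^ (1 - t) * G1 j v ^ t := by (clear * - q0 q1; positivity)
      linarith only [h, this]
    · have k0 : v ^ (1 - t) < G0 j v ^ (1 - t) := rpow_lt_rpow h.le (g0 j v hv) h1t
      have k1 : v ^ t < G1 j v ^ t := rpow_lt_rpow h.le (g1 j v hv) ht0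
      have k2 : v ^ (1 - t) * v ^ t = v := by
        rw [← rpow_add h]
        simp
      have k3 : v ^ (1 - t) * v ^ t < G0 j v ^ (1 - t) * G1 j v ^ t :=
        mul_lt_mul'' k0 k1 (by (clear * - h; positivity)) (by (clear * - h; positivity))
      linarith only [k2, k3]
  obtain ⟨f0, s0, f0p⟩ := exists_supp hb0 hb3 _ c0
  obtain ⟨f1, s1, f1p⟩ := exists_supp hb0 hb3 _ c1
  obtain ⟨f, s, fp⟩ := exists_supp hb0 hb3 _ cG
  have eG0 : ∀ j, ∀ v ∈ V, G0 (j + r) (-v) = G0 j v := by
    intro j v hv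
    simp only [hG0, e0 j v hv]
  have eG1 : ∀ j, ∀ v ∈ V, G1 (j + r) (-v) = G1 j v := by
    intro j v hv
    simp only [hG1, e1 j v hv]
  have key := seq_main hb0 hb3 hV hVs pG0 pG1 eG0 eG1 g0 g1 ht0 ht1 s0 s1 s
  rw [poly_supp hm s0, poly_supp hm s1, poly_supp hm s, area_adm hm f0 f0p s0.adm,
    area_adm hm f1 f1p s1.adm, area_adm hm f fp s.adm]
  set C : ℝ := m / (2 * sin (π / m / r)) with hC
  have q0 : 0 ≤ qa (π / m) r f0 := by
    unfold qa
    exact sum_nonneg fun j _ => mul_nonneg (f0p j).le (s0.adm j)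
  have q1 : 0 ≤ qa (π / m) r f1 := by
    unfold qa
    exact sum_nonneg fun j _ => mul_nonneg (f1p j).le (s1.adm j)
  rw [← ENNReal.ofReal_mul (by (clear * - ha0; positivity)), ← ENNReal.ofReal_mul (by (clear * - ha1; positivity)),
    ← ENNReal.ofReal_mul (by (clear * - ha0 ha1; positivity)), ENNReal.ofReal_rpow_of_nonneg (by (clear hodd hVs H1 p0 p1 e0 e1 h1t M hM eM m0 m1 mM E0 E1 EM h2 a1 ha1 ha hG0 G1 hG1 v0 v1 c0 c1 pG0 pG1 g0 g1 hG cG f1 s1 f1p f s fp eG0 eG1 key hC0 hC q1; (clear * - ha0 hm hs0 q0; positivity))) h1t.le,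
    ENNReal.ofReal_rpow_of_nonneg (by (clear hodd hVs H0 p0 p1 e0 e1 h1t M hM eM m0 m1 mM E0 E1 EM h2 a0 ha0 ha G0 hG0 hG1 v0 v1 c0 c1 pG0 pG1 g0 g1 hG cG f0 s0 f0p f s fp eG0 eG1 key hC0 hC q0; positivity)) ht0.le, ← ENNReal.ofReal_mul (by (clear hodd hVs H1 p0 p1 e0 e1 h1t M hM eM m0 m1 mM E0 E1 EM h2 a1 ha1 ha hG0 G1 hG1 v0 v1 c0 c1 pG0 pG1 g0 g1 hG cG f1 s1 f1p f s fp eG0 eG1 key hC0 hC q1; (clear * - ha0 hm hs0 q0; positivity)))]
  apply ENNReal.ofReal_le_ofReal
  have r1 : (a0 ^ 2 * (C * qa (π / m) r f0)) ^ (1 - t) =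
      (a0 ^ (1 - t)) ^ 2 * (C ^ (1 - t) * qa (π / m) r f0 ^ (1 - t)) := by
    rw [mul_rpow (by (clear * - ha0; positivity)) (by (clear hodd hVs H1 p0 p1 e0 e1 h1t M hM eM m0 m1 mM E0 E1 EM h2 a1 ha0 ha1 ha hG0 G1 hG1 v0 v1 c0 c1 pG0 pG1 g0 g1 hG cG f1 s1 f1p f s fp eG0 eG1 key hC0 hC q1; positivity)), mul_rpow hC0.le q0, ← rpow_natCast a0 2,
      ← rpow_natCast (a0 ^ (1 - t)) 2, ← rpow_mul ha0.le, ← rpow_mul ha0.le, mul_comm (1 - t)]
  have r2 : (a1 ^ 2 * (C * qa (π / m) r f1)) ^ t =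
      (a1 ^ t) ^ 2 * (C ^ t * qa (π / m) r f1 ^ t) := by
    rw [mul_rpow (by (clear * - ha1; positivity)) (by (clear hodd hVs H0 p0 p1 e0 e1 h1t M hM eM m0 m1 mM E0 E1 EM h2 a0 ha0 ha1 ha G0 hG0 hG1 v0 v1 c0 c1 pG0 pG1 g0 g1 hG cG f0 s0 f0p f s fp eG0 eG1 key hC0 hC q0 r1; positivity)), mul_rpow hC0.le q1, ← rpow_natCast a1 2,
      ← rpow_natCast (a1 ^ t) 2, ← rpow_mul ha1.le, ← rpow_mul ha1.le, mul_comm t]
  have r3 : C ^ (1 - t) * C ^ t = C := by
    rw [← rpow_add hC0]
    simp
  rw [r1, r2]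
  calc (a0 ^ (1 - t)) ^ 2 * (C ^ (1 - t) * qa (π / m) r f0 ^ (1 - t)) *
        ((a1 ^ t) ^ 2 * (C ^ t * qa (π / m) r f1 ^ t))
      = (a0 ^ (1 - t) * a1 ^ t) ^ 2 * ((C ^ (1 - t) * C ^ t) *
        (qa (π / m) r f0 ^ (1 - t) * qa (π / m) r f1 ^ t)) := by ring
    _ ≤ (a0 ^ (1 - t) * a1 ^ t) ^ 2 * (C * qa (π / m) r f) := by
        rw [r3]
        (clear hodd h1t M hM eM m0 m1 mM E0 E1 EM h2 ha hG cG f0p f1p fp hC0 hC q0 q1 r1 r2 r3; gcongr)

end Vale.Agent.P227.C2
end

section

/-!
# P227 / C2 : the system of the normals `(v, cos (j b / r), sin (j b / r))` of a body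
-/

open Finset Real MeasureTheory Filter Topology
open scoped ENNReal Matrix

namespace Vale.Agent.P227.C2

open Vale.Agent.P227.T1

/-- the direction with the height `v` and the angle `θ` -/
noncomputable def lu (v θ : ℝ) : Fin 3 → ℝ := ![v, cos θ, sin θ]

theorem lu_ne (v θ : ℝ) : lu v θ ≠ 0 := by
  intro h
  have h1 : cos θ = 0 := congrFun h 1
  have h2 : sin θ = 0 := congrFun h 2
  have h3 := sin_sq_add_cos_sq θ
  rw [h1, h2] at h3
  norm_num at h3

theorem dot_lu (x : Fin 3 → ℝ) (v θ : ℝ) :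
    x ⬝ᵥ lu v θ = x 0 * v + x 1 * cos θ + x 2 * sin θ := by
  simp only [dotProduct, lu, Fin.sum_univ_three, Fin.isValue, Matrix.cons_val_zero, Matrix.cons_val_one, Matrix.cons_val]

theorem rot_dot (θ φ v : ℝ) (x : Fin 3 → ℝ) : rot θ x ⬝ᵥ lu v (φ + θ) = x ⬝ᵥ lu v φ := by
  rw [dot_lu, dot_lu]
  have e0 : rot θ x 0 = x 0 := rfl
  have e1 : rot θ x 1 = x 1 * cos θ - x 2 * sin θ := rfl
  have e2 : rot θ x 2 = x 1 * sin θ + x 2 * cos θ := rfl
  have h1 : cos φ = cos (φ + θ) * cos θ + sin (φ + θ) * sin θ := by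
    rw [← cos_sub]
    ring_nf
  have h2 : sin φ = sin (φ + θ) * cos θ - cos (φ + θ) * sin θ := by
    rw [← sin_sub]
    ring_nf
  rw [e0, e1, e2, h1, h2]
  ring

section body

variable {K : Set (Fin 3 → ℝ)}

theorem hs_rot_le (hK : IsCompact K) (nK : K.Nonempty) {θ : ℝ} (rK : ∀ x ∈ K, rot θ x ∈ K)
    (v φ : ℝ) : hs K (lu v φ) ≤ hs K (lu v (φ + θ)) :=
  hs_le nK fun x hx => by
    rw [← rot_dot θ]
    exact le_hs hK (rK x hx) _

theorem hs_rot_eq (hK : IsCompact K) (nK : K.Nonempty) {m : ℕ} (hm : 3 ≤ m)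
    (rK : ∀ x ∈ K, rot (2 * π / m) x ∈ K) (v φ : ℝ) :
    hs K (lu v (φ + 2 * π / m)) = hs K (lu v φ) := by
  refine le_antisymm ?_ (hs_rot_le hK nK rK v φ)
  have h1 : ∀ k : ℕ, hs K (lu v (φ + 2 * π / m)) ≤ hs K (lu v (φ + (k + 1) * (2 * π / m))) := by
    intro k
    induction k with
    | zero =>
      refine le_of_eq ?_
      congr 2
      push_cast
      ring
    | succ k ih =>
      refine ih.trans ((hs_rot_le hK nK rK v _).trans (le_of_eq ?_))
      congr 2
      push_cast
      ring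
  have hm0 : (m : ℝ) ≠ 0 := by positivity
  refine (h1 (m - 1)).trans (le_of_eq ?_)
  have e : φ + (((m - 1 : ℕ) : ℝ) + 1) * (2 * π / m) = φ + 2 * π := by
    have : ((m - 1 : ℕ) : ℝ) + 1 = m := by
      rw [Nat.cast_sub (by omega)]
      push_cast
      ring
    rw [this]
    (clear * - hm0; field_simp)
  rw [e]
  unfold lu
  rw [cos_add_two_pi, sin_add_two_pi]

theorem hs_rot_nat (hK : IsCompact K) (nK : K.Nonempty) {m : ℕ} (hm : 3 ≤ m)
    (rK : ∀ x ∈ K, rot (2 * π / m) x ∈ K) (v φ : ℝ) (k : ℕ) :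
    hs K (lu v (φ + k * (2 * π / m))) = hs K (lu v φ) := by
  induction k with
  | zero => simp only [CharP.cast_eq_zero, zero_mul, add_zero]
  | succ k ih =>
    rw [← ih, ← hs_rot_eq hK nK hm rK v (φ + k * (2 * π / m))]
    congr 2
    push_cast
    ring

theorem hs_rot_int (hK : IsCompact K) (nK : K.Nonempty) {m : ℕ} (hm : 3 ≤ m)
    (rK : ∀ x ∈ K, rot (2 * π / m) x ∈ K) (v φ : ℝ) (k : ℤ) :
    hs K (lu v (φ + k * (2 * π / m))) = hs K (lu v φ) := by
  obtain ⟨n, rfl | rfl⟩ := k.eq_nat_or_neg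
  · exact_mod_cast hs_rot_nat hK nK hm rK v φ n
  · rw [← hs_rot_nat hK nK hm rK v _ n]
    congr 2
    push_cast
    ring

theorem hs_odd (hK : IsCompact K) (nK : K.Nonempty) (sK : ∀ x ∈ K, -x ∈ K) {m : ℕ}
    (hm : 3 ≤ m) (hodd : Odd m) (rK : ∀ x ∈ K, rot (2 * π / m) x ∈ K) (v φ : ℝ) :
    hs K (lu (-v) (φ + π / m)) = hs K (lu v φ) := by
  obtain ⟨k, hk⟩ := hodd
  rw [← hs_rot_nat hK nK hm rK (-v) _ k, ← hs_neg hK nK sK (lu v φ)]
  congr 1
  have hm0 : (m : ℝ) ≠ 0 := by positivity
  have hmk : (m : ℝ) = 2 * k + 1 := by exact_mod_cast hk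
  have e : φ + π / m + k * (2 * π / m) = φ + π := by
    have : π / m + k * (2 * π / m) = π * ((2 * k + 1) / m) := by ring
    rw [add_assoc, this, ← hmk, div_self hm0, mul_one]
  rw [e]
  unfold lu
  rw [cos_add_pi, sin_add_pi]
  simp

/-- the support numbers of a body -/
noncomputable def hN (K : Set (Fin 3 → ℝ)) (m r : ℕ) (j : ZMod (2 * r)) (v : ℝ) : ℝ :=
  hs K (lu v (j.val * (π / m / r)))

theorem hN_int (hK : IsCompact K) (nK : K.Nonempty) {m r : ℕ} [NeZero r] (hm : 3 ≤ m)
    (rK : ∀ x ∈ K, rot (2 * π / m) x ∈ K) (v : ℝ) (z : ℤ) :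
    hN K m r (z : ZMod (2 * r)) v = hs K (lu v (z * (π / m / r))) := by
  have hr : (r : ℝ) ≠ 0 := by exact_mod_cast NeZero.ne r
  have hm0 : (m : ℝ) ≠ 0 := by positivity
  unfold hN
  rw [← hs_rot_int hK nK hm rK v ((((z : ZMod (2 * r)).val : ℕ) : ℝ) * (π / m / r))
    (z / ((2 * r : ℕ) : ℤ))]
  congr 2
  have h1 : (((z : ZMod (2 * r)).val : ℕ) : ℤ) = z % ((2 * r : ℕ) : ℤ) := ZMod.val_intCast z
  have h2 : z % ((2 * r : ℕ) : ℤ) + ((2 * r : ℕ) : ℤ) * (z / ((2 * r : ℕ) : ℤ)) = z :=
    Int.emod_add_mul_ediv z _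
  have h3 : (((z : ZMod (2 * r)).val : ℕ) : ℝ) = z - (2 * r) * ((z / ((2 * r : ℕ) : ℤ) : ℤ) : ℝ) := by
    have h4 : (((z : ZMod (2 * r)).val : ℕ) : ℤ) = z - (2 * r) * (z / ((2 * r : ℕ) : ℤ)) := by
      rw [h1]
      push_cast at h2 ⊢
      linarith only [h2]
    exact_mod_cast h4
  rw [h3]
  field_simp
  ring

theorem hN_add (hK : IsCompact K) (nK : K.Nonempty) (sK : ∀ x ∈ K, -x ∈ K) {m r : ℕ} [NeZero r]
    (hm : 3 ≤ m) (hodd : Odd m) (rK : ∀ x ∈ K, rot (2 * π / m) x ∈ K) (v : ℝ)
    (j : ZMod (2 * r)) : hN K m r (j + r) (-v) = hN K m r j v := by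
  have hr : (r : ℝ) ≠ 0 := by exact_mod_cast NeZero.ne r
  have e1 : j = ((j.val : ℤ) : ZMod (2 * r)) := by simp
  have e2 : j + r = (((j.val : ℤ) + r : ℤ) : ZMod (2 * r)) := by
    push_cast
    simp
  have e3 : hN K m r j v = hs K (lu v (j.val * (π / m / r))) := rfl
  rw [e2, hN_int hK nK hm rK, e3, ← hs_odd hK nK sK hm hodd rK v (j.val * (π / m / r))]
  congr 2
  push_cast
  (clear * - hr hm; field_simp)

theorem hN_pos (hK : IsCompact K) (sK : ∀ x ∈ K, -x ∈ K) (vK : volume K ≠ 0) (m r : ℕ)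
    (j : ZMod (2 * r)) (v : ℝ) : 0 < hN K m r j v := hs_pos hK sK vK (lu_ne _ _)

end body

/-! ### The grids -/

/-- the heights `k / 2^N`, `|k| ≤ 4^N` -/
noncomputable def VV (N : ℕ) : Finset ℝ :=
  (Finset.Icc (-(4 ^ N : ℤ)) (4 ^ N : ℤ)).image fun k : ℤ => (k : ℝ) / 2 ^ N

theorem mem_VV {N : ℕ} {v : ℝ} : v ∈ VV N ↔ ∃ k : ℤ, |k| ≤ 4 ^ N ∧ v = k / 2 ^ N := by
  unfold VV
  simp only [Finset.mem_image, Finset.mem_Icc, abs_le]
  constructor
  · rintro ⟨k, h, rfl⟩
    exact ⟨k, h, rfl⟩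
  · rintro ⟨k, h, rfl⟩
    exact ⟨k, h, rfl⟩

theorem VV_nonempty (N : ℕ) : (VV N).Nonempty :=
  ⟨0, mem_VV.2 ⟨0, by simp only [abs_zero, Nat.ofNat_nonneg, pow_nonneg], by simp⟩⟩

theorem VV_neg {N : ℕ} {v : ℝ} (h : v ∈ VV N) : -v ∈ VV N := by
  obtain ⟨k, hk, rfl⟩ := mem_VV.1 h
  exact mem_VV.2 ⟨-k, by rwa [abs_neg], by push_cast; ring⟩

theorem VV_succ {N : ℕ} {v : ℝ} (h : v ∈ VV N) : v ∈ VV (N + 1) := by
  obtain ⟨k, hk, rfl⟩ := mem_VV.1 h
  refine mem_VV.2 ⟨2 * k, ?_, ?_⟩
  · rw [abs_mul, pow_succ]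
    have : (0 : ℤ) ≤ 4 ^ N := by positivity
    have h2 : |(2 : ℤ)| = 2 := rfl
    rw [h2]
    linarith only [hk, this]
  · push_cast
    rw [pow_succ]
    field_simp

/-- the polyhedron of the inequalities `x.u ≤ F u` for the directions of the grid -/
def PP (b : ℝ) (F : (Fin 3 → ℝ) → ℝ) (N : ℕ) : Set (Fin 3 → ℝ) :=
  {x | ∀ j : ℤ, ∀ v ∈ VV N, x ⬝ᵥ lu v (j * (b / 2 ^ N)) ≤ F (lu v (j * (b / 2 ^ N)))}

theorem PP_closed (b : ℝ) (F : (Fin 3 → ℝ) → ℝ) (N : ℕ) : IsClosed (PP b F N) := by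
  have : PP b F N = ⋂ j : ℤ, ⋂ v ∈ VV N,
      {x | x ⬝ᵥ lu v (j * (b / 2 ^ N)) ≤ F (lu v (j * (b / 2 ^ N)))} := by
    ext x
    simp only [PP, Set.mem_ofPred_eq, Set.mem_iInter]
  rw [this]
  refine isClosed_iInter fun j => isClosed_iInter fun v => isClosed_iInter fun _ => ?_
  refine isClosed_le ?_ continuous_const
  simp only [dot_lu]
  (clear * -; fun_prop)

theorem PP_anti (b : ℝ) (F : (Fin 3 → ℝ) → ℝ) : Antitone (PP b F) := by
  refine antitone_nat_of_succ_le fun N => ?_
  intro x hx j v hv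
  have h := hx (2 * j) v (VV_succ hv)
  have e : ((2 * j : ℤ) : ℝ) * (b / 2 ^ (N + 1)) = j * (b / 2 ^ N) := by
    push_cast
    rw [pow_succ]
    field_simp
  rwa [e] at h

theorem PP_bounded {m : ℕ} (hm : 3 ≤ m) (F : (Fin 3 → ℝ) → ℝ) :
    Bornology.IsBounded (PP (π / m) F 0) := by
  have hm0 : (0 : ℝ) < m := by positivity
  have hb : 0 < π / m := by positivity
  have hb1 : π / m < π := by
    rw [div_lt_iff₀ hm0]
    have : (3 : ℝ) ≤ m := by exact_mod_cast hm
    linarith only [mul_nonneg (sub_nonneg.2 this) (le_of_lt (sub_pos.2 pi_pos)), pi_pos]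
  have hs : 0 < sin (π / m) := sin_pos_of_pos_of_lt_pi hb hb1
  have h0 : (0 : ℝ) ∈ VV 0 := mem_VV.2 ⟨0, by simp only [abs_zero, pow_zero, zero_le_one], by simp⟩
  have h1 : (1 : ℝ) ∈ VV 0 := mem_VV.2 ⟨1, by simp, by simp only [Int.cast_one, pow_zero, ne_eq, one_ne_zero, not_false_eq_true, div_self]⟩
  have h2 : (-1 : ℝ) ∈ VV 0 := VV_neg h1
  set A1 := |F (lu 0 0)|
  set A2 := |F (lu 0 π)|
  set A3 := |F (lu 0 (π / m))|
  set A4 := |F (lu 0 (π / m + π))|
  set A5 := |F (lu 1 0)|
  set A6 := |F (lu (-1) 0)|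
  set R1 := A1 + A2 with hR1
  set R2 := (A3 + A4 + R1) / sin (π / m) with hR2
  set R0 := A5 + A6 + R1 with hR0
  rw [isBounded_iff_forall_norm_le]
  refine ⟨R0 + R1 + R2, fun x hx => ?_⟩
  have hA1 : 0 ≤ A1 := abs_nonneg _
  have hA2 : 0 ≤ A2 := abs_nonneg _
  have hA3 : 0 ≤ A3 := abs_nonneg _
  have hA4 : 0 ≤ A4 := abs_nonneg _
  have hA5 : 0 ≤ A5 := abs_nonneg _
  have hA6 : 0 ≤ A6 := abs_nonneg _
  have hR20 : 0 ≤ R2 := by (clear * - hs; positivity)
  have e0 : ∀ j : ℤ, (j : ℝ) * (π / m / 2 ^ 0) = j * (π / m) := fun j => by simp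
  have g1 := hx 0 0 h0
  have g2 := hx m 0 h0
  have g3 := hx 1 0 h0
  have g4 := hx (1 + m) 0 h0
  have g5 := hx 0 1 h1
  have g6 := hx 0 (-1) h2
  rw [e0] at g1 g2 g3 g4 g5 g6
  have e1 : (((m : ℕ) : ℤ) : ℝ) * (π / m) = π := by
    push_cast
    field_simp
  have e2 : ((1 + ((m : ℕ) : ℤ) : ℤ) : ℝ) * (π / m) = π / m + π := by
    push_cast
    field_simp
  rw [e1] at g2
  rw [e2] at g4
  simp only [Int.cast_zero, Int.cast_one, zero_mul, one_mul] at g1 g3 g5 g6
  have k1 := g1.trans (le_abs_self _)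
  have k2 := g2.trans (le_abs_self _)
  have k3 := g3.trans (le_abs_self _)
  have k4 := g4.trans (le_abs_self _)
  have k5 := g5.trans (le_abs_self _)
  have k6 := g6.trans (le_abs_self _)
  rw [dot_lu] at k1 k2 k3 k4 k5 k6
  rw [cos_zero, sin_zero] at k1 k5 k6
  rw [cos_pi, sin_pi] at k2
  rw [cos_add_pi, sin_add_pi] at k4
  have x1 : |x 1| ≤ R1 := by
    rw [abs_le]
    constructor <;> linarith only [hA1, k2, hA2, k1]
  have x1' := abs_le.1 x1
  have x0 : |x 0| ≤ R0 := by
    rw [abs_le]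
    constructor <;> linarith only [hA1, hA5, k2, k6, hA6, k5]
  have hc := cos_le_one (π / m)
  have hc' := neg_one_le_cos (π / m)
  have hcx : |x 1 * cos (π / m)| ≤ R1 := by
    rw [abs_mul]
    have : |cos (π / m)| ≤ 1 := abs_cos_le_one _
    nlinarith only [hA1, this, hA2, x1, abs_nonneg (cos (π / m))]
  have hcx' := abs_le.1 hcx
  have x2 : |x 2| ≤ R2 := by
    have e : |x 2| * sin (π / m) = |x 2 * sin (π / m)| := by rw [abs_mul, abs_of_pos hs]
    rw [hR2, le_div_iff₀ hs, e, abs_le]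
    constructor <;> linarith only [hA3, k4, hcx', hA4, k3]
  rw [pi_norm_le_iff_of_nonneg (by (clear * - hs; positivity))]
  intro i
  rw [Real.norm_eq_abs]
  have hR00 : 0 ≤ R0 := by (clear * -; positivity)
  have hR10 : 0 ≤ R1 := by (clear * -; positivity)
  fin_cases i
  · show |x 0| ≤ _
    linarith only [hA1, hA2, hR20, x0]
  · show |x 1| ≤ _
    linarith only [hA1, hA2, hA5, hA6, hR20, x1]
  · show |x 2| ≤ _
    linarith only [hA1, hA2, hA5, hA6, x2]

theorem fl_lim (v : ℝ) :
    Tendsto (fun N : ℕ => (⌊v * 2 ^ N⌋ : ℝ) / 2 ^ N) atTop (𝓝 v) := by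
  have h2 : Tendsto (fun N : ℕ => v - 1 / (2 : ℝ) ^ N) atTop (𝓝 v) := by
    have h1 : Tendsto (fun N : ℕ => 1 / (2 : ℝ) ^ N) atTop (𝓝 0) :=
      (tendsto_pow_atTop_atTop_of_one_lt (by norm_num)).const_div_atTop 1
    have := h1.const_sub v
    rwa [sub_zero] at this
  refine tendsto_of_tendsto_of_tendsto_of_le_of_le h2 tendsto_const_nhds (fun N => ?_) (fun N => ?_)
  · have h3 : (0 : ℝ) < 2 ^ N := by positivity
    have h4 := Int.lt_floor_add_one (v * 2 ^ N)
    show v - 1 / 2 ^ N ≤ (⌊v * 2 ^ N⌋ : ℝ) / 2 ^ N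
    rw [le_div_iff₀ h3, sub_mul, div_mul_cancel₀ _ h3.ne']
    linarith
  · have h3 : (0 : ℝ) < 2 ^ N := by positivity
    show (⌊v * 2 ^ N⌋ : ℝ) / 2 ^ N ≤ v
    rw [div_le_iff₀ h3]
    exact Int.floor_le _

/-- the polyhedra decrease to the Wulff shape -/
theorem PP_inter {b : ℝ} (hb : 0 < b) {F : (Fin 3 → ℝ) → ℝ} (hF : Continuous F)
    (hom : ∀ c : ℝ, 0 ≤ c → ∀ u, F (c • u) = c * F u) : (⋂ N, PP b F N) ⊆ wf F := by
  intro x hx
  rw [Set.mem_iInter] at hx
  have hlu : Continuous fun p : ℝ × ℝ => lu p.1 p.2 := by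
    refine continuous_pi fun i => ?_
    fin_cases i
    · exact continuous_fst
    · exact continuous_cos.comp continuous_snd
    · exact continuous_sin.comp continuous_snd
  have hdot : ∀ y : Fin 3 → ℝ, Continuous fun u : Fin 3 → ℝ => y ⬝ᵥ u := by
    intro y
    simp only [dotProduct]
    fun_prop
  -- all directions with a nonzero horizontal part
  have key : ∀ v θ : ℝ, x ⬝ᵥ lu v θ ≤ F (lu v θ) := by
    intro v θ
    have h2 : Tendsto (fun N : ℕ => (2 : ℝ) ^ N) atTop atTop :=
      tendsto_pow_atTop_atTop_of_one_lt (by norm_num)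
    have l1 := fl_lim v
    have l2 : Tendsto (fun N : ℕ => (⌊θ / b * 2 ^ N⌋ : ℝ) * (b / 2 ^ N)) atTop (𝓝 θ) := by
      have := (fl_lim (θ / b)).mul_const b
      rw [div_mul_cancel₀ _ hb.ne'] at this
      refine this.congr fun N => ?_
      ring
    have l3 : Tendsto (fun N : ℕ => lu ((⌊v * 2 ^ N⌋ : ℝ) / 2 ^ N)
        ((⌊θ / b * 2 ^ N⌋ : ℝ) * (b / 2 ^ N))) atTop (𝓝 (lu v θ)) :=
      (hlu.tendsto (v, θ)).comp (l1.prodMk_nhds l2)
    refine le_of_tendsto_of_tendsto (((hdot x).tendsto _).comp l3) ((hF.tendsto _).comp l3) ?_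
    have h3 : ∀ᶠ N : ℕ in atTop, |v| + 1 ≤ (2 : ℝ) ^ N := h2.eventually_ge_atTop _
    filter_upwards [h3] with N hN
    refine hx N _ _ (mem_VV.2 ⟨⌊v * 2 ^ N⌋, ?_, rfl⟩)
    have h4 : (|⌊v * 2 ^ N⌋| : ℝ) ≤ 4 ^ N := by
      have h5 := Int.floor_le (v * 2 ^ N)
      have h6 := Int.lt_floor_add_one (v * 2 ^ N)
      have h7 : (1 : ℝ) ≤ 2 ^ N := one_le_pow₀ (by norm_num)
      have h8 : (4 : ℝ) ^ N = 2 ^ N * 2 ^ N := by
        rw [← mul_pow]
        norm_num
      have h9 : |v * 2 ^ N| ≤ |v| * 2 ^ N := by rw [abs_mul, abs_of_pos (by positivity : (0 : ℝ) < 2 ^ N)]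
      have h10 := abs_le.1 h9
      have h11 : (|v| + 1) * 2 ^ N ≤ 2 ^ N * 2 ^ N := mul_le_mul_of_nonneg_right hN (by positivity)
      rw [h8, abs_le]
      constructor <;> linarith only [h5, h7, h10, h11, h6]
    exact_mod_cast h4
  -- directions with a nonzero horizontal part, by homogeneity
  have key2 : ∀ u : Fin 3 → ℝ, 0 < u 1 → x ⬝ᵥ u ≤ F u := by
    intro u hu
    set c := √(u 1 ^ 2 + u 2 ^ 2) with hc
    have hc0 : 0 < c := Real.sqrt_pos.2 (by (clear * - hu; positivity))
    have hc2 : c ^ 2 = u 1 ^ 2 + u 2 ^ 2 := Real.sq_sqrt (by (clear * - hu; positivity))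
    set θ := arctan (u 2 / u 1) with hθ
    have e1 : cos θ = u 1 / c := by
      rw [hθ, cos_arctan]
      have : √(1 + (u 2 / u 1) ^ 2) = c / u 1 := by
        rw [Real.sqrt_eq_iff_mul_self_eq (by (clear * -; positivity)) (by (clear * - hu; positivity))]
        field_simp
        rw [hc2]
      rw [this]
      field_simp
    have e2 : sin θ = u 2 / c := by
      rw [hθ, sin_arctan]
      have : √(1 + (u 2 / u 1) ^ 2) = c / u 1 := by
        rw [Real.sqrt_eq_iff_mul_self_eq (by (clear * -; positivity)) (by (clear * - hu; positivity))]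
        field_simp
        rw [hc2]
      rw [this]
      (clear * - hu hc0; field_simp)
    have e3 : u = c • lu (u 0 / c) θ := by
      funext i
      fin_cases i
      · show u 0 = c * (u 0 / c)
        (clear * - hc0; field_simp)
      · show u 1 = c * cos θ
        rw [e1]
        field_simp
      · show u 2 = c * sin θ
        rw [e2]
        (clear * - hc0; field_simp)
    rw [e3, hom c hc0.le, dotProduct_smul, smul_eq_mul]
    exact mul_le_mul_of_nonneg_left (key _ _) hc0.le
  have key2' : ∀ u : Fin 3 → ℝ, u 1 < 0 → x ⬝ᵥ u ≤ F u := by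
    intro u hu
    have hu' : u 1 ≠ 0 := hu.ne
    set c := √(u 1 ^ 2 + u 2 ^ 2) with hc
    have hc0 : 0 < c := Real.sqrt_pos.2 (by (clear * - hu'; positivity))
    have hc2 : c ^ 2 = u 1 ^ 2 + u 2 ^ 2 := Real.sq_sqrt (by positivity)
    set θ := arctan (u 2 / u 1) + π with hθ
    have e0 : √(1 + (u 2 / u 1) ^ 2) = c / -u 1 := by
      have : 0 < -u 1 := by linarith only [hu]
      rw [Real.sqrt_eq_iff_mul_self_eq (by (clear * -; positivity)) (by (clear * - hu' this; positivity))]
      field_simp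
      rw [hc2]
    have e1 : cos θ = u 1 / c := by
      rw [hθ, cos_add_pi, cos_arctan, e0]
      field_simp
    have e2 : sin θ = u 2 / c := by
      rw [hθ, sin_add_pi, sin_arctan, e0]
      (clear * - hu' hc0; field_simp)
    have e3 : u = c • lu (u 0 / c) θ := by
      funext i
      fin_cases i
      · show u 0 = c * (u 0 / c)
        field_simp
      · show u 1 = c * cos θ
        rw [e1]
        field_simp
      · show u 2 = c * sin θ
        rw [e2]
        (clear * - hc0; field_simp)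
    rw [e3, hom c hc0.le, dotProduct_smul, smul_eq_mul]
    exact mul_le_mul_of_nonneg_left (key _ _) hc0.le
  intro u
  rcases lt_trichotomy (u 1) 0 with hu | hu | hu
  · exact key2' u hu
  · -- a limit
    set w : ℝ → Fin 3 → ℝ := fun ε => ![u 0, ε, u 2] with hw
    have hwc : Continuous w := by
      refine continuous_pi fun i => ?_
      fin_cases i
      · exact continuous_const
      · exact continuous_id
      · exact continuous_const
    have hw0 : w 0 = u := by
      funext i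
      fin_cases i
      · rfl
      · exact hu.symm
      · rfl
    have l1 : Tendsto (fun ε => x ⬝ᵥ w ε) (𝓝[>] 0) (𝓝 (x ⬝ᵥ u)) := by
      have := ((hdot x).comp hwc).tendsto 0
      simp only [Function.comp, hw0] at this
      exact this.mono_left nhdsWithin_le_nhds
    have l2 : Tendsto (fun ε => F (w ε)) (𝓝[>] 0) (𝓝 (F u)) := by
      have := (hF.comp hwc).tendsto 0
      simp only [Function.comp, hw0] at this
      exact this.mono_left nhdsWithin_le_nhds
    refine le_of_tendsto_of_tendsto l1 l2 ?_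
    filter_upwards [self_mem_nhdsWithin] with ε hε
    exact key2 (w ε) hε
  · exact key2 u hu

end Vale.Agent.P227.C2
end

section
attribute [-instance] ProperSMul.toContinuousSMul IsTopologicalTorsor.toContinuousSMul IdemSemiring.toCanonicallyOrderedAdd IdemSemiring.toMulLeftMono IdemSemiring.toMulRightMono AddQuantale.instAddLeftMono AddQuantale.instAddRightMono Quantale.instMulLeftMono Quantale.instMulRightMono FiniteDimensional.rclike_to_real IsScalarTower.complexToReal FiniteDimensional.complexToReal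

/-!
# P227 / C2 : bodies in `R³` with a common rotation of odd order about the zeroth axis
-/

open Finset Real MeasureTheory Filter Topology
open scoped ENNReal Matrix

namespace Vale.Agent.P227.C2

open Vale.Agent.P227.T1 in
/-- log-Brunn-Minkowski for a common rotation of odd order `m ≥ 3` about the zeroth axis -/
theorem rot_main {m : ℕ} (hm : 3 ≤ m) (hodd : Odd m) {K L : Set (Fin 3 → ℝ)}
    (cK : Convex ℝ K) (cL : Convex ℝ L) (hK : IsCompact K) (hL : IsCompact L)
    (sK : ∀ x ∈ K, -x ∈ K) (sL : ∀ x ∈ L, -x ∈ L)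
    (rK : ∀ x ∈ K, rot (2 * π / m) x ∈ K) (rL : ∀ x ∈ L, rot (2 * π / m) x ∈ L)
    {t : ℝ} (ht0 : 0 < t) (ht1 : t < 1) :
    volume K ^ (1 - t) * volume L ^ t ≤ volume (wf fun u => hs K u ^ (1 - t) * hs L u ^ t) := by
  have h1t : 0 < 1 - t := by linarith
  by_cases vK : volume K = 0
  · rw [vK, ENNReal.zero_rpow_of_pos h1t, zero_mul]
    exact zero_le
  by_cases vL : volume L = 0
  · rw [vL, ENNReal.zero_rpow_of_pos ht0, mul_zero]
    exact zero_le
  have nK : K.Nonempty := by
    rw [Set.nonempty_iff_ne_empty]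
    rintro rfl
    simp at vK
  have nL : L.Nonempty := by
    rw [Set.nonempty_iff_ne_empty]
    rintro rfl
    simp at vL
  obtain ⟨hF, -, -, hom⟩ := logFn_props hK hL sK sL vK vL ht0 ht1
  set F : (Fin 3 → ℝ) → ℝ := fun u => hs K u ^ (1 - t) * hs L u ^ t with hFdef
  have hm0 : (0 : ℝ) < m := by positivity
  have hb : 0 < π / m := by positivity
  have hstep : ∀ N : ℕ, volume K ^ (1 - t) * volume L ^ t ≤ volume (PP (π / m) F N) := by
    intro N
    have : NeZero (2 ^ N) := ⟨by positivity⟩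
    have h := slice_main (m := m) (r := 2 ^ N) hm hodd (VV_nonempty N) (fun v hv => VV_neg hv)
      (H0 := hN K m (2 ^ N)) (H1 := hN L m (2 ^ N))
      (fun j v _ => hN_pos hK sK vK m (2 ^ N) j v) (fun j v _ => hN_pos hL sL vL m (2 ^ N) j v)
      (fun j v _ => by exact_mod_cast hN_add hK nK sK hm hodd rK v j)
      (fun j v _ => by exact_mod_cast hN_add hL nL sL hm hodd rL v j) ht0 ht1
    have e1 : K ⊆ pol3 (π / m) (2 ^ N) (VV N) (hN K m (2 ^ N)) := by
      intro x hx j v _
      rw [hN_int hK nK hm rK, ← dot_lu]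
      exact le_hs hK hx _
    have e2 : L ⊆ pol3 (π / m) (2 ^ N) (VV N) (hN L m (2 ^ N)) := by
      intro x hx j v _
      rw [hN_int hL nL hm rL, ← dot_lu]
      exact le_hs hL hx _
    have e3 : pol3 (π / m) (2 ^ N) (VV N)
        (fun j v => hN K m (2 ^ N) j v ^ (1 - t) * hN L m (2 ^ N) j v ^ t) ⊆
        PP (π / m) F N := by
      intro x hx j v hv
      have h1 := hx j v hv
      simp only at h1
      rw [hN_int hK nK hm rK, hN_int hL nL hm rL, ← dot_lu] at h1
      push_cast at h1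
      exact h1
    calc volume K ^ (1 - t) * volume L ^ t
        ≤ volume (pol3 (π / m) (2 ^ N) (VV N) (hN K m (2 ^ N))) ^ (1 - t) *
          volume (pol3 (π / m) (2 ^ N) (VV N) (hN L m (2 ^ N))) ^ t :=
          mul_le_mul' (ENNReal.rpow_le_rpow (measure_mono e1) h1t.le)
            (ENNReal.rpow_le_rpow (measure_mono e2) ht0.le)
      _ ≤ _ := h
      _ ≤ volume (PP (π / m) F N) := measure_mono e3
  have hlim : Tendsto (volume ∘ PP (π / m) F) atTop (𝓝 (volume (⋂ N, PP (π / m) F N))) :=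
    tendsto_measure_iInter_atTop (fun N => (PP_closed (π / m) F N).measurableSet.nullMeasurableSet)
      (PP_anti (π / m) F) ⟨0, (PP_bounded hm F).measure_lt_top.ne⟩
  have h2 : volume K ^ (1 - t) * volume L ^ t ≤ volume (⋂ N, PP (π / m) F N) :=
    ge_of_tendsto' hlim hstep
  exact h2.trans (measure_mono (PP_inter hb hF hom))

end Vale.Agent.P227.C2
end

section

/-!
# P227 / Slab : Busemann's inequality in terms of sections
-/

open MeasureTheory Set
open scoped ENNReal NNReal Pointwise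

namespace Vale.Agent.P227.Slab

open Vale.Agent.P227.T1

section

variable {m : ℕ}

theorem sec_vol_ne_top {S : Set (Fin (m + 1) → ℝ)} (hS : IsCompact S) (a : ℝ) :
    volume (sec S a) ≠ ∞ := (sec_isCompact hS a).measure_lt_top.ne

theorem sec_vol_neg {S : Set (Fin (m + 1) → ℝ)} (s : ∀ x ∈ S, -x ∈ S) (a : ℝ) :
    volume (sec S (-a)) = volume (sec S a) := by
  have key : ∀ b, sec S (-b) = -(sec S b) := by
    have h1 : ∀ b, sec S b ⊆ -(sec S (-b)) := by
      intro b x hx
      have := s _ hx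
      show (Fin.cons (-b) (-x) : Fin (m + 1) → ℝ) ∈ S
      convert this using 1
      funext i
      refine Fin.cases ?_ (fun j => ?_) i
      · simp
      · simp
    intro b
    apply Subset.antisymm
    · have := h1 (-b)
      rwa [neg_neg] at this
    · intro x hx
      have := h1 b (Set.mem_neg.1 hx)
      simpa using this
  rw [key, Measure.measure_neg]

/-- Volumes of sections of a convex set are logarithmically concave. -/
theorem sec_vol_log {S : Set (Fin (m + 1) → ℝ)} (hc : Convex ℝ S) (hS : IsCompact S)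
    {s t : ℝ} (hs : 0 < s) (ht : 0 < t) (hst : s + t = 1) (a b : ℝ) :
    volume (sec S a) ^ s * volume (sec S b) ^ t ≤ volume (sec S (s * a + t * b)) := by
  refine bm_mul hs ht hst (sec_isCompact hS a).measurableSet (sec_isCompact hS b).measurableSet
    (sec_isCompact hS _).measurableSet ?_
  intro x hx y hy
  have := hc hx hy hs.le ht.le hst
  show (Fin.cons (s * a + t * b) (s • x + t • y) : Fin (m + 1) → ℝ) ∈ S
  convert this using 1
  funext i
  refine Fin.cases ?_ (fun j => ?_) i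
  · simp
  · simp

/-- Real valued section function. -/
noncomputable def sv (S : Set (Fin (m + 1) → ℝ)) (a : ℝ) : ℝ := (volume (sec S a)).toReal

theorem sv_nonneg (S : Set (Fin (m + 1) → ℝ)) (a : ℝ) : 0 ≤ sv S a := ENNReal.toReal_nonneg

theorem sv_log {S : Set (Fin (m + 1) → ℝ)} (hc : Convex ℝ S) (hS : IsCompact S)
    {s t : ℝ} (hs : 0 < s) (ht : 0 < t) (hst : s + t = 1) (a b : ℝ) :
    sv S a ^ s * sv S b ^ t ≤ sv S (s * a + t * b) := by
  unfold sv
  rw [ENNReal.toReal_rpow, ENNReal.toReal_rpow, ← ENNReal.toReal_mul]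
  exact ENNReal.toReal_mono (sec_vol_ne_top hS _) (sec_vol_log hc hS hs ht hst a b)

theorem sv_measurable {S : Set (Fin (m + 1) → ℝ)} (hS : IsCompact S) : Measurable (sv S) :=
  (measurable_sec hS.measurableSet).ennreal_toReal

theorem lint_half {S : Set (Fin (m + 1) → ℝ)} (hS : IsCompact S) (s : ∀ x ∈ S, -x ∈ S) :
    volume S = 2 * ∫⁻ a in Ioi 0, volume (sec S a) := by
  rw [volume_sec hS.measurableSet]
  exact lintegral_even (measurable_sec hS.measurableSet) (sec_vol_neg s)

theorem lint_ne_top {S : Set (Fin (m + 1) → ℝ)} (hS : IsCompact S) (s : ∀ x ∈ S, -x ∈ S) :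
    ∫⁻ a in Ioi 0, volume (sec S a) ≠ ∞ := by
  intro h
  have := lint_half hS s
  rw [h] at this
  exact hS.measure_lt_top.ne (by rw [this]; simp)

theorem ofReal_sv {S : Set (Fin (m + 1) → ℝ)} (hS : IsCompact S) (a : ℝ) :
    ENNReal.ofReal (sv S a) = volume (sec S a) := ENNReal.ofReal_toReal (sec_vol_ne_top hS a)

theorem sv_integrable {S : Set (Fin (m + 1) → ℝ)} (hS : IsCompact S) (s : ∀ x ∈ S, -x ∈ S) :
    IntegrableOn (sv S) (Ioi 0) := by
  refine ⟨(sv_measurable hS).aestronglyMeasurable, ?_⟩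
  rw [hasFiniteIntegral_iff_ofReal (Filter.Eventually.of_forall fun a => sv_nonneg S a)]
  simp_rw [ofReal_sv hS]
  exact lt_of_le_of_ne le_top (lint_ne_top hS s)

theorem int_half {S : Set (Fin (m + 1) → ℝ)} (hS : IsCompact S) (s : ∀ x ∈ S, -x ∈ S) :
    (volume S).toReal = 2 * ∫ a in Ioi 0, sv S a := by
  have h1 : ∫ a in Ioi 0, sv S a = (∫⁻ a in Ioi 0, volume (sec S a)).toReal := by
    rw [integral_eq_lintegral_of_nonneg_ae (Filter.Eventually.of_forall fun a => sv_nonneg S a)
      (sv_measurable hS).aestronglyMeasurable]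
    simp_rw [ofReal_sv hS]
  rw [h1, lint_half hS s, ENNReal.toReal_mul]
  simp

/-- The height function of a symmetric convex body is supported on a symmetric interval. -/
theorem exists_radius {S : Set (Fin (m + 1) → ℝ)} (hc : Convex ℝ S) (hS : IsCompact S)
    (s : ∀ x ∈ S, -x ∈ S) (v : volume S ≠ 0) :
    ∃ R : ℝ, 0 < R ∧ (∀ x ∈ Ioo 0 R, 0 < sv S x) ∧ (∀ x, R < x → sv S x = 0) ∧
      ContinuousOn (sv S) (Ioo 0 R) := by
  set D : Set ℝ := {x | 0 < sv S x} with hD
  have hneg : ∀ x, sv S (-x) = sv S x := by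
    intro x
    unfold sv
    rw [sec_vol_neg s]
  have hconv : Convex ℝ D := by
    rw [convex_iff_forall_pos]
    intro x hx y hy a b ha hb hab
    have h1 : 0 < sv S x ^ a * sv S y ^ b :=
      mul_pos (Real.rpow_pos_of_pos hx a) (Real.rpow_pos_of_pos hy b)
    exact lt_of_lt_of_le h1 (by simpa using sv_log hc hS ha hb hab x y)
  have hbdd : BddAbove D := by
    obtain ⟨M, hM⟩ := hS.isBounded.exists_norm_le
    refine ⟨M, ?_⟩
    intro x hx
    have hne : (sec S x).Nonempty := by
      by_contra h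
      rw [not_nonempty_iff_eq_empty] at h
      have : sv S x = 0 := by simp [sv, h]
      exact absurd hx (by simp [hD, this])
    obtain ⟨y, hy⟩ := hne
    have h1 := hM _ hy
    have h2 := norm_le_pi_norm (Fin.cons x y : Fin (m + 1) → ℝ) 0
    simp only [Fin.cons_zero] at h2
    exact (le_abs_self x).trans ((Real.norm_eq_abs x ▸ h2).trans h1)
  have hex : ∃ x ∈ D, 0 < x := by
    by_contra h
    push Not at h
    apply v
    rw [lint_half hS s]
    have : ∫⁻ a in Ioi 0, volume (sec S a) = 0 := by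
      rw [lintegral_eq_zero_iff (measurable_sec hS.measurableSet)]
      refine (ae_restrict_iff' measurableSet_Ioi).2 (Filter.Eventually.of_forall fun a ha => ?_)
      have h3 : sv S a = 0 := by
        by_contra h4
        exact absurd (h a (lt_of_le_of_ne (sv_nonneg S a) (Ne.symm h4))) (not_le.2 ha)
      have := ofReal_sv hS a
      rw [h3] at this
      simpa using this.symm
    rw [this, mul_zero]
  obtain ⟨x0, hx0, hx0'⟩ := hex
  have hR0 : x0 ≤ sSup D := le_csSup hbdd hx0
  have hin : ∀ x ∈ Ioo (-(sSup D)) (sSup D), x ∈ D := by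
    intro x hx
    have habs : |x| < sSup D := abs_lt.2 ⟨hx.1, hx.2⟩
    obtain ⟨y, hy, hxy⟩ := exists_lt_of_lt_csSup ⟨x0, hx0⟩ habs
    have hy' : -y ∈ D := by
      show 0 < sv S (-y)
      rw [hneg]; exact hy
    have := abs_lt.1 hxy
    exact hconv.ordConnected.out hy' hy ⟨this.1.le, this.2.le⟩
  refine ⟨sSup D, lt_of_lt_of_le hx0' hR0, ?_, ?_, ?_⟩
  · intro x hx
    exact hin x ⟨by linarith [hx.1, hx.2], hx.2⟩
  · intro x hx
    by_contra h
    have : x ∈ D := lt_of_le_of_ne (sv_nonneg S x) (Ne.symm h)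
    exact absurd (le_csSup hbdd this) (not_le.2 hx)
  · have hlog : ConcaveOn ℝ (Ioo (-(sSup D)) (sSup D)) (fun x => Real.log (sv S x)) := by
      refine ⟨convex_Ioo _ _, ?_⟩
      intro x hx y hy a b ha hb hab
      rcases ha.eq_or_lt with rfl | ha
      · have : b = 1 := by linarith
        subst this; simp
      rcases hb.eq_or_lt with rfl | hb
      · have : a = 1 := by linarith
        subst this; simp
      have px : 0 < sv S x := hin x hx
      have py : 0 < sv S y := hin y hy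
      have h1 := sv_log hc hS ha hb hab x y
      have h2 : 0 < sv S x ^ a * sv S y ^ b :=
        mul_pos (Real.rpow_pos_of_pos px a) (Real.rpow_pos_of_pos py b)
      have h3 := Real.log_le_log h2 h1
      rw [Real.log_mul (Real.rpow_pos_of_pos px a).ne' (Real.rpow_pos_of_pos py b).ne',
        Real.log_rpow px, Real.log_rpow py] at h3
      simpa using h3
    have hcont := hlog.continuousOn isOpen_Ioo
    have h4 : ContinuousOn (sv S) (Ioo (-(sSup D)) (sSup D)) := by
      refine (Real.continuous_exp.comp_continuousOn hcont).congr ?_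
      intro x hx
      simp only [Function.comp_apply]
      rw [Real.exp_log (hin x hx)]
    exact h4.mono fun x hx => ⟨by linarith [hx.1, hx.2], hx.2⟩

theorem int_Ioo {S : Set (Fin (m + 1) → ℝ)} {R : ℝ}
    (h0 : ∀ x, R < x → sv S x = 0) :
    ∫ a in Ioi 0, sv S a = ∫ a in Ioo 0 R, sv S a := by
  rw [← integral_Ioc_eq_integral_Ioo]
  refine setIntegral_eq_of_subset_of_forall_sdiff_eq_zero measurableSet_Ioi
    Ioc_subset_Ioi_self ?_
  intro x hx
  apply h0
  by_contra h
  exact hx.2 ⟨hx.1, not_lt.1 h⟩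

end

/-- If the sections of `A`, `B`, `C` at heights `x`, `y` and at the harmonic mean of `x`, `y` are
related by convex combinations with the corresponding weights, then `1 / |C|` is at most the mean
of `1 / |A|` and `1 / |B|`. -/
theorem sec_ball {m : ℕ} {A B C : Set (Fin (m + 1) → ℝ)} (cA : Convex ℝ A) (cB : Convex ℝ B)
    (kA : IsCompact A) (kB : IsCompact B) (kC : IsCompact C)
    (sA : ∀ x ∈ A, -x ∈ A) (sB : ∀ x ∈ B, -x ∈ B) (sC : ∀ x ∈ C, -x ∈ C)
    (vA : volume A ≠ 0) (vB : volume B ≠ 0) {p q : ℝ} (hp : 0 < p) (hq : 0 < q) (hpq : p + q = 1)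
    (h : ∀ x y : ℝ, 0 < x → 0 < y → ∀ a ∈ sec A x, ∀ b ∈ sec B y,
      (p * y / (p * y + q * x)) • a + (q * x / (p * y + q * x)) • b ∈
        sec C (x * y / (p * y + q * x))) :
    1 / (volume C).toReal ≤ p / (volume A).toReal + q / (volume B).toReal := by
  obtain ⟨R, hR, pA, zA, contA⟩ := exists_radius cA kA sA vA
  obtain ⟨T, hT, pB, zB, contB⟩ := exists_radius cB kB sB vB
  have key := ball_one hp hq hpq hR hT contA contB pA pB
    ((sv_integrable kA sA).mono_set Ioo_subset_Ioi_self)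
    ((sv_integrable kB sB).mono_set Ioo_subset_Ioi_self)
    (sv_integrable kC sC) (sv_nonneg C) (by
      intro x hx y hy
      have hd : 0 < p * y + q * x := add_pos (mul_pos hp hy.1) (mul_pos hq hx.1)
      have ha : 0 < p * y / (p * y + q * x) := div_pos (mul_pos hp hy.1) hd
      have hb : 0 < q * x / (p * y + q * x) := div_pos (mul_pos hq hx.1) hd
      have hab : p * y / (p * y + q * x) + q * x / (p * y + q * x) = 1 := by
        rw [← add_div, div_self hd.ne']
      unfold sv
      rw [ENNReal.toReal_rpow, ENNReal.toReal_rpow, ← ENNReal.toReal_mul]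
      refine ENNReal.toReal_mono (sec_vol_ne_top kC _) ?_
      exact bm_mul ha hb hab (sec_isCompact kA x).measurableSet (sec_isCompact kB y).measurableSet
        (sec_isCompact kC _).measurableSet (h x y hx.1 hy.1))
  rw [← int_Ioo zA, ← int_Ioo zB] at key
  rw [int_half kA sA, int_half kB sB, int_half kC sC]
  have e1 : ∀ c I : ℝ, c / (2 * I) = (1 / 2) * (c / I) := by
    intro c I
    rw [div_mul_div_comm, one_mul]
  rw [e1, e1, e1, ← mul_add]
  exact mul_le_mul_of_nonneg_left key (by norm_num)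

end Vale.Agent.P227.Slab
end

section

/-!
# P227 / Slab : Busemann's theorem for slabs in the cube
-/

open MeasureTheory Set

namespace Vale.Agent.P227.Slab

open scoped Matrix

/-- The part of the cube `[-1,1]^n` in the slab `|y.a| ≤ a0`. -/
def slab {n : ℕ} (a0 : ℝ) (a : Fin n → ℝ) : Set (Fin n → ℝ) :=
  {y | (∀ j, |y j| ≤ 1) ∧ |y ⬝ᵥ a| ≤ a0}

lemma slab_isCompact {n : ℕ} (a0 : ℝ) (a : Fin n → ℝ) : IsCompact (slab a0 a) := by
  refine (isCompact_Icc (a := fun _ : Fin n => (-1 : ℝ)) (b := fun _ => 1)).of_isClosed_subset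
    ?_ ?_
  · have h1 : IsClosed {y : Fin n → ℝ | ∀ j, |y j| ≤ 1} := by
      simp only [setOf_forall]
      exact isClosed_iInter fun j => isClosed_le (continuous_apply j).abs continuous_const
    have h2 : IsClosed {y : Fin n → ℝ | |y ⬝ᵥ a| ≤ a0} := by
      refine isClosed_le ?_ continuous_const
      unfold dotProduct
      (clear * -; fun_prop)
    exact h1.inter h2
  · intro y hy
    exact ⟨fun j => (abs_le.1 (hy.1 j)).1, fun j => (abs_le.1 (hy.1 j)).2⟩

lemma slab_conv {n : ℕ} (a0 : ℝ) (a : Fin n → ℝ) : Convex ℝ (slab a0 a) := by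
  intro y hy z hz s t hs ht hst
  have key : ∀ {b c r : ℝ}, |b| ≤ r → |c| ≤ r → |s * b + t * c| ≤ r := by
    intro b c r hb hc
    calc |s * b + t * c| ≤ |s * b| + |t * c| := abs_add_le _ _
      _ = s * |b| + t * |c| := by rw [abs_mul, abs_mul, abs_of_nonneg hs, abs_of_nonneg ht]
      _ ≤ s * r + t * r := add_le_add (mul_le_mul_of_nonneg_left hb hs)
          (mul_le_mul_of_nonneg_left hc ht)
      _ = r := by rw [← add_mul, hst, one_mul]
  refine ⟨fun j => ?_, ?_⟩
  · simpa only [Pi.add_apply, Pi.smul_apply, smul_eq_mul] using key (hy.1 j) (hz.1 j)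
  · rw [add_dotProduct, smul_dotProduct, smul_dotProduct]
    exact key hy.2 hz.2

lemma slab_symm {n : ℕ} (a0 : ℝ) (a : Fin n → ℝ) : ∀ x ∈ slab a0 a, -x ∈ slab a0 a := by
  intro x hx
  refine ⟨fun j => ?_, ?_⟩
  · rw [Pi.neg_apply, abs_neg]
    exact hx.1 j
  · rw [neg_dotProduct, abs_neg]
    exact hx.2

lemma slab_volume_ne {n : ℕ} {a0 : ℝ} (ha : 0 < a0) (a : Fin n → ℝ) :
    volume (slab a0 a) ≠ 0 := by
  have ho : IsOpen {y : Fin n → ℝ | (∀ j, |y j| < 1) ∧ |y ⬝ᵥ a| < a0} := by
    have h1 : IsOpen {y : Fin n → ℝ | ∀ j, |y j| < 1} := by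
      simp only [setOf_forall]
      exact isOpen_iInter_of_finite fun j => isOpen_lt (continuous_apply j).abs continuous_const
    have h2 : IsOpen {y : Fin n → ℝ | |y ⬝ᵥ a| < a0} := by
      refine isOpen_lt ?_ continuous_const
      unfold dotProduct
      fun_prop
    exact h1.inter h2
  have hne : ({y : Fin n → ℝ | (∀ j, |y j| < 1) ∧ |y ⬝ᵥ a| < a0}).Nonempty := by
    refine ⟨0, fun j => by simp only [Pi.zero_apply, abs_zero, zero_lt_one], ?_⟩
    rw [zero_dotProduct, abs_zero]
    exact ha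
  have h3 := ho.measure_pos volume hne
  refine (h3.trans_le (measure_mono ?_)).ne'
  intro y hy
  exact ⟨fun j => (hy.1 j).le, hy.2.le⟩

/-- A linear automorphism whose zeroth coordinate is a given nonzero functional. -/
lemma exists_coord {m : ℕ} (w : Fin (m + 1) → ℝ) (hw : w ≠ 0) :
    ∃ T : (Fin (m + 1) → ℝ) →ₗ[ℝ] (Fin (m + 1) → ℝ), LinearMap.det T ≠ 0 ∧
      ∀ y, T y 0 = y ⬝ᵥ w := by
  obtain ⟨i, hi⟩ := Function.ne_iff.1 hw
  rw [Pi.zero_apply] at hi
  let T : (Fin (m + 1) → ℝ) →ₗ[ℝ] (Fin (m + 1) → ℝ) :=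
    { toFun := fun y j => if j = 0 then y ⬝ᵥ w else y (Equiv.swap 0 i j)
      map_add' := by
        intro y z
        funext j
        by_cases hj : j = 0
        · simp only [hj, ↓reduceIte, add_dotProduct, Pi.add_apply]
        · simp [hj]
      map_smul' := by
        intro c y
        funext j
        by_cases hj : j = 0
        · simp [hj, smul_dotProduct]
        · simp only [hj, ↓reduceIte, Pi.smul_apply, smul_eq_mul, Real.ringHom_apply] }
  have hT : ∀ y j, T y j = if j = 0 then y ⬝ᵥ w else y (Equiv.swap 0 i j) := fun _ _ => rfl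
  refine ⟨T, ?_, fun y => by rw [hT, if_pos rfl]⟩
  have hinj : Function.Injective T := by
    rw [injective_iff_map_eq_zero]
    intro y hy
    have h1 : ∀ k, k ≠ i → y k = 0 := by
      intro k hk
      have h2 : Equiv.swap 0 i k ≠ 0 := by
        intro h3
        apply hk
        have h4 : Equiv.swap 0 i (Equiv.swap 0 i k) = Equiv.swap 0 i 0 := by rw [h3]
        rwa [Equiv.swap_apply_self, Equiv.swap_apply_left] at h4
      have h5 := congrFun hy (Equiv.swap 0 i k)
      rwa [hT, if_neg h2, Equiv.swap_apply_self] at h5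
    have h6 := congrFun hy 0
    rw [hT, if_pos rfl, dotProduct, Finset.sum_eq_single i (fun k _ hk => by rw [h1 k hk, zero_mul])
      (fun h => absurd (Finset.mem_univ i) h)] at h6
    have h7 : y i = 0 := (mul_eq_zero.1 h6).resolve_right hi
    funext k
    by_cases hk : k = i
    · rw [hk]; exact h7
    · exact h1 k hk
  have := (LinearEquiv.ofInjectiveEndo T hinj).isUnit_det'
  exact this.ne_zero

/-- Busemann's theorem: `a0 / |slab a0 a|` is convex. -/
theorem slab_convex {n : ℕ} {a0 b0 : ℝ} (ha : 0 < a0) (hb : 0 < b0) (a b : Fin n → ℝ) {p q : ℝ}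
    (hp : 0 < p) (hq : 0 < q) (hpq : p + q = 1) :
    (p * a0 + q * b0) / (volume (slab (p * a0 + q * b0) (p • a + q • b))).toReal ≤
      p * (a0 / (volume (slab a0 a)).toReal) + q * (b0 / (volume (slab b0 b)).toReal) := by
  have hc0 : 0 < p * a0 + q * b0 := by (clear * - hp ha hq hb; positivity)
  have hpos : ∀ {n : ℕ} {r : ℝ} (_ : 0 < r) (v : Fin n → ℝ), 0 < (volume (slab r v)).toReal :=
    fun hr v => ENNReal.toReal_pos (slab_volume_ne hr v) (slab_isCompact _ v).measure_ne_top
  by_cases hw : b - (b0 / a0) • a = 0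
  · -- proportional case
    have hba : b = (b0 / a0) • a := sub_eq_zero.1 hw
    have e : ∀ {r : ℝ} (_ : 0 < r), slab (r * a0) (r • a) = slab a0 a := by
      intro r hr
      ext y
      simp only [slab, mem_setOf_eq, dotProduct_smul, smul_eq_mul, abs_mul, abs_of_pos hr]
      rw [mul_le_mul_iff_right₀ hr]
    have e1 : slab b0 b = slab a0 a := by
      rw [hba, ← e (r := b0 / a0) (by (clear * - hb ha; positivity)), div_mul_cancel₀ _ ha.ne']
    have e2 : slab (p * a0 + q * b0) (p • a + q • b) = slab a0 a := by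
      have h1 : p • a + q • b = ((p * a0 + q * b0) / a0) • a := by
        rw [hba, smul_smul, ← add_smul]
        congr 1
        field_simp
      rw [h1, ← e (r := (p * a0 + q * b0) / a0) (by positivity), div_mul_cancel₀ _ ha.ne']
    rw [e1, e2]
    have := hpos ha a
    apply le_of_eq
    field_simp
  · -- general case
    obtain ⟨i, -⟩ := Function.ne_iff.1 hw
    obtain ⟨m, rfl⟩ : ∃ m, n = m + 1 := ⟨n - 1, by have := i.pos; omega⟩
    obtain ⟨T, hdet, hT⟩ := exists_coord _ hw
    set w := b - (b0 / a0) • a with hwdef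
    have hD : 0 < |LinearMap.det T| := abs_pos.2 hdet
    have hvol : ∀ S : Set (Fin (m + 1) → ℝ), (volume (T '' S)).toReal =
        |LinearMap.det T| * (volume S).toReal := by
      intro S
      rw [Measure.addHaar_image_linearMap, ENNReal.toReal_mul, ENNReal.toReal_ofReal hD.le]
    have hne : ∀ {r : ℝ} (_ : 0 < r) (v : Fin (m + 1) → ℝ), volume (T '' slab r v) ≠ 0 := by
      intro r hr v h0
      have h1 := hvol (slab r v)
      rw [h0, ENNReal.toReal_zero] at h1
      exact absurd h1 (mul_pos hD (hpos hr v)).ne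
    have hcont : Continuous T := T.continuous_of_finiteDimensional
    have hsym : ∀ {r : ℝ} (v : Fin (m + 1) → ℝ), ∀ x ∈ T '' slab r v, -x ∈ T '' slab r v := by
      rintro r v _ ⟨x, hx, rfl⟩
      exact ⟨-x, slab_symm _ _ x hx, map_neg T x⟩
    have hP : 0 < p * a0 / (p * a0 + q * b0) := by positivity
    have hQ : 0 < q * b0 / (p * a0 + q * b0) := by positivity
    have hPQ : p * a0 / (p * a0 + q * b0) + q * b0 / (p * a0 + q * b0) = 1 := by
      rw [← add_div, div_self hc0.ne']
    have key := sec_ball (A := T '' slab a0 a) (B := T '' slab b0 b)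
      (C := T '' slab (p * a0 + q * b0) (p • a + q • b))
      ((slab_conv _ _).linear_image T) ((slab_conv _ _).linear_image T)
      ((slab_isCompact _ _).image hcont) ((slab_isCompact _ _).image hcont)
      ((slab_isCompact _ _).image hcont) (hsym _) (hsym _) (hsym _) (hne ha a) (hne hb b)
      hP hQ hPQ ?_
    · rw [hvol, hvol, hvol] at key
      have hVa := hpos ha a
      have hVb := hpos hb b
      have hVc := hpos hc0 (p • a + q • b)
      have h1 := mul_le_mul_of_nonneg_left key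
        (mul_pos hc0 hD).le
      refine le_trans (le_of_eq ?_) (h1.trans (le_of_eq ?_))
      · field_simp
      · field_simp
    · intro x y hx hy a' ha' b' hb'
      obtain ⟨ξ, hξ, hξT⟩ := ha'
      obtain ⟨η, hη, hηT⟩ := hb'
      set P := p * a0 / (p * a0 + q * b0) with hPdef
      set Q := q * b0 / (p * a0 + q * b0) with hQdef
      have hden : 0 < P * y + Q * x := by positivity
      set α := P * y / (P * y + Q * x) with hα
      set β := Q * x / (P * y + Q * x) with hβ
      have hα0 : 0 ≤ α := by positivity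
      have hβ0 : 0 ≤ β := by positivity
      have hαβ : α + β = 1 := by rw [hα, hβ, ← add_div, div_self hden.ne']
      have hx1 : ξ ⬝ᵥ w = x := by rw [← hT, hξT, Fin.cons_zero]
      have hy1 : η ⬝ᵥ w = y := by rw [← hT, hηT, Fin.cons_zero]
      have hz : α * x + β * y = x * y / (P * y + Q * x) := by
        have : α * x + β * y = x * y * (P + Q) / (P * y + Q * x) := by
          rw [hα, hβ]
          (clear * - hP hQ hy hx; field_simp)
        rw [this, hPQ, mul_one]
      refine ⟨α • ξ + β • η, ⟨fun j => ?_, ?_⟩, ?_⟩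
      · have h1 := hξ.1 j
        have h2 := hη.1 j
        rw [abs_le] at h1 h2 ⊢
        simp only [Pi.add_apply, Pi.smul_apply, smul_eq_mul]
        constructor <;> nlinarith only [hαβ, hα0, h1, hβ0, h2]
      · have h1 := hξ.2
        have h2 := hη.2
        have e1 : ξ ⬝ᵥ w = ξ ⬝ᵥ b - b0 / a0 * (ξ ⬝ᵥ a) := by
          rw [hwdef, dotProduct_sub, dotProduct_smul, smul_eq_mul]
        have e2 : η ⬝ᵥ w = η ⬝ᵥ b - b0 / a0 * (η ⬝ᵥ a) := by
          rw [hwdef, dotProduct_sub, dotProduct_smul, smul_eq_mul]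
        have e3 : (α • ξ + β • η) ⬝ᵥ (p • a + q • b) =
            (p * a0 + q * b0) * (α * (ξ ⬝ᵥ a / a0) + β * (η ⬝ᵥ b / b0)) := by
          rw [add_dotProduct, dotProduct_add, dotProduct_add]
          simp only [smul_dotProduct, dotProduct_smul, smul_eq_mul]
          have f1 : ξ ⬝ᵥ b = x + b0 / a0 * (ξ ⬝ᵥ a) := by linarith only [hx1, e1]
          have f2 : η ⬝ᵥ a = a0 / b0 * (η ⬝ᵥ b - y) := by
            have : b0 / a0 * (η ⬝ᵥ a) = η ⬝ᵥ b - y := by linarith only [hy1, e2]
            rw [← this]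
            (clear * - ha hb; field_simp)
          rw [f1, f2]
          have f3 : q * α * x = p * β * (a0 / b0) * y := by
            rw [hα, hβ, hPdef, hQdef]
            (clear * - hb hp ha hy hq hx; field_simp)
          have f4 : (p * a0 + q * b0) * (α * (ξ ⬝ᵥ a / a0) + β * (η ⬝ᵥ b / b0)) =
              p * α * (ξ ⬝ᵥ a) + q * α * (b0 / a0 * (ξ ⬝ᵥ a)) + p * β * (a0 / b0 * (η ⬝ᵥ b))
                + q * β * (η ⬝ᵥ b) := by
            field_simp
            ring
          rw [f4]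
          linear_combination f3
        rw [e3, abs_mul, abs_of_pos hc0]
        have h3 : |α * (ξ ⬝ᵥ a / a0) + β * (η ⬝ᵥ b / b0)| ≤ 1 := by
          have g1 : |ξ ⬝ᵥ a / a0| ≤ 1 := by
            rw [abs_div, abs_of_pos ha]
            exact (div_le_one ha).2 h1
          have g2 : |η ⬝ᵥ b / b0| ≤ 1 := by
            rw [abs_div, abs_of_pos hb]
            exact (div_le_one hb).2 h2
          rw [abs_le] at g1 g2 ⊢
          constructor <;> nlinarith only [hαβ, hα0, g1, hβ0, g2]
        calc (p * a0 + q * b0) * |α * (ξ ⬝ᵥ a / a0) + β * (η ⬝ᵥ b / b0)| ≤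
              (p * a0 + q * b0) * 1 := mul_le_mul_of_nonneg_left h3 hc0.le
          _ = _ := mul_one _
      · rw [map_add, map_smul, map_smul, hξT, hηT]
        funext j
        refine Fin.cases ?_ (fun k => ?_) j
        · simp only [Pi.add_apply, Pi.smul_apply, Fin.cons_zero, smul_eq_mul]
          exact hz
        · simp only [Pi.add_apply, Pi.smul_apply, Fin.cons_succ, smul_eq_mul]

end Vale.Agent.P227.Slab
end

section

/-!
# P227 / Slab : a symmetric body loses volume at most proportionally to the width of a slab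
-/

open MeasureTheory Set

namespace Vale.Agent.P227.Slab

open scoped Matrix ENNReal
open Vale.Agent.P227.T1

theorem mono_scale {c : ℝ} (hc : 0 < c) {φ : ℝ → ℝ≥0∞} (hφ : Measurable φ) :
    ∫⁻ a, φ a = ENNReal.ofReal c * ∫⁻ a, φ (c * a) := by
  have h := Real.smul_map_volume_mul_left hc.ne'
  rw [abs_of_pos hc] at h
  calc ∫⁻ a, φ a = ∫⁻ a, φ a ∂(ENNReal.ofReal c • Measure.map (c * ·) volume) := by rw [h]
    _ = _ := by
      rw [lintegral_smul_measure, lintegral_map hφ (measurable_const_mul c)]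
      rfl

theorem mono_sec_neg {m : ℕ} {K : Set (Fin (m + 1) → ℝ)} (kK : IsCompact K)
    (sK : ∀ x ∈ K, -x ∈ K) (b : ℝ) : volume (sec K (-b)) = volume (sec K b) := by
  have h1 : sec K (-b) = Neg.neg ⁻¹' (sec K b) := by
    have h2 : ∀ (c : ℝ) (x : Fin m → ℝ), x ∈ sec K c → -x ∈ sec K (-c) := by
      intro c x hx
      have h3 := sK _ hx
      change (Fin.cons (-c) (-x) : Fin (m + 1) → ℝ) ∈ K
      convert h3 using 1
      funext i
      refine Fin.cases ?_ (fun j => ?_) i
      · simp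
      · simp
    ext x
    constructor
    · intro hx
      have := h2 _ _ hx
      rwa [neg_neg] at this
    · intro hx
      have := h2 _ _ hx
      rwa [neg_neg] at this
  rw [h1]
  exact (Measure.measurePreserving_neg (volume : Measure (Fin m → ℝ))).measure_preimage
    (sec_isCompact kK b).measurableSet.nullMeasurableSet

theorem mono_sec {m : ℕ} {K : Set (Fin (m + 1) → ℝ)} (cK : Convex ℝ K) (kK : IsCompact K)
    (sK : ∀ x ∈ K, -x ∈ K) {c : ℝ} (hc : 1 ≤ c) (a : ℝ) :
    volume (sec K (c * a)) ≤ volume (sec K a) := by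
  rcases hc.eq_or_lt with rfl | hc1
  · rw [one_mul]
  have hc0 : 0 < c := by (clear * - hc1; linarith)
  have hci : 0 < 1 / c := by positivity
  have hc2 : 1 / c < 1 := by rw [div_lt_one hc0]; exact hc1
  set l : ℝ := (1 + 1 / c) / 2 with hl
  have hl0 : 0 < l := by rw [hl]; linarith only [hci]
  have hl1 : 0 < 1 - l := by rw [hl]; linarith only [hc2]
  have h := bm_mul (s := l) (t := 1 - l) hl0 hl1 (by ring) (A := sec K (c * a))
    (B := sec K (-(c * a))) (C := sec K a) (sec_isCompact kK _).measurableSet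
    (sec_isCompact kK _).measurableSet (sec_isCompact kK _).measurableSet (by
      intro x hx y hy
      have h1 := cK hx hy hl0.le hl1.le (by ring)
      change (Fin.cons a (l • x + (1 - l) • y) : Fin (m + 1) → ℝ) ∈ K
      convert h1 using 1
      funext i
      refine Fin.cases ?_ (fun j => ?_) i
      · simp only [Fin.cons_zero, Pi.add_apply, Pi.smul_apply, smul_eq_mul]
        have h2 : (2 * l - 1) * c = 1 := by
          rw [hl]
          field_simp
          ring
        linear_combination (-a) * h2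
      · simp only [Fin.cons_succ, Pi.add_apply, Pi.smul_apply, smul_eq_mul])
  rw [mono_sec_neg kK sK, ← ENNReal.rpow_add_of_nonneg _ _ hl0.le hl1.le, add_sub_cancel,
    ENNReal.rpow_one] at h
  exact h

theorem mono_vol {m : ℕ} {K : Set (Fin (m + 1) → ℝ)} (kK : IsCompact K) (s : ℝ) :
    volume (K ∩ {x | |x 0| ≤ s}) = ∫⁻ a, ({a : ℝ | |a| ≤ s}.indicator fun a => volume (sec K a)) a := by
  have hm : MeasurableSet {x : Fin (m + 1) → ℝ | |x 0| ≤ s} := by
    refine measurableSet_le ?_ measurable_const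
    exact (continuous_abs.comp (continuous_apply 0)).measurable
  rw [volume_sec (kK.measurableSet.inter hm)]
  apply lintegral_congr
  intro a
  by_cases ha : |a| ≤ s
  · rw [indicator_of_mem (by exact ha)]
    congr 1
    ext x
    simp only [sec, mem_inter_iff, mem_ofPred_eq, Fin.cons_zero, ha, and_true]
  · rw [indicator_of_notMem (by exact ha)]
    have : sec (K ∩ {x | |x 0| ≤ s}) a = ∅ := by
      ext x
      simp [sec, ha]
    rw [this, measure_empty]

theorem mono_coord {m : ℕ} {K : Set (Fin (m + 1) → ℝ)} (cK : Convex ℝ K) (kK : IsCompact K)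
    (sK : ∀ x ∈ K, -x ∈ K) {r s : ℝ} (hr : 0 < r) (hrs : r ≤ s) :
    volume (K ∩ {x | |x 0| ≤ s}) ≤ ENNReal.ofReal (s / r) * volume (K ∩ {x | |x 0| ≤ r}) := by
  have hs : 0 < s := lt_of_lt_of_le hr hrs
  have hc : 1 ≤ s / r := by rw [one_le_div hr]; exact hrs
  have hm : MeasurableSet {a : ℝ | |a| ≤ s} :=
    measurableSet_le continuous_abs.measurable measurable_const
  rw [mono_vol kK, mono_vol kK,
    mono_scale (c := s / r) (by positivity) ((measurable_sec kK.measurableSet).indicator hm)]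
  gcongr with a
  by_cases ha : |a| ≤ r
  · have h1 : |s / r * a| ≤ s := by
      rw [abs_mul, abs_of_pos (by positivity)]
      calc s / r * |a| ≤ s / r * r := by (clear * - ha hs hr; gcongr)
        _ = s := by (clear * - hr hs; field_simp)
    rw [indicator_of_mem (by exact h1), indicator_of_mem (by exact ha)]
    exact mono_sec cK kK sK hc a
  · have h1 : ¬ |s / r * a| ≤ s := by
      rw [abs_mul, abs_of_pos (by positivity)]
      intro h2
      apply ha
      have h3 : s / r * |a| ≤ s / r * r := by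
        calc s / r * |a| ≤ s := h2
          _ = s / r * r := by field_simp
      exact le_of_mul_le_mul_left h3 (by positivity)
    rw [indicator_of_notMem (by exact h1)]
    exact zero_le

/-- a linear map whose zeroth coordinate is the given functional -/
def monoMap {m : ℕ} (f : Fin (m + 1) → ℝ) (i : Fin (m + 1)) :
    (Fin (m + 1) → ℝ) →ₗ[ℝ] (Fin (m + 1) → ℝ) where
  toFun x := fun j => if j = 0 then x ⬝ᵥ f else x (Equiv.swap 0 i j)
  map_add' x y := by
    funext j
    by_cases hj : j = 0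
    · simp [hj, add_dotProduct]
    · simp [hj]
  map_smul' c x := by
    funext j
    by_cases hj : j = 0
    · simp [hj, smul_dotProduct]
    · simp [hj]

theorem monoMap_zero {m : ℕ} (f : Fin (m + 1) → ℝ) (i : Fin (m + 1)) (x : Fin (m + 1) → ℝ) :
    monoMap f i x 0 = x ⬝ᵥ f := by
  change (if (0 : Fin (m + 1)) = 0 then x ⬝ᵥ f else x (Equiv.swap 0 i 0)) = x ⬝ᵥ f
  rw [if_pos rfl]

theorem monoMap_inj {m : ℕ} (f : Fin (m + 1) → ℝ) (i : Fin (m + 1)) (hi : f i ≠ 0) :
    Function.Injective (monoMap f i) := by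
  rw [injective_iff_map_eq_zero]
  intro x hx
  have h1 : ∀ k, k ≠ i → x k = 0 := by
    intro k hk
    have h2 := congrFun hx (Equiv.swap 0 i k)
    have h3 : Equiv.swap 0 i k ≠ 0 := by
      intro h4
      apply hk
      have h5 := congrArg (Equiv.swap 0 i) h4
      rw [Equiv.swap_apply_self, Equiv.swap_apply_left] at h5
      exact h5
    change (if Equiv.swap 0 i k = 0 then x ⬝ᵥ f else x (Equiv.swap 0 i (Equiv.swap 0 i k))) = 0
      at h2
    rwa [if_neg h3, Equiv.swap_apply_self] at h2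
  have h6 : x ⬝ᵥ f = 0 := by
    rw [← monoMap_zero f i, hx]
    rfl
  have h7 : x ⬝ᵥ f = x i * f i := by
    unfold dotProduct
    rw [Finset.sum_eq_single i]
    · intro k _ hk
      rw [h1 k hk, zero_mul]
    · intro h
      exact absurd (Finset.mem_univ i) h
  funext k
  by_cases hk : k = i
  · rw [hk]
    rw [h7] at h6
    rcases mul_eq_zero.1 h6 with h | h
    · exact h
    · exact absurd h hi
  · exact h1 k hk

/-- `|K ∩ {|x.f| ≤ r}| / r` is nonincreasing in `r`. -/
theorem mono_width {n : ℕ} {K : Set (Fin n → ℝ)} (cK : Convex ℝ K) (kK : IsCompact K)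
    (sK : ∀ x ∈ K, -x ∈ K) (f : Fin n → ℝ) {r s : ℝ} (hr : 0 < r) (hrs : r ≤ s) :
    r * (volume (K ∩ {x | |x ⬝ᵥ f| ≤ s})).toReal ≤
      s * (volume (K ∩ {x | |x ⬝ᵥ f| ≤ r})).toReal := by
  have hs : 0 < s := lt_of_lt_of_le hr hrs
  by_cases hf : f = 0
  · have h1 : ∀ t : ℝ, 0 < t → K ∩ {x | |x ⬝ᵥ f| ≤ t} = K := by
      intro t ht
      ext x
      simp only [hf, dotProduct_zero, abs_zero, ht.le, ofPred_true, inter_univ]
    rw [h1 r hr, h1 s hs]
    exact mul_le_mul_of_nonneg_right hrs ENNReal.toReal_nonneg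
  obtain ⟨i, hi⟩ : ∃ i, f i ≠ 0 := by
    by_contra h
    push Not at h
    exact hf (funext h)
  obtain ⟨m, rfl⟩ : ∃ m, n = m + 1 := ⟨n - 1, by have := i.pos; omega⟩
  set L := monoMap f i with hL
  have hinj := monoMap_inj f i hi
  have hdet : LinearMap.det L ≠ 0 := by
    have h1 := (LinearEquiv.ofInjectiveEndo L hinj).isUnit_det'
    have h2 : ((LinearEquiv.ofInjectiveEndo L hinj : (Fin (m + 1) → ℝ) ≃ₗ[ℝ] (Fin (m + 1) → ℝ)) :
        (Fin (m + 1) → ℝ) →ₗ[ℝ] (Fin (m + 1) → ℝ)) = L := by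
      ext x
      simp only [LinearMap.coe_comp, LinearEquiv.coe_coe, LinearEquiv.coe_ofInjectiveEndo, LinearMap.coe_single, Function.comp_apply]
    rw [h2] at h1
    exact h1.ne_zero
  have hK' : IsCompact (L '' K) := kK.image (LinearMap.continuous_of_finiteDimensional L)
  have cK' : Convex ℝ (L '' K) := cK.linear_image L
  have sK' : ∀ x ∈ L '' K, -x ∈ L '' K := by
    rintro _ ⟨x, hx, rfl⟩
    exact ⟨-x, sK x hx, map_neg L x⟩
  have himg : ∀ t : ℝ, L '' (K ∩ {x | |x ⬝ᵥ f| ≤ t}) = (L '' K) ∩ {x | |x 0| ≤ t} := by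
    intro t
    have h1 : {x : Fin (m + 1) → ℝ | |x ⬝ᵥ f| ≤ t} = L ⁻¹' {x | |x 0| ≤ t} := by
      ext x
      rw [mem_preimage, mem_ofPred_eq, mem_ofPred_eq, hL, monoMap_zero]
    rw [h1, image_inter_preimage]
  have key := mono_coord cK' hK' sK' hr hrs
  rw [← himg, ← himg, Measure.addHaar_image_linearMap, Measure.addHaar_image_linearMap] at key
  have hfin : ∀ t : ℝ, volume (K ∩ {x | |x ⬝ᵥ f| ≤ t}) ≠ ∞ := fun t =>
    ((measure_mono inter_subset_left).trans_lt kK.measure_lt_top).ne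
  have h2 := ENNReal.toReal_mono (by finiteness [hfin r]) key
  rw [ENNReal.toReal_mul, ENNReal.toReal_mul, ENNReal.toReal_mul,
    ENNReal.toReal_ofReal (abs_nonneg _), ENNReal.toReal_ofReal (by positivity)] at h2
  have hd : 0 < |LinearMap.det L| := abs_pos.2 hdet
  have h3 : (volume (K ∩ {x | |x ⬝ᵥ f| ≤ s})).toReal ≤
      s / r * (volume (K ∩ {x | |x ⬝ᵥ f| ≤ r})).toReal := by
    refine le_of_mul_le_mul_left ?_ hd
    calc _ ≤ _ := h2
      _ = _ := by ring
  calc r * (volume (K ∩ {x | |x ⬝ᵥ f| ≤ s})).toReal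
      ≤ r * (s / r * (volume (K ∩ {x | |x ⬝ᵥ f| ≤ r})).toReal) :=
        mul_le_mul_of_nonneg_left h3 hr.le
    _ = _ := by (clear * - hr hs; field_simp)

end Vale.Agent.P227.Slab
end
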