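import Mathlib
import Vale.Agent.P227.MathlibUsed
import Vale.Agent.P227.Bdl.B3
import Vale.Agent.P227.Bdl.B4
import Vale.Agent.P227.Bdl.B5
import Vale.Agent.P227.Bdl.B1
import Vale.Agent.P227.Fin2.Defs

set_option linter.all false

section

open MeasureTheory

namespace Vale.Agent.P227.Final

/-- Euclidean space. -/
abbrev E (n : ℕ) := EuclideanSpace ℝ (Fin n)

/-- Lebesgue measure. -/
noncomputable def vol (n : ℕ) : Measure (E n) := volume

/-- Volume as a real number. -/
noncomputable def evol {n : ℕ} (K : Set (E n)) : ℝ := (vol n K).toReal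

/-- Euclidean inner product. -/
noncomputable def ip {n : ℕ} (x y : E n) : ℝ := inner ℝ x y

/-- Origin-symmetric convex body. -/
structure SymConvexBody {n : ℕ} (K : Set (E n)) : Prop where
  convex : Convex ℝ K
  isCompact : IsCompact K
  nonempty_interior : (interior K).Nonempty
  symm : ∀ x ∈ K, -x ∈ K

/-- Support function. -/
noncomputable def supportFn {n : ℕ} (K : Set (E n)) (u : E n) : ℝ := sSup ((fun x => ip x u) '' K)

/-- Wulff body. -/
def wulff {n : ℕ} (f : E n → ℝ) : Set (E n) := {x | ∀ u, ‖u‖ = 1 → ip x u ≤ f u}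

/-- Logarithmic combination. -/
noncomputable def logComb {n : ℕ} (t : ℝ) (K L : Set (E n)) : Set (E n) :=
  wulff (fun u => supportFn K u ^ (1 - t) * supportFn L u ^ t)

/-- Zonotope: finite sum of segments. -/
def IsZonotope {n : ℕ} (Z : Set (E n)) : Prop :=
  ∃ (N : ℕ) (a b : Fin N → E n), Z = {x | ∃ y : Fin N → E n,
    (∀ j, y j ∈ segment ℝ (a j) (b j)) ∧ x = ∑ j, y j}

/-- Zonoid: Hausdorff limit of zonotopes. -/
def IsZonoid {n : ℕ} (K : Set (E n)) : Prop :=
  ∀ ε : ℝ, 0 < ε → ∃ Z : Set (E n), IsZonotope Z ∧ Metric.hausdorffDist K Z < ε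

/-- `ν` is measurable and `ν x` is an outer unit normal of `K` at `x / ‖x‖_K` for almost every
`x` in `K`. -/
def IsConeNormal {n : ℕ} (K : Set (E n)) (ν : E n → E n) : Prop :=
  Measurable ν ∧ evol {x ∈ K | ¬ (‖ν x‖ = 1 ∧ ip x (ν x) = gauge K x * supportFn K (ν x))} = 0

/-- The integral of `log (h_L / h_K)` against the cone-volume measure of `K`. -/
noncomputable def coneLogInt {n : ℕ} (K L : Set (E n)) (ν : E n → E n) : ℝ :=
  ∫ x in K, Real.log (supportFn L (ν x) / supportFn K (ν x)) ∂(vol n)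

/-- The linear reflection `x ↦ x - 2 ⟨x, w⟩ v`. -/
noncomputable def reflection {n : ℕ} (v w x : E n) : E n := x - (2 * ip x w) • v

/-- `K` is invariant under the commuting reflections of the biorthogonal system `v`, `w`. -/
structure Invariant {n m : ℕ} (v w : Fin m → E n) (K : Set (E n)) : Prop where
  biorth : ∀ i j, ip (v i) (w j) = if i = j then (1 : ℝ) else 0
  mem : ∀ i, ∀ x ∈ K, reflection (v i) (w i) x ∈ K

/-- Even and `C²` off the origin. -/
structure EvenSmooth {n : ℕ} (f : E n → ℝ) : Prop where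
  even : ∀ u, f (-u) = f u
  smooth : ContDiffOn ℝ 2 f {u | u ≠ 0}

/-- Second derivative of `f` at `u` in direction `v`. -/
noncomputable def hess {n : ℕ} (f : E n → ℝ) (u v : E n) : ℝ :=
  deriv (fun r : ℝ => deriv (fun s : ℝ => f (u + s • v)) r) 0

/-- `C²₊`. -/
structure C2Plus {n : ℕ} (K : Set (E n)) : Prop where
  smooth : EvenSmooth (supportFn K)
  curv : ∀ u v, u ≠ 0 → v ≠ 0 → ip u v = 0 → 0 < hess (supportFn K) u v

/-- The perturbed body `W[h_K + t g]`. -/
noncomputable def pertBody {n : ℕ} (K : Set (E n)) (g : E n → ℝ) (t : ℝ) : Set (E n) :=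
  wulff (fun u => supportFn K u + t * g u)

/-- Normalised difference of the two sides of log-Brunn-Minkowski for `K`, `W[h_K + t g]`. -/
noncomputable def deficit {n : ℕ} (K : Set (E n)) (g : E n → ℝ) (l t : ℝ) : ℝ :=
  (evol (logComb l K (pertBody K g t)) - evol K ^ (1 - l) * evol (pertBody K g t) ^ l) / t ^ 2

/-- `f t → a` as `t → 0`. -/
def LimZero (f : ℝ → ℝ) (a : ℝ) : Prop := Filter.Tendsto f (nhdsWithin 0 {0}ᶜ) (nhds a)

end Vale.Agent.P227.Final
end

section
attribute [-instance] ProperSMul.toContinuousSMul IsTopologicalTorsor.toContinuousSMul IdemSemiring.toCanonicallyOrderedAdd IdemSemiring.toMulLeftMono IdemSemiring.toMulRightMono AddQuantale.instAddLeftMono AddQuantale.instAddRightMono Quantale.instMulLeftMono Quantale.instMulRightMono FiniteDimensional.rclike_to_real IsScalarTower.complexToReal FiniteDimensional.complexToReal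

open MeasureTheory Set Matrix
open scoped Pointwise ENNReal

namespace Vale.Agent.P227.Rot

/-- Coordinates. -/
noncomputable def coordEquiv (P : Matrix (Fin 3) (Fin 3) ℝ) (hP : IsUnit P.det) :
    EuclideanSpace ℝ (Fin 3) ≃ₗ[ℝ] ℂ × ℝ where
  toFun x := (⟨(P *ᵥ x.ofLp) 0, (P *ᵥ x.ofLp) 1⟩, (P *ᵥ x.ofLp) 2)
  map_add' x y := by
    refine Prod.ext (Complex.ext ?_ ?_) ?_ <;> simp [Matrix.mulVec_add]
  map_smul' r x := by
    refine Prod.ext (Complex.ext ?_ ?_) ?_ <;> simp [Matrix.mulVec_smul]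
  invFun z := WithLp.toLp 2 (P⁻¹ *ᵥ ![z.1.re, z.1.im, z.2])
  left_inv x := by
    have : (![(P *ᵥ x.ofLp) 0, (P *ᵥ x.ofLp) 1, (P *ᵥ x.ofLp) 2] : Fin 3 → ℝ) =
        P *ᵥ x.ofLp := by
      funext i
      fin_cases i <;> rfl
    simp only [this, Matrix.mulVec_mulVec, Matrix.nonsing_inv_mul P hP, Matrix.one_mulVec,
      WithLp.toLp_ofLp]
  right_inv z := by
    have : P *ᵥ (P⁻¹ *ᵥ ![z.1.re, z.1.im, z.2]) = ![z.1.re, z.1.im, z.2] := by
      rw [Matrix.mulVec_mulVec, Matrix.mul_nonsing_inv P hP, Matrix.one_mulVec]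
    ext <;> simp [this]

lemma exists_coords {K : Set (EuclideanSpace ℝ (Fin 3))} (hK : IsCompact K)
    (iK : (interior K).Nonempty) (A : EuclideanSpace ℝ (Fin 3) →ₗ[ℝ] EuclideanSpace ℝ (Fin 3))
    (hA : A '' K = K) (h1 : A ≠ LinearMap.id) (h2 : A ≠ -LinearMap.id) :
    ∃ (T : EuclideanSpace ℝ (Fin 3) ≃L[ℝ] ℂ × ℝ) (θ ε : ℝ), (ε = 1 ∨ ε = -1) ∧ ex θ ≠ 1 ∧
      ∀ x, T (ε • A x) = (ex θ * (T x).1, (T x).2) := by
  have hdet := abs_det_of_image hK iK A hA
  have hM := mom_invariant hK A hdet hA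
  set B := Matrix.toEuclideanLin.symm A with hB
  have hAB : A = Matrix.toEuclideanLin B := by rw [hB]; simp
  obtain ⟨N, hN, hMN⟩ := posDef_factor (mom_posDef hK iK)
  rw [hMN] at hM
  have hNi : N⁻¹ * N = 1 := Matrix.nonsing_inv_mul N hN
  have hNi' : N * N⁻¹ = 1 := Matrix.mul_nonsing_inv N hN
  have hNt : Nᵀ * (N⁻¹)ᵀ = 1 := by
    rw [← Matrix.transpose_mul, hNi, Matrix.transpose_one]
  set O0 := N⁻¹ * B * N with hO0
  have hOO0 : O0 * O0ᵀ = 1 := by
    rw [hO0, Matrix.transpose_mul, Matrix.transpose_mul]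
    calc N⁻¹ * B * N * (Nᵀ * (Bᵀ * (N⁻¹)ᵀ)) = N⁻¹ * (B * (N * Nᵀ) * Bᵀ) * (N⁻¹)ᵀ := by
          simp only [Matrix.mul_assoc]
      _ = (N⁻¹ * N) * (Nᵀ * (N⁻¹)ᵀ) := by
          rw [hM]
          simp only [Matrix.mul_assoc]
      _ = 1 := by rw [hNi, hNt, Matrix.one_mul]
  set ε := O0.det with hε
  have hε2 : ε * ε = 1 := by
    have := congrArg Matrix.det hOO0
    rw [Matrix.det_mul, Matrix.det_transpose, Matrix.det_one] at this
    exact this
  have hε1 : ε = 1 ∨ ε = -1 := mul_self_eq_one_iff.1 hε2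
  set O := ε • O0 with hO
  have hOO : O * Oᵀ = 1 := by
    rw [hO, Matrix.transpose_smul, Matrix.smul_mul, Matrix.mul_smul, hOO0, smul_smul, hε2,
      one_smul]
  have hOd : O.det = 1 := by
    rw [hO, Matrix.det_smul, ← hε]
    simp only [Fintype.card_fin]
    calc ε ^ 3 * ε = (ε * ε) * (ε * ε) := by ring
      _ = 1 := by rw [hε2, one_mul]
  have hNO : N * O0 * N⁻¹ = B := by
    rw [hO0]
    calc N * (N⁻¹ * B * N) * N⁻¹ = (N * N⁻¹) * B * (N * N⁻¹) := by
          simp only [Matrix.mul_assoc]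
      _ = B := by rw [hNi', Matrix.one_mul, Matrix.mul_one]
  have hO1 : O ≠ 1 := by
    intro h
    have hO0e : O0 = ε • (1 : Matrix (Fin 3) (Fin 3) ℝ) := by
      rw [← h, hO, smul_smul, hε2, one_smul]
    have hBe : B = ε • (1 : Matrix (Fin 3) (Fin 3) ℝ) := by
      rw [← hNO, hO0e, Matrix.mul_smul, Matrix.smul_mul, Matrix.mul_one, hNi']
    rcases hε1 with h3 | h3
    · apply h1
      rw [hAB, hBe, h3, one_smul]
      ext x i
      simp
    · apply h2
      rw [hAB, hBe, h3]
      ext x i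
      simp
  obtain ⟨Q, c, s, hQQ, hR, hcs, hc1⟩ := rot_normal_form hOO hOd hO1
  have hQQ' : Q * Qᵀ = 1 := mul_eq_one_comm.1 hQQ
  set P := Qᵀ * N⁻¹ with hP
  have hPu : IsUnit P.det := by
    rw [hP, Matrix.det_mul]
    apply IsUnit.mul
    · have := congrArg Matrix.det hQQ
      rw [Matrix.det_mul, Matrix.det_one] at this
      exact IsUnit.of_mul_eq_one _ this
    · rw [Matrix.det_nonsing_inv]
      exact hN.ringInverse
  have hPB : P * (ε • B) = !![c, -s, 0; s, c, 0; 0, 0, 1] * P := by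
    rw [← hR, hP]
    calc Qᵀ * N⁻¹ * (ε • B) = Qᵀ * (ε • (N⁻¹ * B * (N * N⁻¹))) := by
          rw [hNi', Matrix.mul_one, Matrix.mul_smul, Matrix.mul_smul, Matrix.mul_assoc]
      _ = Qᵀ * O * N⁻¹ := by
          rw [hO, hO0]
          simp only [Matrix.mul_assoc, Matrix.mul_smul, Matrix.smul_mul]
      _ = Qᵀ * O * (Q * Qᵀ) * N⁻¹ := by rw [hQQ', Matrix.mul_one]
      _ = Qᵀ * O * Q * (Qᵀ * N⁻¹) := by simp only [Matrix.mul_assoc]
  set z : ℂ := ⟨c, s⟩ with hz
  have hzn : ‖z‖ = 1 := by
    rw [Complex.norm_eq_sqrt_sq_add_sq]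
    simp [hz, hcs]
  have hza : ex z.arg = z := by
    have := Complex.norm_mul_exp_arg_mul_I z
    rw [hzn, Complex.ofReal_one, one_mul] at this
    exact this
  refine ⟨(coordEquiv P hPu).toContinuousLinearEquiv, z.arg, ε, hε1, ?_, ?_⟩
  · rw [hza]
    intro h
    apply hc1
    have := congrArg Complex.re h
    simpa [hz] using this
  · intro x
    rw [hza]
    have h5 : (ε • A x).ofLp = (ε • B) *ᵥ x.ofLp := by
      rw [hAB]
      simp [Matrix.smul_mulVec]
    have h6 : P *ᵥ (ε • A x).ofLp = !![c, -s, 0; s, c, 0; 0, 0, 1] *ᵥ (P *ᵥ x.ofLp) := by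
      rw [h5, Matrix.mulVec_mulVec, hPB, Matrix.mulVec_mulVec]
    show ((⟨(P *ᵥ (ε • A x).ofLp) 0, (P *ᵥ (ε • A x).ofLp) 1⟩ : ℂ),
        (P *ᵥ (ε • A x).ofLp) 2) =
      (z * (⟨(P *ᵥ x.ofLp) 0, (P *ᵥ x.ofLp) 1⟩ : ℂ), (P *ᵥ x.ofLp) 2)
    rw [h6]
    set y := P *ᵥ x.ofLp with hy
    refine Prod.ext (Complex.ext ?_ ?_) ?_
    · simp [Matrix.mulVec, dotProduct, Fin.sum_univ_three, hz]
      ring
    · simp [Matrix.mulVec, dotProduct, Fin.sum_univ_three, hz]
      ring
    · simp [Matrix.mulVec, dotProduct, Fin.sum_univ_three]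

end Vale.Agent.P227.Rot
end

section

open MeasureTheory Set Matrix
open scoped Pointwise ENNReal

namespace Vale.Agent.P227.Rot

lemma sym_ex_add (a b : ℝ) : ex (a + b) = ex a * ex b := by
  unfold ex; rw [← Complex.exp_add]; congr 1; push_cast; ring

lemma sym_ex_zero : ex 0 = 1 := by simp [ex]

lemma sym_ex_two_pi : ex (2 * Real.pi) = 1 := by
  unfold ex
  rw [Complex.exp_eq_one_iff]
  exact ⟨1, by push_cast; ring⟩

lemma sym_ex_neg_two_pi : ex (-(2 * Real.pi)) = 1 := by
  unfold ex
  rw [Complex.exp_eq_one_iff]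
  exact ⟨-1, by push_cast; ring⟩

lemma sym_ex_pi : ex Real.pi = -1 := by
  unfold ex
  exact Complex.exp_pi_mul_I

lemma sym_ex_cont : Continuous ex := by
  unfold ex
  (clear * -; fun_prop)

/-- Invariance under the rotation by `a` and its inverse. -/
def SymRot (S : Set (ℂ × ℝ)) (a : ℝ) : Prop :=
  (∀ x ∈ S, (ex a * x.1, x.2) ∈ S) ∧ ∀ x ∈ S, (ex (-a) * x.1, x.2) ∈ S

lemma SymRot.zero (S : Set (ℂ × ℝ)) : SymRot S 0 := by
  constructor <;> intro x hx <;> simpa [sym_ex_zero] using hx

lemma SymRot.neg {S : Set (ℂ × ℝ)} {a : ℝ} (h : SymRot S a) : SymRot S (-a) :=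
  ⟨h.2, by rw [neg_neg]; exact h.1⟩

lemma SymRot.add {S : Set (ℂ × ℝ)} {a b : ℝ} (h : SymRot S a) (h' : SymRot S b) :
    SymRot S (a + b) := by
  constructor
  · intro x hx
    have := h.1 _ (h'.1 x hx)
    rwa [← mul_assoc, ← sym_ex_add] at this
  · intro x hx
    have := h.2 _ (h'.2 x hx)
    rwa [← mul_assoc, ← sym_ex_add, ← neg_add] at this

/-- The group of common rotations. -/
def symGroup (S S' : Set (ℂ × ℝ)) : AddSubgroup ℝ where
  carrier := {a | SymRot S a ∧ SymRot S' a}
  zero_mem' := ⟨SymRot.zero S, SymRot.zero S'⟩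
  add_mem' h h' := ⟨h.1.add h'.1, h.2.add h'.2⟩
  neg_mem' h := ⟨h.1.neg, h.2.neg⟩

lemma mem_symGroup {S S' : Set (ℂ × ℝ)} {a : ℝ} :
    a ∈ symGroup S S' ↔ SymRot S a ∧ SymRot S' a := Iff.rfl

lemma SymRot.isClosed {S : Set (ℂ × ℝ)} (hS : IsClosed S) : IsClosed {a | SymRot S a} := by
  have : {a | SymRot S a} = (⋂ x ∈ S, {a : ℝ | (ex a * x.1, x.2) ∈ S}) ∩
      ⋂ x ∈ S, {a : ℝ | (ex (-a) * x.1, x.2) ∈ S} := by
    ext a
    simp only [SymRot, Prod.forall, mem_ofPred_eq, mem_inter_iff, mem_iInter]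
  rw [this]
  refine IsClosed.inter (isClosed_biInter fun x _ => ?_) (isClosed_biInter fun x _ => ?_)
  · exact hS.preimage (by have := sym_ex_cont; fun_prop : Continuous fun a : ℝ =>
      (ex a * x.1, x.2))
  · exact hS.preimage (by have := sym_ex_cont; fun_prop : Continuous fun a : ℝ =>
      (ex (-a) * x.1, x.2))

lemma symGroup_cases {S S' : Set (ℂ × ℝ)} (hS : IsClosed S) (hS' : IsClosed S') {θ : ℝ}
    (hθ : ex θ ≠ 1) (h : θ ∈ symGroup S S') :
    Real.pi ∈ symGroup S S' ∨ ∃ m : ℕ, 3 ≤ m ∧ Odd m ∧ 2 * Real.pi / m ∈ symGroup S S' := by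
  have hcl : IsClosed (symGroup S S' : Set ℝ) := by
    have : (symGroup S S' : Set ℝ) = {a | SymRot S a} ∩ {a | SymRot S' a} := rfl
    rw [this]
    exact (SymRot.isClosed hS).inter (SymRot.isClosed hS')
  have h2pi : 2 * Real.pi ∈ symGroup S S' := by
    constructor <;> constructor <;> intro x hx <;>
      simpa [sym_ex_two_pi, sym_ex_neg_two_pi] using hx
  rcases AddSubgroup.dense_or_cyclic (symGroup S S') with hd | ⟨g, hg⟩
  · left
    have : (symGroup S S' : Set ℝ) = univ := by
      rw [← hcl.closure_eq]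
      exact hd.closure_eq
    have h3 : Real.pi ∈ (symGroup S S' : Set ℝ) := by rw [this]; exact mem_univ _
    exact h3
  · have hgm : g ∈ symGroup S S' := by
      rw [hg]
      exact AddSubgroup.subset_closure (mem_singleton g)
    rw [hg] at h2pi h
    obtain ⟨n, hn⟩ := AddSubgroup.mem_closure_singleton.1 h2pi
    obtain ⟨k, hk⟩ := AddSubgroup.mem_closure_singleton.1 h
    rw [zsmul_eq_mul] at hn hk
    have hpi := Real.pi_pos
    have hn0 : n ≠ 0 := by
      rintro rfl
      simp at hn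
    have hnr : (n : ℝ) ≠ 0 := by exact_mod_cast hn0
    have hgn : g = 2 * Real.pi / n := by
      field_simp
      linarith only [hn]
    have habs : 2 * Real.pi / (n.natAbs : ℝ) ∈ symGroup S S' := by
      rcases Int.natAbs_eq n with h5 | h5
      · have h6 : (n.natAbs : ℝ) = (n : ℝ) := by
          rw [← Int.cast_natCast (R := ℝ) n.natAbs, ← h5]
        rw [h6, ← hgn]
        exact hgm
      · have h6 : (n.natAbs : ℝ) = -(n : ℝ) := by
          have h7 : ((n.natAbs : ℤ)) = -n := by omega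
          rw [← Int.cast_natCast (R := ℝ) n.natAbs, h7, Int.cast_neg]
        rw [h6, div_neg, ← hgn]
        exact (symGroup S S').neg_mem hgm
    set m := n.natAbs with hm
    have hm0 : m ≠ 0 := by
      rw [hm]
      exact Int.natAbs_ne_zero.2 hn0
    have hm1 : m ≠ 1 := by
      intro h5
      apply hθ
      have h6 : n = 1 ∨ n = -1 := Int.natAbs_eq_iff.1 h5
      rw [← hk, hgn]
      unfold ex
      rw [Complex.exp_eq_one_iff]
      rcases h6 with h6 | h6
      · refine ⟨k, ?_⟩
        rw [h6]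
        push_cast
        ring
      · refine ⟨-k, ?_⟩
        rw [h6]
        push_cast
        ring
    rcases Nat.even_or_odd m with he | ho
    · left
      obtain ⟨r, hr⟩ := he
      have hr0 : (r : ℝ) ≠ 0 := by
        have : r ≠ 0 := by omega
        exact_mod_cast this
      have : Real.pi = (r : ℕ) • (2 * Real.pi / (m : ℝ)) := by
        rw [nsmul_eq_mul, hr]
        push_cast
        field_simp
        ring
      rw [this]
      exact (symGroup S S').nsmul_mem habs r
    · right
      refine ⟨m, ?_, ho, habs⟩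
      obtain ⟨r, hr⟩ := ho
      omega

open Vale.Agent.P227.Final in
lemma sym_mem {S : Set (E 3)} (hS : ∀ x ∈ S, -x ∈ S) (A : E 3 →ₗ[ℝ] E 3) (hA : A '' S = S)
    (T : E 3 ≃L[ℝ] ℂ × ℝ) {θ ε : ℝ} (hε : ε = 1 ∨ ε = -1)
    (hT : ∀ x, T (ε • A x) = (ex θ * (T x).1, (T x).2)) : SymRot (T '' S) θ := by
  have hεS : ∀ x ∈ S, ε • x ∈ S := by
    intro x hx
    rcases hε with h | h
    · rw [h, one_smul]; exact hx
    · rw [h, neg_one_smul]; exact hS x hx
  have hAS : ∀ x ∈ S, A x ∈ S := by
    intro x hx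
    rw [← hA]
    exact ⟨x, hx, rfl⟩
  constructor
  · rintro _ ⟨x, hx, rfl⟩
    exact ⟨ε • A x, hεS _ (hAS x hx), hT x⟩
  · rintro _ ⟨x, hx, rfl⟩
    have h1 : ε • x ∈ A '' S := by rw [hA]; exact hεS x hx
    obtain ⟨y, hy, hyx⟩ := h1
    have h2 : ε • A y = x := by
      rw [hyx, smul_smul]
      rcases hε with h | h <;> simp [h]
    refine ⟨y, hy, ?_⟩
    have h3 := hT y
    rw [h2] at h3
    rw [h3]
    simp only
    rw [← mul_assoc, ← sym_ex_add, neg_add_cancel, sym_ex_zero, one_mul]

open Vale.Agent.P227.Final in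
/-- (P9a) Either a common reflection or a common rotation of odd order. -/
theorem symmetry_dichotomy {K L : Set (E 3)} (hK : SymConvexBody K) (hL : SymConvexBody L)
    (A : E 3 →ₗ[ℝ] E 3) (hAK : A '' K = K) (hAL : A '' L = L) (h1 : A ≠ LinearMap.id)
    (h2 : A ≠ -LinearMap.id) :
    (∃ v w : Fin 1 → E 3, Invariant v w K ∧ Invariant v w L) ∨
    (∃ (T : E 3 ≃L[ℝ] ℂ × ℝ) (m : ℕ), 3 ≤ m ∧ Odd m ∧
      (∀ x ∈ T '' K, (ex (2 * Real.pi / m) * x.1, x.2) ∈ T '' K) ∧
      (∀ x ∈ T '' L, (ex (2 * Real.pi / m) * x.1, x.2) ∈ T '' L)) := by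
  obtain ⟨T, θ, ε, hε, hθ, hT⟩ := exists_coords hK.isCompact hK.nonempty_interior A hAK h1 h2
  have hcK : IsClosed (T '' K) := (hK.isCompact.image T.continuous).isClosed
  have hcL : IsClosed (T '' L) := (hL.isCompact.image T.continuous).isClosed
  rcases symGroup_cases hcK hcL hθ
    ⟨sym_mem hK.symm A hAK T hε hT, sym_mem hL.symm A hAL T hε hT⟩ with hp | ⟨m, hm, ho, hr⟩
  · left
    have hw : ∀ x : E 3, ip x ((InnerProductSpace.toDual ℝ (E 3)).symm
        ((ContinuousLinearMap.snd ℝ ℂ ℝ).comp (T : E 3 →L[ℝ] ℂ × ℝ))) = (T x).2 := by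
      intro x
      unfold ip
      rw [real_inner_comm, InnerProductSpace.toDual_symm_apply]
      rfl
    have key : ∀ S : Set (E 3), (∀ x ∈ S, -x ∈ S) → SymRot (T '' S) Real.pi →
        Invariant (fun _ : Fin 1 => T.symm (0, 1)) (fun _ : Fin 1 =>
          (InnerProductSpace.toDual ℝ (E 3)).symm
            ((ContinuousLinearMap.snd ℝ ℂ ℝ).comp (T : E 3 →L[ℝ] ℂ × ℝ))) S := by
      intro S hS hrot
      refine ⟨?_, ?_⟩
      · intro i j
        rw [hw, ContinuousLinearEquiv.apply_symm_apply, if_pos (Subsingleton.elim i j)]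
      · intro i x hx
        unfold reflection
        rw [hw]
        have h3 := hrot.1 (T x) ⟨x, hx, rfl⟩
        obtain ⟨y, hy, hyx⟩ := h3
        have h4 : x - (2 * (T x).2) • T.symm (0, 1) = -y := by
          apply T.injective
          rw [map_sub, map_smul, ContinuousLinearEquiv.apply_symm_apply, map_neg, hyx,
            sym_ex_pi]
          ext
          · simp only [Prod.smul_mk, smul_zero, smul_eq_mul, mul_one, Prod.fst_sub, sub_zero, neg_mul, one_mul, Prod.neg_mk, neg_neg]
          · simp only [Prod.smul_mk, smul_zero, smul_eq_mul, mul_one, Prod.snd_sub, neg_mul, one_mul, Prod.neg_mk, neg_neg]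
            ring
        rw [h4]
        exact hS y hy
    exact ⟨_, _, key K hK.symm hp.1, key L hL.symm hp.2⟩
  · right
    exact ⟨T, m, hm, ho, hr.1.1, hr.2.1⟩

end Vale.Agent.P227.Rot
end

section

/-!
# P227 / C2 : common linear symmetry in `R³`
-/

open Finset Real MeasureTheory
open scoped ENNReal Matrix

namespace Vale.Agent.P227.C2

/-- coordinates of `ℂ × ℝ` with the axis first -/
noncomputable def cxe : (ℂ × ℝ) ≃ₗ[ℝ] (Fin 3 → ℝ) where
  toFun z := ![z.2, z.1.re, z.1.im]
  invFun x := (⟨x 1, x 2⟩, x 0)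
  left_inv z := by simp
  right_inv x := by
    funext i
    fin_cases i <;> rfl
  map_add' z z' := by
    funext i
    fin_cases i <;> simp
  map_smul' c z := by
    funext i
    fin_cases i <;> simp

theorem rex_eq (a : ℝ) : Rot.ex a = ⟨cos a, sin a⟩ := by
  unfold Rot.ex
  rw [Complex.exp_mul_I, ← Complex.ofReal_cos, ← Complex.ofReal_sin]
  apply Complex.ext <;> simp [Complex.cos_ofReal_re, Complex.sin_ofReal_re]

open Vale.Agent.P227.T1 in
/-- the rotation case -/
theorem rot_case {K L : Set (EuclideanSpace ℝ (Fin 3))} (hK : SymConvexBody K)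
    (hL : SymConvexBody L) (T0 : EuclideanSpace ℝ (Fin 3) ≃L[ℝ] ℂ × ℝ) {m : ℕ} (hm : 3 ≤ m)
    (ho : Odd m) (rK : ∀ x ∈ T0 '' K, (Rot.ex (2 * π / m) * x.1, x.2) ∈ T0 '' K)
    (rL : ∀ x ∈ T0 '' L, (Rot.ex (2 * π / m) * x.1, x.2) ∈ T0 '' L)
    {t : ℝ} (h0 : 0 < t) (h1 : t < 1) :
    volume K ^ (1 - t) * volume L ^ t ≤ volume (logComb t K L) := by
  set T : EuclideanSpace ℝ (Fin 3) ≃L[ℝ] (Fin 3 → ℝ) :=
    T0.trans cxe.toContinuousLinearEquiv with hT
  have hTx : ∀ x, T x = cxe (T0 x) := fun x => rfl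
  obtain ⟨c, hc0, hc1, hc⟩ := exists_scale T
  set v : EuclideanSpace ℝ (Fin 3) → (Fin 3 → ℝ) := fun u i =>
    inner ℝ (T.symm (Pi.single i 1)) u with hv
  have hdot : ∀ x u, (T x) ⬝ᵥ (v u) = inner ℝ x u := by
    intro x u
    have h2 : x = ∑ i, (T x) i • T.symm (Pi.single i 1) := by
      apply T.injective
      rw [map_sum]
      simp only [map_smul, ContinuousLinearEquiv.apply_symm_apply]
      funext k
      rw [Finset.sum_apply]
      simp [Pi.single_apply]
    conv_rhs => rw [h2, sum_inner]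
    simp only [inner_smul_left, dotProduct, hv]
    rfl
  have hsup : ∀ (S : Set (EuclideanSpace ℝ (Fin 3))) u, hs (T '' S) (v u) = supportFn S u := by
    intro S u
    unfold hs supportFn
    rw [Set.image_image]
    congr 1
    apply Set.image_congr
    intro x _
    exact hdot x u
  have hconv : ∀ S, Convex ℝ S → Convex ℝ (T '' S) := fun S hS =>
    hS.is_linear_image (T : EuclideanSpace ℝ (Fin 3) →ₗ[ℝ] (Fin 3 → ℝ)).isLinear
  have hcomp : ∀ S, IsCompact S → IsCompact (T '' S) := fun S hS => hS.image T.continuous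
  have hsym : ∀ S : Set (EuclideanSpace ℝ (Fin 3)), (∀ x ∈ S, -x ∈ S) →
      ∀ y ∈ T '' S, -y ∈ T '' S := by
    rintro S hS _ ⟨x, hx, rfl⟩
    exact ⟨-x, hS x hx, by simp⟩
  have hrot : ∀ S : Set (EuclideanSpace ℝ (Fin 3)),
      (∀ x ∈ T0 '' S, (Rot.ex (2 * π / m) * x.1, x.2) ∈ T0 '' S) →
      ∀ y ∈ T '' S, rot (2 * π / m) y ∈ T '' S := by
    rintro S hS _ ⟨x, hx, rfl⟩
    obtain ⟨z, hz, hzx⟩ := hS _ ⟨x, hx, rfl⟩
    refine ⟨z, hz, ?_⟩
    rw [hTx, hzx, hTx]
    rw [rex_eq]
    funext i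
    fin_cases i
    · rfl
    · simp only [cxe, Fin.isValue, Fin.mk_one, LinearEquiv.coe_mk, LinearMap.coe_mk, AddHom.coe_mk, Complex.mul_re, Complex.mul_im, Matrix.cons_val_one, Matrix.cons_val_zero, rot, Matrix.cons_val]
      ring
    · simp only [cxe, Fin.isValue, Fin.reduceFinMk, LinearEquiv.coe_mk, LinearMap.coe_mk, AddHom.coe_mk, Complex.mul_re, Complex.mul_im, Matrix.cons_val, rot, Matrix.cons_val_zero, Matrix.cons_val_one]
      ring
  have key := rot_main hm ho (hconv K hK.convex) (hconv L hL.convex)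
    (hcomp K hK.isCompact) (hcomp L hL.isCompact) (hsym K hK.symm) (hsym L hL.symm)
    (hrot K rK) (hrot L rL) h0 h1
  have hincl : (wf fun u => hs (T '' K) u ^ (1 - t) * hs (T '' L) u ^ t) ⊆
      T '' (logComb t K L) := by
    intro y hy
    refine ⟨T.symm y, ?_, by simp⟩
    intro u _
    have := hy (v u)
    rw [← hdot, T.apply_symm_apply]
    simpa only [hsup] using this
  have key2 := le_trans key (measure_mono hincl)
  rw [hc, hc, hc, ENNReal.mul_rpow_of_nonneg _ _ (by linarith only [h1]), ENNReal.mul_rpow_of_nonneg _ _ h0.le,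
    mul_mul_mul_comm, ← ENNReal.rpow_add _ _ hc0 hc1] at key2
  simp only [sub_add_cancel, ENNReal.rpow_one] at key2
  exact (ENNReal.mul_le_mul_iff_right hc0 hc1).1 key2

/-- log-Brunn-Minkowski in `R³` for two bodies with a common linear symmetry other than `±1` -/
theorem sym_main {K L : Set (EuclideanSpace ℝ (Fin 3))} (hK : SymConvexBody K)
    (hL : SymConvexBody L) (A : EuclideanSpace ℝ (Fin 3) →ₗ[ℝ] EuclideanSpace ℝ (Fin 3))
    (hA : A ≠ LinearMap.id) (hA' : A ≠ -LinearMap.id) (aK : A '' K = K) (aL : A '' L = L)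
    {t : ℝ} (ht0 : 0 ≤ t) (ht1 : t ≤ 1) :
    volume K ^ (1 - t) * volume L ^ t ≤ volume (logComb t K L) := by
  have hbdd : ∀ (S : Set (EuclideanSpace ℝ (Fin 3))), IsCompact S → ∀ u,
      BddAbove ((fun x => inner ℝ x u) '' S) := by
    intro S hS u
    exact (hS.image (by fun_prop)).bddAbove
  rcases ht0.eq_or_lt with h0 | h0
  · subst h0
    rw [sub_zero, ENNReal.rpow_one, ENNReal.rpow_zero, mul_one]
    apply measure_mono
    intro x hx u _
    simp only [sub_zero, Real.rpow_one, Real.rpow_zero, mul_one]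
    exact le_csSup (hbdd K hK.isCompact u) ⟨x, hx, rfl⟩
  rcases ht1.eq_or_lt with h1 | h1
  · subst h1
    rw [sub_self, ENNReal.rpow_one, ENNReal.rpow_zero, one_mul]
    apply measure_mono
    intro x hx u _
    simp only [sub_self, Real.rpow_one, Real.rpow_zero, one_mul]
    exact le_csSup (hbdd L hL.isCompact u) ⟨x, hx, rfl⟩
  rcases Rot.symmetry_dichotomy (K := K) (L := L)
    ⟨hK.convex, hK.isCompact, hK.nonempty_interior, hK.symm⟩
    ⟨hL.convex, hL.isCompact, hL.nonempty_interior, hL.symm⟩ A aK aL hA hA' with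
    ⟨v, w, iK, iL⟩ | ⟨T, m, hm, ho, rK, rL⟩
  · exact T1.main_biorth v w iK.biorth K L hK hL iK.mem iL.mem t ⟨h0.le, h1.le⟩
  · exact rot_case hK hL T hm ho rK rL h0 h1

end Vale.Agent.P227.C2
end

section

/-!
# P227 / C2 : every dimension, coordinate form
-/

open MeasureTheory Set
open scoped ENNReal NNReal Pointwise Matrix

namespace Vale.Agent.P227.C2

open Vale.Agent.P227.T1

/-- The inductive step: from the sections orthogonal to a reflection to the body. -/
theorem refl_step {l : ℝ} (hl0 : 0 < l) (hl1 : l < 1) {n : ℕ} {K L : Set (Fin (n + 1) → ℝ)}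
    (hK : IsCompact K) (hL : IsCompact L)
    (sK : ∀ x ∈ K, -x ∈ K) (sL : ∀ x ∈ L, -x ∈ L)
    (r0K : ∀ x ∈ K, Function.update x 0 (-x 0) ∈ K)
    (r0L : ∀ x ∈ L, Function.update x 0 (-x 0) ∈ L)
    (ssec : ∀ (S : Set (Fin (n + 1) → ℝ)), (∀ x ∈ S, -x ∈ S) →
        (∀ x ∈ S, Function.update x 0 (-x 0) ∈ S) → ∀ (c : ℝ), ∀ x ∈ sec S c, -x ∈ sec S c)
    (key : ∀ a b, volume (sec K a) ≠ 0 → volume (sec L b) ≠ 0 →
      volume (sec K a) ^ (1 - l) * volume (sec L b) ^ l ≤
        volume (wf fun u => hs (sec K a) u ^ (1 - l) * hs (sec L b) u ^ l)) :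
    volume K ^ (1 - l) * volume L ^ l ≤
        volume (wf fun u => hs K u ^ (1 - l) * hs L u ^ l) := by
  have h1l : 0 < 1 - l := by linarith only [hl1]
  set f : (Fin (n + 1) → ℝ) → ℝ := fun u => hs K u ^ (1 - l) * hs L u ^ l with hf
  have flip : ∀ S : Set (Fin (n + 1) → ℝ),
      (∀ x ∈ S, Function.update x 0 (-x 0) ∈ S) → ∀ a, sec S (-a) = sec S a := by
    intro S hS
    have h1 : ∀ a, sec S a ⊆ sec S (-a) := by
      intro a x hx
      have := hS _ hx
      rwa [Fin.cons_zero, Fin.update_cons_zero] at this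
    intro a
    apply Subset.antisymm
    · have := h1 (-a)
      rwa [neg_neg] at this
    · exact h1 a
  have dotupd : ∀ x u : Fin (n + 1) → ℝ,
      Function.update x 0 (-x 0) ⬝ᵥ u = x ⬝ᵥ Function.update u 0 (-u 0) := by
    intro x u
    simp only [dotProduct, Fin.sum_univ_succ, Function.update_self, neg_mul, ne_eq, Fin.succ_ne_zero, not_false_eq_true, Function.update_of_ne, mul_neg]
  have hsupd : ∀ S : Set (Fin (n + 1) → ℝ), (∀ x ∈ S, Function.update x 0 (-x 0) ∈ S) →
      ∀ u, hs S (Function.update u 0 (-u 0)) = hs S u := by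
    intro S hS u
    unfold hs
    congr 1
    ext c
    constructor
    · rintro ⟨x, hx, rfl⟩
      exact ⟨_, hS x hx, dotupd x u⟩
    · rintro ⟨x, hx, rfl⟩
      refine ⟨_, hS x hx, ?_⟩
      simp only
      rw [dotupd]
      congr 1
      simp
  have r0M : ∀ x ∈ wf f, Function.update x 0 (-x 0) ∈ wf f := by
    intro x hx u
    rw [dotupd]
    refine le_trans (hx _) (le_of_eq ?_)
    simp only [hf, hsupd K r0K, hsupd L r0L]
  have hMm : MeasurableSet (wf f) := (wf_isClosed f).measurableSet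
  have eK := volume_sec hK.measurableSet
  have eL := volume_sec hL.measurableSet
  have eM := volume_sec hMm
  rw [lintegral_even (measurable_sec hK.measurableSet) fun a => by rw [flip K r0K]] at eK
  rw [lintegral_even (measurable_sec hL.measurableSet) fun a => by rw [flip L r0L]] at eL
  rw [lintegral_even (measurable_sec hMm) fun a => by rw [flip _ r0M]] at eM
  rw [eK, eL, eM, ENNReal.mul_rpow_of_nonneg _ _ h1l.le, ENNReal.mul_rpow_of_nonneg _ _ hl0.le]
  have h2 : (2 : ℝ≥0∞) ^ (1 - l) * 2 ^ l = 2 := by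
    rw [← ENNReal.rpow_add _ _ (by norm_num) (by norm_num)]
    simp
  rw [mul_mul_mul_comm, h2]
  gcongr
  apply pl_mul hl0 hl1 _ _ _ (measurable_sec hK.measurableSet) (measurable_sec hL.measurableSet)
    (measurable_sec hMm)
  intro a b ha hb
  by_cases vK : volume (sec K a) = 0
  · rw [vK, ENNReal.zero_rpow_of_pos h1l, zero_mul]
    exact zero_le
  by_cases vL : volume (sec L b) = 0
  · rw [vL, ENNReal.zero_rpow_of_pos hl0, mul_zero]
    exact zero_le
  have nKa : (sec K a).Nonempty := by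
    rw [nonempty_iff_ne_empty]; intro h; rw [h] at vK; simp at vK
  have nLb : (sec L b).Nonempty := by
    rw [nonempty_iff_ne_empty]; intro h; rw [h] at vL; simp at vL
  refine le_trans (key a b vK vL) (measure_mono ?_)
  have hlow : ∀ (S : Set (Fin (n + 1) → ℝ)) (c : ℝ), 0 < c → IsCompact S →
      (∀ x ∈ S, Function.update x 0 (-x 0) ∈ S) → (sec S c).Nonempty →
      ∀ u : Fin (n + 1) → ℝ, c * |u 0| + hs (sec S c) (Fin.tail u) ≤ hs S u := by
    intro S c hc hS rS nS u
    obtain ⟨y, hy, hyu⟩ := exists_hs (sec_isCompact hS c) nS (Fin.tail u)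
    rw [← hyu]
    rcases le_total 0 (u 0) with h | h
    · rw [abs_of_nonneg h, ← cons_dot]
      exact le_hs hS hy u
    · rw [abs_of_nonpos h]
      have h4 := rS _ hy
      rw [Fin.cons_zero, Fin.update_cons_zero] at h4
      have := le_hs hS h4 u
      rw [cons_dot] at this
      linarith only [this]
  intro x hx u
  rw [cons_dot]
  have i1 := hx (Fin.tail u)
  have i2 := hlow K a ha hK r0K nKa u
  have i3 := hlow L b hb hL r0L nLb u
  have j1 : 0 ≤ hs (sec K a) (Fin.tail u) :=
    hs_nonneg (sec_isCompact hK a) nKa (ssec K sK r0K a) _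
  have j2 : 0 ≤ hs (sec L b) (Fin.tail u) :=
    hs_nonneg (sec_isCompact hL b) nLb (ssec L sL r0L b) _
  have e1 : (a * |u 0|) ^ (1 - l) * (b * |u 0|) ^ l = a ^ (1 - l) * b ^ l * |u 0| := by
    rw [Real.mul_rpow ha.le (abs_nonneg _), Real.mul_rpow hb.le (abs_nonneg _)]
    have : |u 0| ^ (1 - l) * |u 0| ^ l = |u 0| := by
      rw [← Real.rpow_add' (abs_nonneg _) (by simp)]
      simp
    calc a ^ (1 - l) * |u 0| ^ (1 - l) * (b ^ l * |u 0| ^ l)
        = a ^ (1 - l) * b ^ l * (|u 0| ^ (1 - l) * |u 0| ^ l) := by ring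
      _ = _ := by rw [this]
  have hh := holder2 hl0 hl1 (p := a * |u 0|) (q := b * |u 0|)
    (r := hs (sec K a) (Fin.tail u)) (s := hs (sec L b) (Fin.tail u))
    (by (clear * - ha; positivity)) (by (clear * - hb; positivity)) j1 j2
  rw [e1] at hh
  have e2 : a ^ (1 - l) * b ^ l * u 0 ≤ a ^ (1 - l) * b ^ l * |u 0| := by
    have := le_abs_self (u 0)
    have : 0 ≤ a ^ (1 - l) * b ^ l := by (clear * - ha hb; positivity)
    (clear hl0 hl1 K L hK hL sK sL r0K r0L ssec key h1l f hf flip dotupd hsupd r0M hMm eK eL eM h2 vK vL nKa nLb hlow x hx i1 i2 i3 j1 j2 e1 hh this; gcongr)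
  have e3 : (a * |u 0| + hs (sec K a) (Fin.tail u)) ^ (1 - l) *
      (b * |u 0| + hs (sec L b) (Fin.tail u)) ^ l ≤ f u := by
    simp only [hf]
    have k1 : 0 ≤ hs K u := le_trans (by (clear * - ha j1; positivity)) i2
    have k2 : 0 ≤ hs L u := le_trans (by (clear * - hb j2; positivity)) i3
    exact mul_le_mul (Real.rpow_le_rpow (by (clear * - ha j1; positivity)) i2 h1l.le)
      (Real.rpow_le_rpow (by (clear * - hb j2; positivity)) i3 hl0.le) (by (clear * - hb j2; positivity)) (by (clear * - k1; positivity))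
  linarith only [i1, hh, e2, e3]

theorem ssec_gen {n : ℕ} (S : Set (Fin (n + 1) → ℝ)) (sS : ∀ x ∈ S, -x ∈ S)
    (rS : ∀ x ∈ S, Function.update x 0 (-x 0) ∈ S) (c : ℝ) : ∀ x ∈ sec S c, -x ∈ sec S c := by
  intro x hx
  have h3 := rS _ (sS _ hx)
  show (Fin.cons c (-x) : Fin (n + 1) → ℝ) ∈ S
  convert h3 using 1
  funext i
  refine Fin.cases ?_ (fun j => ?_) i
  · simp only [Fin.cons_zero, Pi.neg_apply, neg_neg, Function.update_self]
  · simp only [Fin.cons_succ, Pi.neg_apply, Fin.cons_zero, neg_neg, ne_eq, Fin.succ_ne_zero, not_false_eq_true, Function.update_of_ne]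

/-- a compact convex set of positive volume has interior points -/
theorem interior_ne {n : ℕ} {K : Set (Fin n → ℝ)} (cK : Convex ℝ K) (hK : IsCompact K)
    (vK : volume K ≠ 0) : (interior K).Nonempty := by
  rw [nonempty_iff_ne_empty]
  intro h
  apply vK
  have h1 := cK.addHaar_frontier (volume : Measure (Fin n → ℝ))
  rw [frontier, h, sdiff_empty, hK.isClosed.closure_eq] at h1
  exact h1

/-- base case of the induction -/
theorem base_three {l : ℝ} (hl0 : 0 < l) (hl1 : l < 1) (B : (Fin 3 → ℝ) →ₗ[ℝ] (Fin 3 → ℝ))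
    (hB : B ≠ LinearMap.id) (hB' : B ≠ -LinearMap.id) {K L : Set (Fin 3 → ℝ)}
    (cK : Convex ℝ K) (cL : Convex ℝ L) (hK : IsCompact K) (hL : IsCompact L)
    (sK : ∀ x ∈ K, -x ∈ K) (sL : ∀ x ∈ L, -x ∈ L) (bK : ∀ x ∈ K, B x ∈ K)
    (bL : ∀ x ∈ L, B x ∈ L) (bK' : ∀ x ∈ K, ∃ z ∈ K, B z = x) (bL' : ∀ x ∈ L, ∃ z ∈ L, B z = x) :
    volume K ^ (1 - l) * volume L ^ l ≤ volume (wf fun u => hs K u ^ (1 - l) * hs L u ^ l) := by
  have h1l : 0 < 1 - l := by linarith
  by_cases vK : volume K = 0
  · rw [vK, ENNReal.zero_rpow_of_pos h1l, zero_mul]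
    exact zero_le
  by_cases vL : volume L = 0
  · rw [vL, ENNReal.zero_rpow_of_pos hl0, mul_zero]
    exact zero_le
  obtain ⟨-, fp, f0, fh⟩ := logFn_props hK hL sK sL vK vL hl0 hl1
  set e : EuclideanSpace ℝ (Fin 3) ≃L[ℝ] (Fin 3 → ℝ) := EuclideanSpace.equiv (Fin 3) ℝ with he
  obtain ⟨c, hc0, hc1, hc⟩ := exists_scale e
  have hin : ∀ x u : EuclideanSpace ℝ (Fin 3), inner ℝ x u = e x ⬝ᵥ e u := by
    intro x u
    simp only [PiLp.inner_apply, RCLike.inner_apply, Real.ringHom_apply, mul_comm, dotProduct, he, PiLp.continuousLinearEquiv_apply]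
  have hbody : ∀ S : Set (Fin 3 → ℝ), Convex ℝ S → IsCompact S → (∀ x ∈ S, -x ∈ S) →
      volume S ≠ 0 → SymConvexBody (e ⁻¹' S) := by
    intro S cS hS sS vS
    refine ⟨?_, ?_, ?_, ?_⟩
    · exact cS.linear_preimage (e : EuclideanSpace ℝ (Fin 3) →ₗ[ℝ] (Fin 3 → ℝ))
    · exact e.toHomeomorph.isCompact_preimage.2 hS
    · have h1 := interior_ne cS hS vS
      have h2 := e.toHomeomorph.preimage_interior S
      change (interior (e.toHomeomorph ⁻¹' S)).Nonempty
      rw [← h2]
      exact h1.preimage e.toHomeomorph.surjective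
    · intro x hx
      have := sS _ hx
      rw [mem_preimage, map_neg]
      exact this
  set A : EuclideanSpace ℝ (Fin 3) →ₗ[ℝ] EuclideanSpace ℝ (Fin 3) :=
    (e.symm : (Fin 3 → ℝ) →ₗ[ℝ] EuclideanSpace ℝ (Fin 3)) ∘ₗ B ∘ₗ
      (e : EuclideanSpace ℝ (Fin 3) →ₗ[ℝ] (Fin 3 → ℝ)) with hAdef
  have hAe : ∀ x, e (A x) = B (e x) := by
    intro x
    simp [hAdef]
  have hAid : A ≠ LinearMap.id := by
    intro h
    apply hB
    ext1 i
    ext j
    have := hAe (e.symm (Pi.single i 1))
    rw [h] at this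
    simp at this
    simp only [LinearMap.coe_comp, LinearMap.coe_single, Function.comp_apply, ← this, LinearMap.id_comp]
  have hAid' : A ≠ -LinearMap.id := by
    intro h
    apply hB'
    ext1 i
    ext j
    have := hAe (e.symm (Pi.single i 1))
    rw [h] at this
    simp only [LinearMap.neg_apply, LinearMap.id_coe, id_eq, map_neg, ContinuousLinearEquiv.apply_symm_apply] at this
    simp only [LinearMap.coe_comp, LinearMap.coe_single, Function.comp_apply, ← this, Pi.neg_apply, LinearMap.neg_comp, LinearMap.id_comp, LinearMap.neg_apply]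
  have himg : ∀ S : Set (Fin 3 → ℝ), (∀ x ∈ S, B x ∈ S) → (∀ x ∈ S, ∃ z ∈ S, B z = x) →
      A '' (e ⁻¹' S) = e ⁻¹' S := by
    intro S h1 h2
    apply Subset.antisymm
    · rintro _ ⟨x, hx, rfl⟩
      rw [mem_preimage, hAe]
      exact h1 _ hx
    · intro x hx
      obtain ⟨z, hz, hzx⟩ := h2 _ hx
      refine ⟨e.symm z, by simpa using hz, ?_⟩
      apply e.injective
      rw [hAe, e.apply_symm_apply, hzx]
  have key := sym_main (hbody K cK hK sK vK) (hbody L cL hL sL vL) A hAid hAid'
    (himg K bK bK') (himg L bL bL') hl0.le hl1.le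
  have hsup : ∀ (S : Set (Fin 3 → ℝ)) u, supportFn (e ⁻¹' S) u = hs S (e u) := by
    intro S u
    unfold hs supportFn
    congr 1
    ext r
    constructor
    · rintro ⟨x, hx, rfl⟩
      exact ⟨e x, hx, (hin x u).symm⟩
    · rintro ⟨x, hx, rfl⟩
      refine ⟨e.symm x, by simpa using hx, ?_⟩
      simp only
      rw [hin, e.apply_symm_apply]
  have hincl : e '' (logComb l (e ⁻¹' K) (e ⁻¹' L)) ⊆
      wf fun u => hs K u ^ (1 - l) * hs L u ^ l := by
    rintro _ ⟨x, hx, rfl⟩ u
    by_cases hu : u = 0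
    · subst hu
      simp only [dotProduct_zero, f0, le_refl]
    · set u' := e.symm u with hu'
      have hne : u' ≠ 0 := by
        intro h
        apply hu
        rw [← e.apply_symm_apply u, ← hu', h, map_zero]
      have hnorm : 0 < ‖u'‖ := norm_pos_iff.2 hne
      have h1 := hx (‖u'‖⁻¹ • u') (by
        rw [norm_smul, norm_inv, norm_norm, inv_mul_cancel₀ hnorm.ne'])
      simp only [hsup] at h1
      rw [hin, map_smul, hu', e.apply_symm_apply, ← hu'] at h1
      rw [fh _ (by positivity), dotProduct_smul, smul_eq_mul] at h1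
      exact le_of_mul_le_mul_left h1 (by positivity)
  have key2 : volume (e '' (logComb l (e ⁻¹' K) (e ⁻¹' L))) ≤
      volume (wf fun u => hs K u ^ (1 - l) * hs L u ^ l) := measure_mono hincl
  refine le_trans ?_ key2
  have e1 : e '' (e ⁻¹' K) = K := image_preimage_eq _ e.surjective
  have e2 : e '' (e ⁻¹' L) = L := image_preimage_eq _ e.surjective
  have v1 : volume K = c * volume (e ⁻¹' K) := by rw [← hc, e1]
  have v2 : volume L = c * volume (e ⁻¹' L) := by rw [← hc, e2]
  rw [v1, v2, hc, ENNReal.mul_rpow_of_nonneg _ _ (by linarith only [hl1]), ENNReal.mul_rpow_of_nonneg _ _ hl0.le,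
    mul_mul_mul_comm, ← ENNReal.rpow_add _ _ hc0 hc1]
  simp only [sub_add_cancel, ENNReal.rpow_one]
  (clear * - key; gcongr)

/-- last three coordinates -/
def tl (m : ℕ) (y : Fin (m + 3) → ℝ) : Fin 3 → ℝ := fun j => y ⟨m + j.val, by omega⟩

/-- invariance of the iterated sections -/
def Inv (B : (Fin 3 → ℝ) → (Fin 3 → ℝ)) : (m : ℕ) → Set (Fin (m + 3) → ℝ) → Prop
  | 0, S => ∀ x ∈ S, B x ∈ S
  | m + 1, S => ∀ c, Inv B m (sec (m := m + 3) S c)

theorem inv_of {B : (Fin 3 → ℝ) → (Fin 3 → ℝ)} (m : ℕ) : ∀ (S : Set (Fin (m + 3) → ℝ)),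
    (∀ y ∈ S, ∀ y' : Fin (m + 3) → ℝ, (∀ i, i.val < m → y' i = y i) → tl m y' = B (tl m y) →
      y' ∈ S) → Inv B m S := by
  induction m with
  | zero =>
    intro S hS x hx
    refine hS x hx (B x) (fun i hi => absurd hi (by omega)) ?_
    have h1 : ∀ z : Fin (0 + 3) → ℝ, tl 0 z = z := by
      intro z
      funext j
      unfold tl
      congr 1
      ext
      simp
    rw [h1, h1]
  | succ m ih =>
    intro S hS c
    apply ih
    intro y hy y' h1 h2
    refine hS _ hy (Fin.cons c y') ?_ ?_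
    · intro i hi
      revert hi
      refine Fin.cases (fun _ => rfl) (fun j hj => ?_) i
      have hj' : j.val < m := by
        have := hj
        simp only [Fin.val_succ, Order.lt_add_one_iff, Order.add_one_le_iff] at this
        omega
      rw [Fin.cons_succ, Fin.cons_succ]
      exact h1 j hj'
    · have h3 : ∀ z : Fin (m + 3) → ℝ,
          tl (m + 1) (Fin.cons c z : Fin (m + 3 + 1) → ℝ) = tl m z := by
        intro z
        funext j
        unfold tl
        have : (⟨m + 1 + j.val, by omega⟩ : Fin (m + 3 + 1)) = Fin.succ ⟨m + j.val, by omega⟩ := by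
          ext
          simp only [Fin.succ_mk]
          omega
        change (Fin.cons c z : Fin (m + 3 + 1) → ℝ) ⟨m + 1 + j.val, by omega⟩ = _
        rw [this, Fin.cons_succ]
      rw [h3, h3, h2]

/-- coordinate form -/
theorem logBM_sym {l : ℝ} (hl0 : 0 < l) (hl1 : l < 1) (B : (Fin 3 → ℝ) →ₗ[ℝ] (Fin 3 → ℝ))
    (C : (Fin 3 → ℝ) → (Fin 3 → ℝ)) (hBC : ∀ z, B (C z) = z)
    (hB : B ≠ LinearMap.id) (hB' : B ≠ -LinearMap.id) (m : ℕ) :
    ∀ K L : Set (Fin (m + 3) → ℝ), Convex ℝ K → Convex ℝ L → IsCompact K → IsCompact L →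
      (∀ x ∈ K, -x ∈ K) → (∀ x ∈ L, -x ∈ L) →
      (∀ i : Fin (m + 3), i.val < m → ∀ x ∈ K, Function.update x i (-x i) ∈ K) →
      (∀ i : Fin (m + 3), i.val < m → ∀ x ∈ L, Function.update x i (-x i) ∈ L) →
      Inv B m K → Inv B m L → Inv C m K → Inv C m L →
      volume K ^ (1 - l) * volume L ^ l ≤
        volume (wf fun u => hs K u ^ (1 - l) * hs L u ^ l) := by
  induction m with
  | zero =>
    intro K L cK cL hK hL sK sL _ _ bK bL bK' bL'
    exact base_three hl0 hl1 B hB hB' cK cL hK hL sK sL bK bL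
      (fun x hx => ⟨C x, bK' x hx, hBC x⟩) (fun x hx => ⟨C x, bL' x hx, hBC x⟩)
  | succ m ih =>
    intro K L cK cL hK hL sK sL rK rL bK bL bK' bL'
    have r0K : ∀ x ∈ K, Function.update x 0 (-x 0) ∈ K := rK 0 (by simp only [Fin.coe_ofNat_eq_mod, Nat.zero_mod, lt_add_iff_pos_left, Order.lt_add_one_iff, zero_le])
    have r0L : ∀ x ∈ L, Function.update x 0 (-x 0) ∈ L := rL 0 (by simp only [Fin.coe_ofNat_eq_mod, Nat.zero_mod, lt_add_iff_pos_left, Order.lt_add_one_iff, zero_le])
    have rsec : ∀ (S : Set (Fin (m + 1 + 3) → ℝ)),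
        (∀ i : Fin (m + 1 + 3), i.val < m + 1 → ∀ x ∈ S, Function.update x i (-x i) ∈ S) →
        ∀ (c : ℝ) (i : Fin (m + 3)), i.val < m → ∀ x ∈ sec (m := m + 3) S c,
          Function.update x i (-x i) ∈ sec (m := m + 3) S c := by
      intro S rS c i hi x hx
      have h3 := rS i.succ (by simp only [Fin.val_succ, Order.lt_add_one_iff, Order.add_one_le_iff]; omega) _ hx
      show (Fin.cons c (Function.update x i (-x i)) : Fin (m + 3 + 1) → ℝ) ∈ S
      rw [Fin.cons_update]
      simpa using h3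
    exact refl_step (n := m + 3) hl0 hl1 hK hL sK sL r0K r0L (fun S h1 h2 c => ssec_gen S h1 h2 c)
      (fun a b _ _ => ih (sec (m := m + 3) K a) (sec (m := m + 3) L b) (sec_convex cK a)
        (sec_convex cL b) (sec_isCompact hK a)
        (sec_isCompact hL b) (ssec_gen K sK r0K a) (ssec_gen L sL r0L b) (rsec K rK a)
        (rsec L rL b) (bK a) (bL b) (bK' a) (bL' b))

end Vale.Agent.P227.C2
end

section
attribute [-instance] ProperSMul.toContinuousSMul IsTopologicalTorsor.toContinuousSMul IdemSemiring.toCanonicallyOrderedAdd IdemSemiring.toMulLeftMono IdemSemiring.toMulRightMono AddQuantale.instAddLeftMono AddQuantale.instAddRightMono Quantale.instMulLeftMono Quantale.instMulRightMono FiniteDimensional.rclike_to_real IsScalarTower.complexToReal FiniteDimensional.complexToReal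

/-!
# P227 / C2 : every dimension, commuting reflections and one more common linear symmetry
-/

open Finset Real MeasureTheory
open scoped ENNReal Matrix

namespace Vale.Agent.P227.C2

open Vale.Agent.P227.T1

theorem exists_basis3 {m : ℕ} (v w : Fin m → EuclideanSpace ℝ (Fin (m + 3)))
    (hvw : ∀ i j, inner ℝ (v i) (w j) = if i = j then (1 : ℝ) else 0) :
    ∃ b : Module.Basis (Fin (m + 3)) ℝ (EuclideanSpace ℝ (Fin (m + 3))),
      (∀ i : Fin m, b (Fin.castAdd 3 i) = v i) ∧
      (∀ i : Fin m, ∀ x, b.repr x (Fin.castAdd 3 i) = inner ℝ x (w i)) := by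
  classical
  let Φ : EuclideanSpace ℝ (Fin (m + 3)) →ₗ[ℝ] (Fin m → ℝ) :=
    LinearMap.pi fun i => (innerₛₗ ℝ (w i))
  have hΦ : ∀ x i, Φ x i = inner ℝ (w i) x := fun x i => rfl
  have hsurj : Function.Surjective Φ := by
    intro y
    refine ⟨∑ i, y i • v i, ?_⟩
    funext j
    rw [hΦ, inner_sum]
    simp only [inner_smul_right]
    rw [Finset.sum_eq_single j]
    · rw [real_inner_comm, hvw]; simp
    · intro i _ hij
      rw [real_inner_comm, hvw, if_neg hij, mul_zero]
    · simp only [mem_univ, not_true_eq_false, mul_eq_zero, IsEmpty.forall_iff]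
  have hdim : Module.finrank ℝ (LinearMap.ker Φ) = 3 := by
    have h1 := LinearMap.finrank_range_add_finrank_ker Φ
    rw [LinearMap.range_eq_top.2 hsurj, finrank_top] at h1
    simp only [Module.finrank_fintype_fun_eq_card, Fintype.card_fin, finrank_euclideanSpace, Nat.add_left_cancel_iff] at h1
    omega
  let c : Module.Basis (Fin 3) ℝ (LinearMap.ker Φ) := Module.finBasisOfFinrankEq ℝ _ hdim
  let f : Fin (m + 3) → EuclideanSpace ℝ (Fin (m + 3)) :=
    Fin.addCases v (fun j => (c j : EuclideanSpace ℝ (Fin (m + 3))))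
  have hfl : ∀ i, f (Fin.castAdd 3 i) = v i := fun i => by simp [f]
  have hfr : ∀ j, f (Fin.natAdd m j) = c j := fun j => by simp [f]
  have hck : ∀ j k, inner ℝ (w k) (c j : EuclideanSpace ℝ (Fin (m + 3))) = 0 := by
    intro j k
    have : Φ (c j : EuclideanSpace ℝ (Fin (m + 3))) = 0 := (c j).2
    rw [← hΦ, this]; rfl
  have hli : LinearIndependent ℝ f := by
    rw [Fintype.linearIndependent_iff]
    intro g hg
    rw [Fin.sum_univ_add] at hg
    simp only [hfl, hfr] at hg
    have ha : ∀ k : Fin m, g (Fin.castAdd 3 k) = 0 := by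
      intro k
      have h2 := congrArg (fun z => inner ℝ (w k) z) hg
      simp only [inner_add_right, inner_sum, inner_smul_right, inner_zero_right, hck, mul_zero,
        Finset.sum_const_zero, add_zero] at h2
      rw [Finset.sum_eq_single k] at h2
      · rw [real_inner_comm, hvw] at h2
        simpa using h2
      · intro i _ hik
        rw [real_inner_comm, hvw, if_neg hik, mul_zero]
      · simp only [mem_univ, not_true_eq_false, mul_eq_zero, IsEmpty.forall_iff]
    simp only [ha, zero_smul, Finset.sum_const_zero, zero_add] at hg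
    have hc' : ∑ j : Fin 3, g (Fin.natAdd m j) • c j = 0 := by
      apply Subtype.ext
      push_cast
      exact hg
    have hd := Fintype.linearIndependent_iff.1 c.linearIndependent _ hc'
    intro i
    refine Fin.addCases (fun i => ha i) (fun j => hd j) i
  let b := basisOfLinearIndependentOfCardEqFinrank hli (by simp)
  have hb : ∀ i, b i = f i := fun i => by simp [b]
  refine ⟨b, fun i => by rw [hb, hfl], ?_⟩
  intro i x
  have hcoord : b.coord (Fin.castAdd 3 i) = (innerₛₗ ℝ (w i)) := by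
    apply b.ext
    intro j
    rw [Module.Basis.coord_apply, Module.Basis.repr_self]
    refine Fin.addCases (fun j => ?_) (fun j => ?_) j
    · rw [hb, hfl]
      show _ = inner ℝ (w i) (v j)
      rw [real_inner_comm, hvw, Finsupp.single_apply]
      by_cases hij : j = i
      · simp [hij]
      · rw [if_neg hij, if_neg]
        intro h
        exact hij (Fin.castAdd_injective m 3 h)
    · rw [hb, hfr]
      show _ = inner ℝ (w i) (c j : EuclideanSpace ℝ (Fin (m + 3)))
      rw [hck, Finsupp.single_apply, if_neg]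
      intro h
      have := congrArg Fin.val h
      simp at this
      omega
  have := congrArg (fun φ => φ x) hcoord
  simp only [Module.Basis.coord_apply] at this
  rw [this]
  show inner ℝ (w i) x = inner ℝ x (w i)
  exact real_inner_comm _ _

/-- closed under sign changes of some of the first coordinates -/
theorem flips {m : ℕ} {S : Set (Fin (m + 3) → ℝ)}
    (rS : ∀ i : Fin (m + 3), i.val < m → ∀ x ∈ S, Function.update x i (-x i) ∈ S)
    {y : Fin (m + 3) → ℝ} (hy : y ∈ S) (s : Finset (Fin (m + 3))) :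
    ∀ z : Fin (m + 3) → ℝ, (∀ i, i ∉ s → z i = y i) →
      (∀ i ∈ s, i.val < m ∧ (z i = y i ∨ z i = -y i)) → z ∈ S := by
  classical
  induction s using Finset.induction_on with
  | empty =>
    intro z h1 _
    have : z = y := funext fun i => h1 i (by simp)
    rw [this]
    exact hy
  | insert a s ha ih =>
    intro z h1 h2
    have h3 := ih (Function.update z a (y a)) (by
      intro i hi
      by_cases hia : i = a
      · subst hia; simp
      · rw [Function.update_of_ne hia]
        exact h1 i (by simp [hia, hi])) (by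
      intro i hi
      have hia : i ≠ a := fun h => ha (h ▸ hi)
      rw [Function.update_of_ne hia]
      exact h2 i (by simp [hi]))
    obtain ⟨ham, hz | hz⟩ := h2 a (by simp)
    · rw [← hz, Function.update_eq_self] at h3
      exact h3
    · have h4 := rS a ham _ h3
      rw [Function.update_self, Function.update_idem, ← hz, Function.update_eq_self] at h4
      exact h4

/-- log-Brunn-Minkowski in `R^(m+3)` for two bodies sharing `m` commuting reflections and one more
linear symmetry, which commutes with the reflections and is not `±1` on their common fixed space -/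
theorem dim_main {m : ℕ} (v w : Fin m → EuclideanSpace ℝ (Fin (m + 3)))
    (hvw : ∀ i j, inner ℝ (v i) (w j) = if i = j then (1 : ℝ) else 0)
    (A : EuclideanSpace ℝ (Fin (m + 3)) →ₗ[ℝ] EuclideanSpace ℝ (Fin (m + 3)))
    (hA : ∀ i x, A (x - (2 * inner ℝ x (w i)) • v i) = A x - (2 * inner ℝ (A x) (w i)) • v i)
    (h1 : ∃ x, (∀ i, inner ℝ x (w i) = 0) ∧ A x ≠ x)
    (h2 : ∃ x, (∀ i, inner ℝ x (w i) = 0) ∧ A x ≠ -x)
    {K L : Set (EuclideanSpace ℝ (Fin (m + 3)))} (hK : SymConvexBody K) (hL : SymConvexBody L)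
    (rK : ∀ i, ∀ x ∈ K, x - (2 * inner ℝ x (w i)) • v i ∈ K)
    (rL : ∀ i, ∀ x ∈ L, x - (2 * inner ℝ x (w i)) • v i ∈ L)
    (aK : A '' K = K) (aL : A '' L = L) {t : ℝ} (ht0 : 0 ≤ t) (ht1 : t ≤ 1) :
    volume K ^ (1 - t) * volume L ^ t ≤ volume (logComb t K L) := by
  classical
  have bdd : ∀ (S : Set (EuclideanSpace ℝ (Fin (m + 3)))), IsCompact S → ∀ u,
      BddAbove ((fun x => inner ℝ x u) '' S) := by
    intro S hS u
    exact (hS.image (by fun_prop)).bddAbove
  rcases ht0.eq_or_lt with h0 | h0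
  · subst h0
    rw [sub_zero, ENNReal.rpow_one, ENNReal.rpow_zero, mul_one]
    apply measure_mono
    intro x hx u _
    simp only [sub_zero, Real.rpow_one, Real.rpow_zero, mul_one]
    exact le_csSup (bdd K hK.isCompact u) ⟨x, hx, rfl⟩
  rcases ht1.eq_or_lt with h1' | h1'
  · subst h1'
    rw [sub_self, ENNReal.rpow_one, ENNReal.rpow_zero, one_mul]
    apply measure_mono
    intro x hx u _
    simp only [sub_self, Real.rpow_one, Real.rpow_zero, one_mul]
    exact le_csSup (bdd L hL.isCompact u) ⟨x, hx, rfl⟩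
  obtain ⟨b, hbv, hbw⟩ := exists_basis3 v w hvw
  set T : EuclideanSpace ℝ (Fin (m + 3)) ≃L[ℝ] (Fin (m + 3) → ℝ) :=
    b.equivFun.toContinuousLinearEquiv with hT
  have hTr : ∀ x, T x = b.repr x := fun x => rfl
  obtain ⟨c, hc0, hc1, hc⟩ := exists_scale T
  -- index conversion
  have hidx : ∀ i : Fin (m + 3), i.val < m → ∃ k : Fin m, i = Fin.castAdd 3 k := by
    intro i hi
    exact ⟨⟨i.val, hi⟩, by ext; simp⟩
  have hTw : ∀ (k : Fin m) x, T x (Fin.castAdd 3 k) = inner ℝ x (w k) := fun k x => hbw k x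
  have hTb : ∀ i, T (b i) = Pi.single i 1 := by
    intro i
    funext k
    rw [hTr, b.repr_self, Finsupp.single_eq_pi_single]
  -- dual coordinates
  set vv : EuclideanSpace ℝ (Fin (m + 3)) → (Fin (m + 3) → ℝ) := fun u i => inner ℝ (b i) u
    with hvv
  have hdot : ∀ x u, (T x) ⬝ᵥ (vv u) = inner ℝ x u := by
    intro x u
    have : x = ∑ i, b.repr x i • b i := (b.sum_repr x).symm
    conv_rhs => rw [this, sum_inner]
    simp only [inner_smul_left, dotProduct, hTr, hvv]
    rfl
  have hsup : ∀ (S : Set (EuclideanSpace ℝ (Fin (m + 3)))) u,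
      hs (T '' S) (vv u) = supportFn S u := by
    intro S u
    unfold hs supportFn
    rw [Set.image_image]
    congr 1
    apply Set.image_congr
    intro x _
    exact hdot x u
  have hconv : ∀ S, Convex ℝ S → Convex ℝ (T '' S) := fun S hS =>
    hS.is_linear_image (T : EuclideanSpace ℝ (Fin (m + 3)) →ₗ[ℝ] (Fin (m + 3) → ℝ)).isLinear
  have hcomp : ∀ S, IsCompact S → IsCompact (T '' S) := fun S hS => hS.image T.continuous
  have hsym : ∀ S : Set (EuclideanSpace ℝ (Fin (m + 3))), (∀ x ∈ S, -x ∈ S) →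
      ∀ y ∈ T '' S, -y ∈ T '' S := by
    rintro S hS _ ⟨x, hx, rfl⟩
    exact ⟨-x, hS x hx, by simp only [map_neg]⟩
  have hrefl : ∀ S : Set (EuclideanSpace ℝ (Fin (m + 3))),
      (∀ i, ∀ x ∈ S, x - (2 * inner ℝ x (w i)) • v i ∈ S) →
      ∀ i : Fin (m + 3), i.val < m → ∀ y ∈ T '' S, Function.update y i (-y i) ∈ T '' S := by
    rintro S hS i hi _ ⟨x, hx, rfl⟩
    obtain ⟨k, rfl⟩ := hidx i hi
    refine ⟨_, hS k x hx, ?_⟩
    rw [map_sub, map_smul]
    funext j
    rw [← hbv k, hTb]
    by_cases hj : j = Fin.castAdd 3 k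
    · subst hj
      simp [hTw]
      ring
    · simp [Function.update_of_ne hj, Pi.single_eq_of_ne hj]
  -- the eigenvalues
  have hAv : ∀ k, A (v k) = inner ℝ (A (v k)) (w k) • v k := by
    intro k
    have := hA k (v k)
    rw [hvw, if_pos rfl, mul_one] at this
    have e1 : v k - (2 : ℝ) • v k = -v k := by
      rw [two_smul]; abel
    rw [e1, map_neg] at this
    have h3 : (2 : ℝ) • A (v k) = (2 : ℝ) • (inner ℝ (A (v k)) (w k) • v k) := by
      rw [smul_smul, two_smul]
      have h4 : A (v k) + A (v k) = (2 * inner ℝ (A (v k)) (w k)) • v k := by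
        have := congrArg (fun z => z + A (v k) + (2 * inner ℝ (A (v k)) (w k)) • v k) this
        have e2 : -A (v k) + A (v k) + (2 * inner ℝ (A (v k)) (w k)) • v k =
            (2 * inner ℝ (A (v k)) (w k)) • v k := by abel
        have e3 : A (v k) - (2 * inner ℝ (A (v k)) (w k)) • v k + A (v k) +
            (2 * inner ℝ (A (v k)) (w k)) • v k = A (v k) + A (v k) := by abel
        rw [e2, e3] at this
        exact this.symm
      exact h4
    exact smul_right_injective _ (two_ne_zero) h3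
  set cc : Fin m → ℝ := fun k => inner ℝ (A (v k)) (w k) with hcc
  have hAw : ∀ k x, inner ℝ (A x) (w k) = cc k * inner ℝ x (w k) := by
    intro k x
    have h3 := hA k x
    rw [map_sub, map_smul, hAv k] at h3
    have h4 := congrArg (fun z => inner ℝ z (w k)) h3
    simp only [inner_sub_left, inner_smul_left, hvw, if_pos] at h4
    simp only [conj_trivial, mul_one] at h4
    change inner ℝ (A x) (w k) - 2 * inner ℝ x (w k) * cc k =
      inner ℝ (A x) (w k) - 2 * inner ℝ (A x) (w k) at h4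
    linarith only [h4]
  -- `A` is bijective
  have hAsurj : Function.Surjective A := by
    rw [← LinearMap.range_eq_top]
    apply Submodule.eq_top_of_nonempty_interior'
    apply hK.nonempty_interior.mono
    apply interior_mono
    rw [← aK]
    rintro _ ⟨x, _, rfl⟩
    exact ⟨x, rfl⟩
  have hAinj : Function.Injective A := LinearMap.injective_iff_surjective.2 hAsurj
  -- `|c_k| = 1`
  have hcabs : ∀ k, cc k = 1 ∨ cc k = -1 := by
    intro k
    have hcont : ContinuousOn (fun x : EuclideanSpace ℝ (Fin (m + 3)) => inner ℝ x (w k)) K := by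
      fun_prop
    have hKn : K.Nonempty := hK.nonempty_interior.mono interior_subset
    obtain ⟨x, hx, hmax⟩ := hK.isCompact.exists_isMaxOn hKn hcont
    set M := inner ℝ x (w k) with hM
    have hle : ∀ y ∈ K, inner ℝ y (w k) ≤ M := fun y hy => hmax hy
    have habs : ∀ y ∈ K, |inner ℝ y (w k)| ≤ M := by
      intro y hy
      rw [abs_le]
      have := hle _ (hK.symm y hy)
      rw [inner_neg_left] at this
      exact ⟨by linarith only [this], hle y hy⟩
    have hMpos : 0 < M := by
      rcases (abs_nonneg _).trans (habs x hx) |>.eq_or_lt with h | h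
      · exfalso
        -- `K` is in the hyperplane
        have hk0 : ∀ y ∈ K, inner ℝ y (w k) = 0 := by
          intro y hy
          have := habs y hy
          rw [← h] at this
          exact abs_eq_zero.1 (le_antisymm this (abs_nonneg _))
        have : LinearMap.ker (innerₛₗ ℝ (w k)) = (⊤ : Submodule ℝ _) := by
          apply Submodule.eq_top_of_nonempty_interior'
          apply hK.nonempty_interior.mono
          apply interior_mono
          intro y hy
          rw [SetLike.mem_coe, LinearMap.mem_ker]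
          show inner ℝ (w k) y = 0
          rw [real_inner_comm]
          exact hk0 y hy
        have hv : v k ∈ LinearMap.ker (innerₛₗ ℝ (w k)) := by rw [this]; trivial
        rw [LinearMap.mem_ker] at hv
        change inner ℝ (w k) (v k) = 0 at hv
        rw [real_inner_comm, hvw, if_pos rfl] at hv
        exact one_ne_zero hv
      · exact h
    -- upper bound
    have hup : |cc k| ≤ 1 := by
      have hAx : A x ∈ K := by rw [← aK]; exact ⟨x, hx, rfl⟩
      have h3 := habs _ hAx
      rw [hAw, abs_mul, ← hM, abs_of_pos hMpos] at h3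
      by_contra hcon
      push Not at hcon
      linarith only [mul_pos (sub_pos.2 hMpos) (sub_pos.2 hcon), h3]
    have hlo : 1 ≤ |cc k| := by
      obtain ⟨z, hz, hzx⟩ : x ∈ A '' K := by rw [aK]; exact hx
      have h3 := habs z hz
      have h4 : M = cc k * inner ℝ z (w k) := by rw [hM, ← hzx, hAw]
      have h5 : M ≤ |cc k| * M := by
        calc M = |M| := (abs_of_pos hMpos).symm
          _ = |cc k| * |inner ℝ z (w k)| := by rw [← abs_mul, ← h4]
          _ ≤ |cc k| * M := mul_le_mul_of_nonneg_left h3 (abs_nonneg _)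
      by_contra hcon
      push Not at hcon
      nlinarith only [h5, hMpos, hcon]
    have h6 : |cc k| = 1 := le_antisymm hup hlo
    exact eq_or_eq_neg_of_abs_eq h6
  -- the linear map in coordinates
  set A' : (Fin (m + 3) → ℝ) →ₗ[ℝ] (Fin (m + 3) → ℝ) :=
    (T : EuclideanSpace ℝ (Fin (m + 3)) →ₗ[ℝ] (Fin (m + 3) → ℝ)) ∘ₗ A ∘ₗ
      (T.symm : (Fin (m + 3) → ℝ) →ₗ[ℝ] EuclideanSpace ℝ (Fin (m + 3))) with hA'def
  have hA'T : ∀ x, A' (T x) = T (A x) := by
    intro x
    simp [hA'def]
  have hA'c : ∀ (k : Fin m) y, A' y (Fin.castAdd 3 k) = cc k * y (Fin.castAdd 3 k) := by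
    intro k y
    obtain ⟨x, rfl⟩ := T.surjective y
    rw [hA'T, hTw, hTw, hAw]
  have hA'e : ∀ (k : Fin m), A' (Pi.single (Fin.castAdd 3 k) 1) =
      cc k • Pi.single (Fin.castAdd 3 k) 1 := by
    intro k
    rw [← hTb, hA'T, hbv, hAv, map_smul]
  -- insertion of the last three coordinates
  set ins : (Fin 3 → ℝ) →ₗ[ℝ] (Fin (m + 3) → ℝ) :=
    LinearMap.pi fun i => if h : i.val < m then 0 else LinearMap.proj ⟨i.val - m, by omega⟩
    with hins
  have hins1 : ∀ (z : Fin 3 → ℝ) (i : Fin (m + 3)), i.val < m → ins z i = 0 := by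
    intro z i hi
    simp only [hins, LinearMap.pi_apply, hi, ↓reduceDIte, LinearMap.zero_apply]
  have hins2 : ∀ z : Fin 3 → ℝ, tl m (ins z) = z := by
    intro z
    funext j
    simp only [tl, hins, LinearMap.pi_apply, add_lt_iff_neg_left, not_lt_zero, ↓reduceDIte, add_tsub_cancel_left, Fin.eta, LinearMap.coe_proj, Function.eval]
  set tlL : (Fin (m + 3) → ℝ) →ₗ[ℝ] (Fin 3 → ℝ) :=
    LinearMap.pi fun j => LinearMap.proj ⟨m + j.val, by omega⟩ with htlL
  have htl : ∀ y, tlL y = tl m y := fun y => rfl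
  set B : (Fin 3 → ℝ) →ₗ[ℝ] (Fin 3 → ℝ) := tlL ∘ₗ A' ∘ₗ ins with hBdef
  -- decomposition
  have hdec : ∀ y : Fin (m + 3) → ℝ,
      y = (∑ k : Fin m, y (Fin.castAdd 3 k) • Pi.single (Fin.castAdd 3 k) (1 : ℝ)) +
        ins (tl m y) := by
    intro y
    funext i
    rw [Pi.add_apply, Finset.sum_apply]
    rcases lt_or_ge i.val m with hi | hi
    · rw [hins1 _ i hi, add_zero]
      obtain ⟨k, rfl⟩ := hidx i hi
      rw [Finset.sum_eq_single k]
      · simp
      · intro k' _ hk'
        have : Fin.castAdd 3 k ≠ Fin.castAdd 3 k' := fun h =>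
          hk' (Fin.castAdd_injective m 3 h).symm
        simp [Pi.single_eq_of_ne this]
      · simp only [mem_univ, not_true_eq_false, Pi.smul_apply, Pi.single_eq_same, smul_eq_mul, mul_one, IsEmpty.forall_iff]
    · have h3 : ∑ k : Fin m, (y (Fin.castAdd 3 k) • Pi.single (Fin.castAdd 3 k) (1 : ℝ) :
          Fin (m + 3) → ℝ) i = 0 := by
        apply Finset.sum_eq_zero
        intro k _
        have : i ≠ Fin.castAdd 3 k := by
          intro h
          rw [h] at hi
          simp at hi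
          omega
        simp [Pi.single_eq_of_ne this]
      rw [h3, zero_add]
      have : ¬ i.val < m := by omega
      simp only [hins, LinearMap.pi_apply, dif_neg this, LinearMap.proj_apply, tl]
      congr 1
      ext
      simp only
      omega
  have htlA : ∀ y, tl m (A' y) = B (tl m y) := by
    intro y
    have h3 : A' y = (∑ k : Fin m, (y (Fin.castAdd 3 k) * cc k) •
        Pi.single (Fin.castAdd 3 k) (1 : ℝ)) + A' (ins (tl m y)) := by
      conv_lhs => rw [hdec y]
      rw [map_add, map_sum]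
      congr 1
      refine Finset.sum_congr rfl fun k _ => ?_
      rw [map_smul, hA'e, smul_smul]
    rw [h3, ← htl, map_add, map_sum]
    have h4 : ∑ k : Fin m, tlL ((y (Fin.castAdd 3 k) * cc k) •
        Pi.single (Fin.castAdd 3 k) (1 : ℝ)) = 0 := by
      apply Finset.sum_eq_zero
      intro k _
      rw [map_smul]
      have : tlL (Pi.single (Fin.castAdd 3 k) (1 : ℝ)) = 0 := by
        funext j
        rw [htl]
        simp only [tl, Pi.zero_apply]
        rw [Pi.single_eq_of_ne]
        intro h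
        have := congrArg Fin.val h
        simp at this
        omega
      rw [this, smul_zero]
    rw [h4, zero_add]
    rfl
  have hA'inj : Function.Injective A' := by
    intro y z h
    obtain ⟨x, rfl⟩ := T.surjective y
    obtain ⟨x', rfl⟩ := T.surjective z
    rw [hA'T, hA'T] at h
    rw [hAinj (T.injective h)]
  have hA'surj : Function.Surjective A' := LinearMap.injective_iff_surjective.1 hA'inj
  have hBsurj : Function.Surjective B := by
    intro z
    obtain ⟨y, hy⟩ := hA'surj (ins z)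
    refine ⟨tl m y, ?_⟩
    rw [← htlA, hy, hins2]
  have hBne : ∀ s : ℝ, (∃ x, (∀ i, inner ℝ x (w i) = 0) ∧ A x ≠ s • x) →
      B ≠ s • LinearMap.id := by
    rintro s ⟨x, hx, hne⟩ hB
    apply hne
    apply T.injective
    rw [← hA'T, map_smul]
    have hx0 : ∀ k, T x (Fin.castAdd 3 k) = 0 := fun k => by rw [hTw, hx]
    rw [hdec (A' (T x)), hdec (T x)]
    rw [← hdec (T x)]
    rw [htlA, hB]
    simp only [hA'c, hx0, mul_zero, zero_smul, Finset.sum_const_zero, zero_add,
      LinearMap.smul_apply, LinearMap.id_apply, map_smul]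
    congr 1
    have := hdec (T x)
    simp only [hx0, zero_smul, Finset.sum_const_zero, zero_add] at this
    exact this.symm
  have hB1 : B ≠ LinearMap.id := by
    have := hBne 1 (by simpa only [one_smul, ne_eq] using h1)
    simpa only [ne_eq, one_smul] using this
  have hB2 : B ≠ -LinearMap.id := by
    intro h
    apply hBne (-1) (by simpa only [neg_smul, one_smul, ne_eq] using h2)
    rw [h]
    apply LinearMap.ext
    intro z
    simp
  -- invariance
  set C : (Fin 3 → ℝ) → (Fin 3 → ℝ) := Function.surjInv hBsurj with hC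
  have hBC : ∀ z, B (C z) = z := fun z => Function.surjInv_eq hBsurj z
  have hflip : ∀ S : Set (EuclideanSpace ℝ (Fin (m + 3))),
      (∀ i, ∀ x ∈ S, x - (2 * inner ℝ x (w i)) • v i ∈ S) → ∀ y ∈ T '' S, ∀ z,
      (∀ k : Fin m, z (Fin.castAdd 3 k) = cc k * y (Fin.castAdd 3 k)) → tl m z = tl m y →
      z ∈ T '' S := by
    intro S hS y hy z hz1 hz2
    refine flips (hrefl S hS) hy (Finset.univ.filter fun i : Fin (m + 3) => i.val < m) z ?_ ?_
    · intro i hi
      have hi' : ¬ i.val < m := by simpa only [not_lt, mem_filter, mem_univ, true_and] using hi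
      have h3 := congrFun hz2 ⟨i.val - m, by omega⟩
      simp only [tl] at h3
      have h4 : (⟨m + (i.val - m), by omega⟩ : Fin (m + 3)) = i := by
        ext
        simp only
        omega
      rwa [h4] at h3
    · intro i hi
      have hi' : i.val < m := by simpa using hi
      refine ⟨hi', ?_⟩
      obtain ⟨k, rfl⟩ := hidx i hi'
      rw [hz1]
      rcases hcabs k with h | h
      · left; rw [h, one_mul]
      · right; rw [h]; ring
  have hinvB : ∀ S : Set (EuclideanSpace ℝ (Fin (m + 3))),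
      (∀ i, ∀ x ∈ S, x - (2 * inner ℝ x (w i)) • v i ∈ S) → A '' S = S → Inv B m (T '' S) := by
    intro S hS aS
    apply inv_of
    intro y hy y' h3 h4
    have hAy : A' y ∈ T '' S := by
      obtain ⟨x, hx, rfl⟩ := hy
      rw [hA'T]
      exact ⟨A x, by rw [← aS]; exact ⟨x, hx, rfl⟩, rfl⟩
    refine hflip S hS _ hAy y' ?_ ?_
    · intro k
      rw [hA'c, ← mul_assoc, h3 _ (by simp)]
      rcases hcabs k with h | h <;> rw [h] <;> ring
    · rw [h4, htlA]
  have hinvC : ∀ S : Set (EuclideanSpace ℝ (Fin (m + 3))),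
      (∀ i, ∀ x ∈ S, x - (2 * inner ℝ x (w i)) • v i ∈ S) → A '' S = S → Inv C m (T '' S) := by
    intro S hS aS
    apply inv_of
    intro y hy y' h3 h4
    have hAy : A' y' ∈ T '' S := by
      refine hflip S hS y hy _ ?_ ?_
      · intro k
        rw [hA'c, h3 _ (by simp)]
      · rw [htlA, h4, hBC]
    obtain ⟨x, hx, hxy⟩ := hAy
    obtain ⟨z, hz, hzx⟩ : x ∈ A '' S := by rw [aS]; exact hx
    refine ⟨z, hz, ?_⟩
    apply hA'inj
    rw [hA'T, hzx, hxy]
  have key := logBM_sym h0 h1' B C hBC hB1 hB2 m (T '' K) (T '' L) (hconv K hK.convex)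
    (hconv L hL.convex) (hcomp K hK.isCompact) (hcomp L hL.isCompact) (hsym K hK.symm)
    (hsym L hL.symm) (hrefl K rK) (hrefl L rL) (hinvB K rK aK) (hinvB L rL aL)
    (hinvC K rK aK) (hinvC L rL aL)
  have hincl : (wf fun u => hs (T '' K) u ^ (1 - t) * hs (T '' L) u ^ t) ⊆
      T '' (logComb t K L) := by
    intro y hy
    refine ⟨T.symm y, ?_, by simp⟩
    intro u _
    have := hy (vv u)
    rw [← hdot, T.apply_symm_apply]
    simpa only [hsup] using this
  have key2 := le_trans key (measure_mono hincl)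
  rw [hc, hc, hc, ENNReal.mul_rpow_of_nonneg _ _ (by linarith only [h1']), ENNReal.mul_rpow_of_nonneg _ _ h0.le,
    mul_mul_mul_comm, ← ENNReal.rpow_add _ _ hc0 hc1] at key2
  simp only [sub_add_cancel, ENNReal.rpow_one] at key2
  exact (ENNReal.mul_le_mul_iff_right hc0 hc1).1 key2

end Vale.Agent.P227.C2
end

section
attribute [-instance] ProperSMul.toContinuousSMul IsTopologicalTorsor.toContinuousSMul IdemSemiring.toCanonicallyOrderedAdd IdemSemiring.toMulLeftMono IdemSemiring.toMulRightMono AddQuantale.instAddLeftMono AddQuantale.instAddRightMono Quantale.instMulLeftMono Quantale.instMulRightMono FiniteDimensional.rclike_to_real IsScalarTower.complexToReal FiniteDimensional.complexToReal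

/-!
# P227 / Slab : log-Minkowski at every body with the comparison property
-/

open MeasureTheory Set Metric Filter Topology
open scoped ENNReal NNReal Pointwise

namespace Vale.Agent.P227

/-- The comparison property (it holds for zonoids by `lemmaZ_zonoid` and for intersections of
`n + 1` slabs by `lemmaZ_slabs`). -/
def Good {n : ℕ} (W : Set (EV n)) : Prop :=
  ∀ s t : ℝ, 0 < s → 0 < t → s + t = 1 → ∀ K L : Set (EV n), SymConvexBody K →
    SymConvexBody L →
    (∀ u : EV n, ‖u‖ = 1 → s * Real.log (supportFn K u) + t * Real.log (supportFn L u) ≤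
      Real.log (supportFn W u)) →
    s * Real.log (evol K) + t * Real.log (evol L) ≤ Real.log (evol W)

/-- The logarithmic Minkowski inequality at good bodies (compare `log_minkowski_zonoid`). -/
theorem log_minkowski_good {n : ℕ} (hn : 0 < n) {K L : Set (EV n)} (hK : SymConvexBody K)
    (hz : Good K) (hL : SymConvexBody L) (ν : EV n → EV n)
    (hν : ∀ᵐ x ∂(volume.restrict K), ‖ν x‖ = 1 ∧
      inner ℝ x (ν x) = gauge K x * supportFn K (ν x)) :
    evol K / n * Real.log (evol L / evol K) ≤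
      ∫ x in K, Real.log (supportFn L (ν x) / supportFn K (ν x)) := by
  have hKpos := evol_pos hK
  have hLpos := evol_pos hL
  have hn' : (0 : ℝ) < n := by exact_mod_cast hn
  obtain ⟨B, hB0, hB⟩ := lratio_bound hK hL
  set ε : ℕ → ℝ := fun k => 1 / ((k : ℝ) + 1) with hε
  have hεpos : ∀ k, 0 < ε k := fun k => by (clear * -; positivity)
  have hε0 : Tendsto ε atTop (𝓝 0) := tendsto_one_div_add_atTop_nhds_zero_nat
  set F : ℕ → EV n → ℝ := fun k x =>
    (Real.log (gauge (pbody K L (ε k)) x) - Real.log (gauge K x)) / ε k with hF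
  set ρ : Measure (EV n) := volume.restrict (interior K) with hρ
  have : Nontrivial (EV n) := by
    have : 0 < Module.finrank ℝ (EV n) := by rw [finrank_euclideanSpace_fin]; exact hn
    exact Module.nontrivial_of_finrank_pos this
  have hfinK : volume (interior K) ≠ ∞ := by
    rw [evol_interior hK]; exact hK.isCompact.measure_lt_top.ne
  have : IsFiniteMeasure ρ := ⟨by rw [hρ, Measure.restrict_apply_univ]; exact hfinK.lt_top⟩
  have hne0 : ∀ᵐ x ∂ρ, x ≠ 0 := by
    apply ae_restrict_of_ae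
    rw [ae_iff]
    simp
  -- bound
  have hFb : ∀ k, ∀ x : EV n, x ≠ 0 → |F k x| ≤ B := by
    intro k x hx
    obtain ⟨hlow, u, hu, heq, hpos, hle⟩ := pbody_gauge hn hK hL (ε k) hx
    obtain ⟨_, w, hw, hxw⟩ := hK.exists_normal hn x
    have h1 := hlow w hw hxw
    have h2 := (abs_le.1 (hB w hw)).1
    have h3 := (abs_le.1 (hB u hu)).2
    have hku := hK.supportFn_pos (ne_zero_of_norm_one hu)
    have hg := hK.gauge_pos hx
    have h4 : Real.log (inner ℝ x u / (gauge K x * supportFn K u)) ≤ 0 := by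
      apply Real.log_nonpos (by (clear * - hpos hg hku; positivity))
      rw [div_le_one (by (clear * - hg hku; positivity))]
      exact hle
    have hk := hεpos k
    rw [abs_le]
    constructor
    · rw [hF]
      simp only
      rw [le_div_iff₀ hk]
      linarith only [mul_nonneg (sub_nonneg.2 h2) (le_of_lt (sub_pos.2 hk)), h1]
    · rw [hF]
      simp only
      rw [div_le_iff₀ hk, heq]
      linarith only [mul_nonneg (sub_nonneg.2 h3) (le_of_lt (sub_pos.2 hk)), h4]
  have hFm : ∀ k, Measurable (F k) := by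
    intro k
    have hP := pbody_scb hK hL (ε k)
    exact ((Real.measurable_log.comp hP.continuous_gauge.measurable).sub
      (Real.measurable_log.comp hK.continuous_gauge.measurable)).div_const _
  -- the volume inequality for each k
  have hvol : ∀ k, evol K * ((1 - Real.exp (-(ε k * Real.log (evol L / evol K)))) / ε k) ≤
      n * ∫ x, F k x ∂ρ := by
    intro k
    have hP := pbody_scb hK hL (ε k)
    have hPpos := evol_pos hP
    have hk := hεpos k
    -- upper bound on evol P
    have hs : 0 < 1 / (1 + ε k) := by (clear * -; positivity)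
    have ht : 0 < ε k / (1 + ε k) := by (clear * -; positivity)
    have hst : 1 / (1 + ε k) + ε k / (1 + ε k) = 1 := by (clear * - hk; field_simp)
    have hZ := hz (1 / (1 + ε k)) (ε k / (1 + ε k)) hs ht hst (pbody K L (ε k)) L hP hL (by
      intro u hu
      have hu0 := ne_zero_of_norm_one hu
      have pK := hK.supportFn_pos hu0
      have pP := hP.supportFn_pos hu0
      have h1 : supportFn (pbody K L (ε k)) u ≤ pert K L (ε k) u :=
        supportFn_le ⟨0, hP.zero_mem⟩ fun x hx => hx u hu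
      have h2 := Real.log_le_log pP h1
      rw [pert, Real.log_mul pK.ne' (Real.exp_pos _).ne', Real.log_exp] at h2
      have h3 : 1 / (1 + ε k) * Real.log (supportFn (pbody K L (ε k)) u) ≤
          1 / (1 + ε k) * (Real.log (supportFn K u) + -(ε k * lratio K L u)) :=
        mul_le_mul_of_nonneg_left h2 hs.le
      refine (add_le_add_left h3 _).trans (le_of_eq ?_)
      rw [lratio]
      field_simp
      ring)
    have hup : Real.log (evol (pbody K L (ε k))) ≤
        Real.log (evol K) - ε k * Real.log (evol L / evol K) := by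
      rw [Real.log_div hLpos.ne' hKpos.ne']
      have h5 : Real.log (evol (pbody K L (ε k))) + ε k * Real.log (evol L) ≤
          (1 + ε k) * Real.log (evol K) := by
        calc Real.log (evol (pbody K L (ε k))) + ε k * Real.log (evol L)
            = (1 + ε k) * (1 / (1 + ε k) * Real.log (evol (pbody K L (ε k))) +
              ε k / (1 + ε k) * Real.log (evol L)) := by (clear * - hk; field_simp)
          _ ≤ (1 + ε k) * Real.log (evol K) := by
              apply mul_le_mul_of_nonneg_left hZ (by (clear * -; positivity))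
      linarith only [h5]
    have hup2 : evol (pbody K L (ε k)) ≤
        evol K * Real.exp (-(ε k * Real.log (evol L / evol K))) := by
      rw [← Real.exp_log hPpos, ← Real.exp_log hKpos, ← Real.exp_add, Real.exp_log hKpos]
      apply Real.exp_le_exp.2
      linarith only [hup]
    -- lower bound on evol P
    have hlowP : evol K - n * ε k * ∫ x, F k x ∂ρ ≤ evol (pbody K L (ε k)) := by
      have hInt : Integrable (F k) ρ := by
        apply Integrable.of_bound (hFm k).aestronglyMeasurable B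
        filter_upwards [hne0] with x hx
        rw [Real.norm_eq_abs]
        exact hFb k x hx
      have h1 : evol (pbody K L (ε k)) =
          ∫ x, (gauge K x / gauge (pbody K L (ε k)) x) ^ n ∂ρ := by
        rw [evol, evol_eq_integral hn hK hP, integral_eq_lintegral_of_nonneg_ae]
        · apply Filter.Eventually.of_forall
          intro x
          exact pow_nonneg (div_nonneg (gauge_nonneg _) (gauge_nonneg _)) _
        · exact ((hK.continuous_gauge.measurable.div
            hP.continuous_gauge.measurable).pow_const _).aestronglyMeasurable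
      have hpt : ∀ x : EV n, x ≠ 0 → (gauge K x / gauge (pbody K L (ε k)) x) ^ n =
          Real.exp (-(n * ε k * F k x)) := by
        intro x hx
        have p1 := hK.gauge_pos hx
        have p2 := hP.gauge_pos hx
        rw [← Real.exp_log (div_pos p1 p2), ← Real.exp_nat_mul, Real.log_div p1.ne' p2.ne']
        congr 1
        simp only [hF]
        field_simp
        ring
      have hInt2 : Integrable (fun x => (gauge K x / gauge (pbody K L (ε k)) x) ^ n) ρ := by
        apply Integrable.of_bound (C := Real.exp (n * ε k * B))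
        · exact ((hK.continuous_gauge.measurable.div
            hP.continuous_gauge.measurable).pow_const _).aestronglyMeasurable
        · filter_upwards [hne0] with x hx
          rw [hpt x hx, Real.norm_eq_abs, Real.abs_exp]
          apply Real.exp_le_exp.2
          have := (abs_le.1 (hFb k x hx)).1
          have h7 : 0 ≤ n * ε k := by (clear * - hn; positivity)
          linarith only [mul_nonneg (sub_nonneg.2 this) (sub_nonneg.2 h7)]
      have h2 : ∫ x, (1 - n * ε k * F k x) ∂ρ ≤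
          ∫ x, (gauge K x / gauge (pbody K L (ε k)) x) ^ n ∂ρ := by
        apply integral_mono_ae ((integrable_const _).sub (hInt.const_mul _)) hInt2
        filter_upwards [hne0] with x hx
        rw [hpt x hx]
        have := Real.add_one_le_exp (-(n * ε k * F k x))
        simp only [Pi.sub_apply]
        linarith only [this]
      rw [integral_sub (integrable_const _) (hInt.const_mul _), integral_const_mul] at h2
      rw [h1]
      refine le_trans (le_of_eq ?_) h2
      congr 1
      rw [integral_const, hρ]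
      simp only [smul_eq_mul, mul_one]
      rw [measureReal_restrict_apply_univ, Measure.real, evol_interior hK]
      rfl
    have h8 : evol K * (1 - Real.exp (-(ε k * Real.log (evol L / evol K)))) ≤
        n * ε k * ∫ x, F k x ∂ρ := by
      have := hlowP.trans hup2
      linarith only [hup2, hlowP]
    rw [← mul_div_assoc, div_le_iff₀ hk]
    linarith only [hup2, hlowP]
  -- limits
  have hlimL : Tendsto (fun k => evol K * ((1 - Real.exp (-(ε k * Real.log (evol L / evol K)))) /
      ε k)) atTop (𝓝 (evol K * Real.log (evol L / evol K))) := by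
    apply Tendsto.const_mul
    set Δ := Real.log (evol L / evol K)
    have hder : HasDerivAt (fun z : ℝ => -Real.exp (-(z * Δ))) Δ 0 := by
      have h1 : HasDerivAt (fun z : ℝ => -(z * Δ)) (-(1 * Δ)) 0 := ((hasDerivAt_id 0).mul_const Δ).neg
      have h2 : HasDerivAt (fun z : ℝ => -Real.exp (-(z * Δ)))
          (-(Real.exp (-(0 * Δ)) * -(1 * Δ))) 0 := h1.exp.neg
      simpa only [zero_mul, neg_zero, Real.exp_zero, one_mul, mul_neg, neg_neg] using h2
    have hsl := hder.tendsto_slope_zero_right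
    have hcomp : Tendsto ε atTop (𝓝[>] 0) := by
      rw [tendsto_nhdsWithin_iff]
      exact ⟨hε0, Filter.Eventually.of_forall hεpos⟩
    have h3 := hsl.comp hcomp
    refine h3.congr fun k => ?_
    simp only [Function.comp_apply, zero_add, zero_mul, neg_zero, Real.exp_zero, smul_eq_mul]
    field_simp
    ring
  have haeν : ∀ᵐ x ∂ρ, ‖ν x‖ = 1 ∧ inner ℝ x (ν x) = gauge K x * supportFn K (ν x) :=
    ae_restrict_of_ae_restrict_of_subset interior_subset hν
  have hlimR : Tendsto (fun k => ∫ x, F k x ∂ρ) atTop (𝓝 (∫ x, lratio K L (ν x) ∂ρ)) := by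
    apply tendsto_integral_of_dominated_convergence (fun _ => B)
    · exact fun k => (hFm k).aestronglyMeasurable
    · exact integrable_const _
    · intro k
      filter_upwards [hne0] with x hx
      rw [Real.norm_eq_abs]
      exact hFb k x hx
    · filter_upwards [hne0, haeν, ae_restrict_of_ae hK.ae_differentiable] with x hx hνx hd
      exact pbody_tendsto hn hK hL hx hνx.1 hνx.2
        (fun w hw hxw => hK.normal_unique hn hd hw hνx.1 hxw hνx.2) ε hεpos hε0
  have hfinal := le_of_tendsto_of_tendsto' hlimL (hlimR.const_mul (n : ℝ)) hvol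
  have hint : ∫ x in K, Real.log (supportFn L (ν x) / supportFn K (ν x)) =
      ∫ x, lratio K L (ν x) ∂ρ := by
    have hae : (interior K : Set (EV n)) =ᵐ[volume] K := by
      apply ae_eq_of_subset_of_measure_ge interior_subset (evol_interior hK).ge
      · exact isOpen_interior.measurableSet.nullMeasurableSet
      · exact hK.isCompact.measure_lt_top.ne
    rw [← setIntegral_congr_set hae]
    apply integral_congr_ae
    filter_upwards [haeν] with x hx
    have hx0 := ne_zero_of_norm_one hx.1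
    rw [Real.log_div (hL.supportFn_pos hx0).ne' (hK.supportFn_pos hx0).ne']
    rfl
  rw [hint, div_mul_eq_mul_div, div_le_iff₀ hn']
  linarith only [hfinal]

/-- Logarithmic Brunn-Minkowski when the combination is good (compare `log_bm_zonoid`). -/
theorem log_bm_good {n : ℕ} {K L : Set (EV n)} (hK : SymConvexBody K)
    (hL : SymConvexBody L) {t : ℝ} (ht : t ∈ Icc (0 : ℝ) 1) (hz : Good (logComb t K L)) :
    evol K ^ (1 - t) * evol L ^ t ≤ evol (logComb t K L) := by
  obtain ⟨ht0, ht1⟩ := ht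
  rcases Nat.eq_zero_or_pos n with h0 | hn
  · subst h0
    have huniv : ∀ S : Set (EV 0), S.Nonempty → S = univ := by
      intro S hS
      obtain ⟨x, hx⟩ := hS
      ext y
      simp only [mem_univ, iff_true]
      rwa [Subsingleton.elim y x]
    have h1 : logComb t K L = univ := by
      apply huniv
      refine ⟨0, fun u hu => ?_⟩
      rw [Subsingleton.elim u 0] at hu
      simp at hu
    have hpos : 0 < evol (univ : Set (EV 0)) := by
      have := evol_pos hK
      rwa [huniv K ⟨0, hK.zero_mem⟩] at this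
    rw [h1, huniv K ⟨0, hK.zero_mem⟩, huniv L ⟨0, hL.zero_mem⟩, ← Real.rpow_add hpos]
    simp
  · obtain ⟨hW, _⟩ := logComb_facts hn hK hL ht0 ht1
    apply log_bm_of_log_minkowski hn hK hL ht0 ht1
    intro M hM ν hν
    exact log_minkowski_good hn hW hz hM ν hν

end Vale.Agent.P227
end

section

/-!
# P227 / Slab : the logarithmic inequality for `n + 1` slabs in `R^n`
-/

open MeasureTheory Set

namespace Vale.Agent.P227.Slab

open scoped Matrix

/-- Intersection of `n + 1` slabs. -/
def body {n : ℕ} (v : Fin (n + 1) → Fin n → ℝ) (h : Fin (n + 1) → ℝ) : Set (Fin n → ℝ) :=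
  {x | ∀ j, |x ⬝ᵥ v j| ≤ h j}

/-- coordinates given by all vectors but one -/
noncomputable def lvMap {n : ℕ} (v : Fin (n + 1) → Fin n → ℝ) (i : Fin (n + 1)) :
    (Fin n → ℝ) →ₗ[ℝ] (Fin n → ℝ) where
  toFun x j := x ⬝ᵥ v (i.succAbove j)
  map_add' x y := by
    funext j
    simp [add_dotProduct]
  map_smul' c x := by
    funext j
    simp [smul_dotProduct]

theorem lv_rel {n : ℕ} (v : Fin (n + 1) → Fin n → ℝ) :
    ∃ i : Fin (n + 1), ∃ b : Fin n → ℝ, ∀ x : Fin n → ℝ,
      x ⬝ᵥ v i = ∑ j, b j * (x ⬝ᵥ v (i.succAbove j)) := by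
  have h1 : ¬ LinearIndependent ℝ v := by
    intro h
    have h2 := h.fintype_card_le_finrank
    simp only [Fintype.card_fin, Module.finrank_fintype_fun_eq_card, add_le_iff_nonpos_right, nonpos_iff_eq_zero, one_ne_zero] at h2
  obtain ⟨g, hg, i, hi⟩ := Fintype.not_linearIndependent_iff.1 h1
  refine ⟨i, fun j => -(g (i.succAbove j) / g i), fun x => ?_⟩
  rw [Fin.sum_univ_succAbove _ i] at hg
  have h3 : x ⬝ᵥ (g i • v i + ∑ j, g (i.succAbove j) • v (i.succAbove j)) = 0 := by
    rw [hg, dotProduct_zero]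
  rw [dotProduct_add, dotProduct_smul, dotProduct_sum] at h3
  simp only [dotProduct_smul, smul_eq_mul] at h3
  have h4 : x ⬝ᵥ v i = -(∑ j, g (i.succAbove j) * (x ⬝ᵥ v (i.succAbove j))) / g i := by
    rw [eq_div_iff hi]
    linarith only [h3]
  rw [h4, neg_div, Finset.sum_div, ← Finset.sum_neg_distrib]
  refine Finset.sum_congr rfl fun j _ => ?_
  ring

theorem lvMap_inj {n : ℕ} {v : Fin (n + 1) → Fin n → ℝ}
    (hb : Bornology.IsBounded (body v 1)) {i : Fin (n + 1)} {b : Fin n → ℝ}
    (hi : ∀ x : Fin n → ℝ, x ⬝ᵥ v i = ∑ j, b j * (x ⬝ᵥ v (i.succAbove j))) :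
    Function.Injective (lvMap v i) := by
  rw [injective_iff_map_eq_zero]
  intro x hx
  have h1 : ∀ j, x ⬝ᵥ v (i.succAbove j) = 0 := fun j => congrFun hx j
  have h2 : ∀ j, x ⬝ᵥ v j = 0 := by
    rw [Fin.forall_iff_succAbove i]
    refine ⟨?_, h1⟩
    rw [hi x]
    exact Finset.sum_eq_zero fun j _ => by rw [h1 j, mul_zero]
  obtain ⟨C, hC⟩ := hb.exists_norm_le
  by_contra hx0
  have h3 : ∀ r : ℝ, r • x ∈ body v 1 := by
    intro r j
    rw [smul_dotProduct, h2 j]
    simp only [smul_eq_mul, mul_zero, abs_zero, Pi.one_apply, zero_le_one]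
  have h4 := hC _ (h3 ((|C| + 1) / ‖x‖))
  have h5 : 0 < ‖x‖ := norm_pos_iff.2 hx0
  rw [norm_smul, norm_div, norm_norm, div_mul_cancel₀ _ h5.ne', Real.norm_eq_abs,
    abs_of_pos (by (clear * -; positivity))] at h4
  have := le_abs_self C
  linarith only [h4, this]

theorem lvMap_det {n : ℕ} {v : Fin (n + 1) → Fin n → ℝ} {i : Fin (n + 1)}
    (hi : Function.Injective (lvMap v i)) : LinearMap.det (lvMap v i) ≠ 0 := by
  have h1 := (LinearEquiv.ofInjectiveEndo (lvMap v i) hi).isUnit_det'
  have h2 : ((LinearEquiv.ofInjectiveEndo (lvMap v i) hi : (Fin n → ℝ) ≃ₗ[ℝ] (Fin n → ℝ)) :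
      (Fin n → ℝ) →ₗ[ℝ] (Fin n → ℝ)) = lvMap v i := by
    ext x
    simp only [LinearMap.coe_comp, LinearEquiv.coe_coe, LinearEquiv.coe_ofInjectiveEndo, LinearMap.coe_single, Function.comp_apply]
  rw [h2] at h1
  exact h1.ne_zero

theorem lv_preimage {n : ℕ} {v : Fin (n + 1) → Fin n → ℝ} {i : Fin (n + 1)} {b : Fin n → ℝ}
    (hi : ∀ x : Fin n → ℝ, x ⬝ᵥ v i = ∑ j, b j * (x ⬝ᵥ v (i.succAbove j)))
    {h : Fin (n + 1) → ℝ} (hh : ∀ j, 0 < h j) :
    body v h = ((Matrix.toLin' (Matrix.diagonal fun j => (h (i.succAbove j))⁻¹)) ∘ₗ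
      lvMap v i) ⁻¹' (slab (h i) fun j => b j * h (i.succAbove j)) := by
  ext x
  have hy : ∀ j, ((Matrix.toLin' (Matrix.diagonal fun j => (h (i.succAbove j))⁻¹)) ∘ₗ
      lvMap v i) x j = (h (i.succAbove j))⁻¹ * (x ⬝ᵥ v (i.succAbove j)) := by
    intro j
    rw [LinearMap.comp_apply, Matrix.toLin'_apply, Matrix.mulVec_diagonal]
    rfl
  have hd : ((Matrix.toLin' (Matrix.diagonal fun j => (h (i.succAbove j))⁻¹)) ∘ₗ
      lvMap v i) x ⬝ᵥ (fun j => b j * h (i.succAbove j)) = x ⬝ᵥ v i := by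
    rw [hi x]
    unfold dotProduct
    refine Finset.sum_congr rfl fun j _ => ?_
    have h1 := hy j
    rw [h1]
    have h2 := (hh (i.succAbove j)).ne'
    have h3 : (h (i.succAbove j))⁻¹ * (x ⬝ᵥ v (i.succAbove j)) * (b j * h (i.succAbove j)) =
        b j * (x ⬝ᵥ v (i.succAbove j)) := by
      (clear * - h2; field_simp)
    exact h3
  have hm : x ∈ body v h ↔ |x ⬝ᵥ v i| ≤ h i ∧
      ∀ j, |x ⬝ᵥ v (i.succAbove j)| ≤ h (i.succAbove j) :=
    Fin.forall_iff_succAbove i
  have hm2 : x ∈ ((Matrix.toLin' (Matrix.diagonal fun j => (h (i.succAbove j))⁻¹)) ∘ₗ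
      lvMap v i) ⁻¹' (slab (h i) fun j => b j * h (i.succAbove j)) ↔
      (∀ j, |(h (i.succAbove j))⁻¹ * (x ⬝ᵥ v (i.succAbove j))| ≤ 1) ∧ |x ⬝ᵥ v i| ≤ h i := by
    change (∀ j, |((Matrix.toLin' (Matrix.diagonal fun j => (h (i.succAbove j))⁻¹)) ∘ₗ
      lvMap v i) x j| ≤ 1) ∧ |((Matrix.toLin' (Matrix.diagonal fun j =>
        (h (i.succAbove j))⁻¹)) ∘ₗ lvMap v i) x ⬝ᵥ (fun j => b j * h (i.succAbove j))| ≤ h i ↔ _
    rw [hd]
    simp only [hy]
  rw [hm, hm2]
  have hj : ∀ j, |(h (i.succAbove j))⁻¹ * (x ⬝ᵥ v (i.succAbove j))| ≤ 1 ↔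
      |x ⬝ᵥ v (i.succAbove j)| ≤ h (i.succAbove j) := by
    intro j
    have h2 := hh (i.succAbove j)
    rw [abs_mul, abs_of_pos (inv_pos.2 h2), inv_mul_le_iff₀ h2, mul_one]
  constructor
  · rintro ⟨h1, h2⟩
    exact ⟨fun j => (hj j).2 (h2 j), h1⟩
  · rintro ⟨h1, h2⟩
    exact ⟨h2, fun j => (hj j).1 (h1 j)⟩

theorem lv_vol {n : ℕ} (v : Fin (n + 1) → Fin n → ℝ)
    (hb : Bornology.IsBounded (body v 1)) :
    ∃ c : ℝ, 0 < c ∧ ∃ i : Fin (n + 1), ∃ b : Fin n → ℝ, ∀ h : Fin (n + 1) → ℝ, (∀ j, 0 < h j) →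
      (volume (body v h)).toReal = c * (∏ j, h (i.succAbove j)) *
        (volume (slab (h i) fun j => b j * h (i.succAbove j))).toReal := by
  obtain ⟨i, b, hi⟩ := lv_rel v
  have hdet := lvMap_det (lvMap_inj hb hi)
  refine ⟨|(LinearMap.det (lvMap v i))⁻¹|, abs_pos.2 (inv_ne_zero hdet), i, b, fun h hh => ?_⟩
  rw [lv_preimage hi hh]
  have hp : 0 < ∏ j, h (i.succAbove j) := Finset.prod_pos fun j _ => hh _
  have hd : LinearMap.det ((Matrix.toLin' (Matrix.diagonal fun j => (h (i.succAbove j))⁻¹)) ∘ₗ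
      lvMap v i) = (∏ j, h (i.succAbove j))⁻¹ * LinearMap.det (lvMap v i) := by
    rw [LinearMap.det_comp, LinearMap.det_toLin', Matrix.det_diagonal, Finset.prod_inv_distrib]
  have hd0 : LinearMap.det ((Matrix.toLin' (Matrix.diagonal fun j => (h (i.succAbove j))⁻¹)) ∘ₗ
      lvMap v i) ≠ 0 := by
    rw [hd]
    exact mul_ne_zero (inv_ne_zero hp.ne') hdet
  rw [Measure.addHaar_preimage_linearMap _ hd0, ENNReal.toReal_mul,
    ENNReal.toReal_ofReal (abs_nonneg _), hd, mul_inv, inv_inv, abs_mul, abs_of_pos hp]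
  ring

theorem body_compact {n : ℕ} {v : Fin (n + 1) → Fin n → ℝ}
    (hb : Bornology.IsBounded (body v 1)) (h : Fin (n + 1) → ℝ) : IsCompact (body v h) := by
  rw [Metric.isCompact_iff_isClosed_bounded]
  constructor
  · have h1 : body v h = ⋂ j, {x | |x ⬝ᵥ v j| ≤ h j} := by
      ext x
      simp only [body, mem_ofPred_eq, mem_iInter]
    rw [h1]
    refine isClosed_iInter fun j => isClosed_le ?_ continuous_const
    unfold dotProduct
    fun_prop
  · obtain ⟨C, hC⟩ := hb.exists_norm_le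
    obtain ⟨M, hM⟩ : ∃ M : ℝ, ∀ j, h j ≤ M := by
      obtain ⟨M, hM⟩ := (Set.finite_range h).bddAbove
      exact ⟨M, fun j => hM ⟨j, rfl⟩⟩
    refine isBounded_iff_forall_norm_le.2 ⟨(|M| + 1) * C, fun x hx => ?_⟩
    have hM1 : 0 < |M| + 1 := by (clear * -; positivity)
    have h1 : (|M| + 1)⁻¹ • x ∈ body v 1 := by
      intro j
      rw [smul_dotProduct, smul_eq_mul, abs_mul, abs_of_pos (inv_pos.2 hM1),
        inv_mul_le_iff₀ hM1]
      have h2 := (hx j).trans (hM j)
      have h3 := le_abs_self M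
      simp only [Pi.one_apply, mul_one]
      linarith
    have h2 := hC _ h1
    rw [norm_smul, norm_inv, Real.norm_eq_abs, abs_of_pos hM1, inv_mul_le_iff₀ hM1] at h2
    exact h2

theorem body_conv {n : ℕ} (v : Fin (n + 1) → Fin n → ℝ) (h : Fin (n + 1) → ℝ) :
    Convex ℝ (body v h) := by
  intro y hy z hz s t hs ht hst j
  rw [add_dotProduct, smul_dotProduct, smul_dotProduct]
  have h1 := abs_le.1 (hy j)
  have h2 := abs_le.1 (hz j)
  rw [abs_le, smul_eq_mul, smul_eq_mul]
  have ht' : t = 1 - s := by linarith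
  subst ht'
  constructor <;> nlinarith only [hs, h1, h2, ht]

theorem body_symm {n : ℕ} (v : Fin (n + 1) → Fin n → ℝ) (h : Fin (n + 1) → ℝ) :
    ∀ x ∈ body v h, -x ∈ body v h := by
  intro x hx j
  rw [neg_dotProduct, abs_neg]
  exact hx j

theorem lv_mono_one {n : ℕ} {v : Fin (n + 1) → Fin n → ℝ}
    (hb : Bornology.IsBounded (body v 1)) {g g' : Fin (n + 1) → ℝ} (a : Fin (n + 1))
    (ha : 0 < g a) (haa : g a ≤ g' a) (hg : ∀ j, j ≠ a → g j = g' j) :
    g a * (volume (body v g')).toReal ≤ g' a * (volume (body v g)).toReal := by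
  have h1 := mono_width (body_conv v g') (body_compact hb g') (body_symm v g') (v a) ha haa
  have h2 : body v g' ∩ {x | |x ⬝ᵥ v a| ≤ g' a} = body v g' :=
    inter_eq_left.2 fun x hx => hx a
  have h3 : body v g' ∩ {x | |x ⬝ᵥ v a| ≤ g a} = body v g := by
    ext x
    constructor
    · rintro ⟨h4, h5⟩ j
      by_cases hj : j = a
      · rw [hj]; exact h5
      · rw [hg j hj]; exact h4 j
    · intro h4
      refine ⟨fun j => ?_, h4 a⟩
      by_cases hj : j = a
      · rw [hj]; exact (h4 a).trans haa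
      · rw [← hg j hj]; exact h4 j
  rw [h2, h3] at h1
  exact h1

theorem lv_mono {n : ℕ} {v : Fin (n + 1) → Fin n → ℝ}
    (hb : Bornology.IsBounded (body v 1)) {w W : Fin (n + 1) → ℝ}
    (hw : ∀ j, 0 < w j) (hW : ∀ j, w j ≤ W j) :
    (∏ j, w j) * (volume (body v W)).toReal ≤ (∏ j, W j) * (volume (body v w)).toReal := by
  classical
  have key : ∀ S : Finset (Fin (n + 1)),
      (∏ j ∈ S, w j) * (volume (body v fun j => if j ∈ S then W j else w j)).toReal ≤
        (∏ j ∈ S, W j) * (volume (body v w)).toReal := by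
    intro S
    induction S using Finset.induction_on with
    | empty => simp
    | insert a S ha ih =>
      have h1 := lv_mono_one hb (g := fun j => if j ∈ S then W j else w j)
        (g' := fun j => if j ∈ insert a S then W j else w j) a
        (by simp only [if_neg ha]; exact hw a)
        (by simp only [if_neg ha, Finset.mem_insert_self, if_true]; exact hW a)
        (by
          intro j hj
          simp [Finset.mem_insert, hj])
      simp only [if_neg ha, Finset.mem_insert_self, if_true] at h1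
      rw [Finset.prod_insert ha, Finset.prod_insert ha]
      have hp : 0 ≤ ∏ j ∈ S, w j := Finset.prod_nonneg fun j _ => (hw j).le
      have hWa : 0 ≤ W a := (hw a).le.trans (hW a)
      calc w a * (∏ j ∈ S, w j) *
            (volume (body v fun j => if j ∈ insert a S then W j else w j)).toReal
          = (∏ j ∈ S, w j) * (w a *
            (volume (body v fun j => if j ∈ insert a S then W j else w j)).toReal) := by ring
        _ ≤ (∏ j ∈ S, w j) * (W a *
            (volume (body v fun j => if j ∈ S then W j else w j)).toReal) :=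
          mul_le_mul_of_nonneg_left h1 hp
        _ = W a * ((∏ j ∈ S, w j) *
            (volume (body v fun j => if j ∈ S then W j else w j)).toReal) := by ring
        _ ≤ W a * ((∏ j ∈ S, W j) * (volume (body v w)).toReal) :=
          mul_le_mul_of_nonneg_left ih hWa
        _ = _ := by ring
  have h := key Finset.univ
  simpa only [ge_iff_le, Finset.mem_univ, ↓reduceIte] using h

/-- the numeric end of the argument -/
theorem lv_end {s t : ℝ} (_hs : 0 < s) (_ht : 0 < t) (hst : s + t = 1) {A B : ℝ} (hA : 0 < A)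
    (hB : 0 < B) : s * ((B / A) ^ t * A) + t * ((B / A) ^ (-s) * B) = A ^ s * B ^ t := by
  have e1 : (B / A) ^ t * A = A ^ s * B ^ t := by
    rw [Real.div_rpow hB.le hA.le]
    have h1 : A = A ^ s * A ^ t := by rw [← Real.rpow_add hA, hst, Real.rpow_one]
    have h2 : (A ^ t) ≠ 0 := (Real.rpow_pos_of_pos hA t).ne'
    rw [div_mul_eq_mul_div, div_eq_iff h2]
    nth_rewrite 1 [h1]
    ring
  have e2 : (B / A) ^ (-s) * B = A ^ s * B ^ t := by
    rw [Real.rpow_neg (by positivity), Real.div_rpow hB.le hA.le, inv_div]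
    have h1 : B = B ^ s * B ^ t := by rw [← Real.rpow_add hB, hst, Real.rpow_one]
    have h2 : (B ^ s) ≠ 0 := (Real.rpow_pos_of_pos hB s).ne'
    rw [div_mul_eq_mul_div, div_eq_iff h2]
    nth_rewrite 1 [h1]
    ring
  rw [e1, e2, ← add_mul, hst, one_mul]

theorem lv_young {s t : ℝ} (hs : 0 < s) (ht : 0 < t) (hst : s + t = 1) {κ x y : ℝ}
    (hκ : 0 < κ) (hx : 0 < x) (hy : 0 < y) :
    x ^ s * y ^ t ≤ s * (κ ^ t * x) + t * (κ ^ (-s) * y) := by
  have h1 := Real.geom_mean_le_arith_mean2_weighted hs.le ht.le (p₁ := κ ^ t * x)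
    (p₂ := κ ^ (-s) * y) (by positivity) (by positivity) hst
  have e : (κ ^ t * x) ^ s * (κ ^ (-s) * y) ^ t = x ^ s * y ^ t := by
    rw [Real.mul_rpow (by positivity) hx.le, Real.mul_rpow (by positivity) hy.le,
      ← Real.rpow_mul hκ.le, ← Real.rpow_mul hκ.le]
    have h2 : κ ^ (t * s) * κ ^ (-s * t) = 1 := by
      rw [← Real.rpow_add hκ]
      have : t * s + -s * t = 0 := by ring
      rw [this, Real.rpow_zero]
    calc κ ^ (t * s) * x ^ s * (κ ^ (-s * t) * y ^ t)
        = (κ ^ (t * s) * κ ^ (-s * t)) * (x ^ s * y ^ t) := by ring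
      _ = _ := by rw [h2, one_mul]
  rw [e] at h1
  exact h1

theorem slab_scale {n : ℕ} {r : ℝ} (hr : 0 < r) (a0 : ℝ) (a : Fin n → ℝ) :
    slab (r * a0) (fun j => r * a j) = slab a0 a := by
  ext y
  have h1 : (fun j => r * a j) = r • a := rfl
  rw [h1]
  simp only [slab, mem_ofPred_eq, dotProduct_smul, smul_eq_mul, abs_mul, abs_of_pos hr]
  rw [mul_le_mul_iff_right₀ hr]

/-- The volume of an intersection of `n + 1` slabs is logarithmically concave in the logarithms of
the widths. -/
theorem body_logconcave {n : ℕ} (v : Fin (n + 1) → Fin n → ℝ)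
    (hb : Bornology.IsBounded (body v 1)) {h k : Fin (n + 1) → ℝ} (hh : ∀ j, 0 < h j)
    (hk : ∀ j, 0 < k j) {s t : ℝ} (hs : 0 < s) (ht : 0 < t) (hst : s + t = 1) :
    (volume (body v h)).toReal ^ s * (volume (body v k)).toReal ^ t ≤
      (volume (body v fun j => h j ^ s * k j ^ t)).toReal := by
  obtain ⟨c, hc, i, b, hvol⟩ := lv_vol v hb
  have hS : ∀ g : Fin (n + 1) → ℝ, (∀ j, 0 < g j) →
      0 < (volume (slab (g i) fun j => b j * g (i.succAbove j))).toReal := fun g hg =>
    ENNReal.toReal_pos (slab_volume_ne (hg i) _) (slab_isCompact _ _).measure_ne_top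
  obtain ⟨A, hA⟩ : ∃ A, A = h i / (volume (slab (h i) fun j => b j * h (i.succAbove j))).toReal :=
    ⟨_, rfl⟩
  obtain ⟨B, hB⟩ : ∃ B, B = k i / (volume (slab (k i) fun j => b j * k (i.succAbove j))).toReal :=
    ⟨_, rfl⟩
  have hA0 : 0 < A := by rw [hA]; exact div_pos (hh i) (hS h hh)
  have hB0 : 0 < B := by rw [hB]; exact div_pos (hk i) (hS k hk)
  have hκ : 0 < B / A := div_pos hB0 hA0
  obtain ⟨W, hW⟩ : ∃ W : Fin (n + 1) → ℝ,
      W = fun j => s * ((B / A) ^ t * h j) + t * ((B / A) ^ (-s) * k j) := ⟨_, rfl⟩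
  have hW0 : ∀ j, 0 < W j := by
    intro j
    rw [hW]
    have h1 := hh j
    have h2 := hk j
    (clear * - hs hB0 hA0 h1 ht h2; positivity)
  have hw0 : ∀ j, 0 < h j ^ s * k j ^ t := fun j =>
    mul_pos (Real.rpow_pos_of_pos (hh j) s) (Real.rpow_pos_of_pos (hk j) t)
  have hwW : ∀ j, h j ^ s * k j ^ t ≤ W j := by
    intro j
    rw [hW]
    exact lv_young hs ht hst hκ (hh j) (hk j)
  have step1 : W i ≤ A ^ s * B ^ t *
      (volume (slab (W i) fun j => b j * W (i.succAbove j))).toReal := by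
    have h1 := slab_convex (mul_pos (Real.rpow_pos_of_pos hκ t) (hh i))
      (mul_pos (Real.rpow_pos_of_pos hκ (-s)) (hk i))
      (fun j => (B / A) ^ t * (b j * h (i.succAbove j)))
      (fun j => (B / A) ^ (-s) * (b j * k (i.succAbove j))) hs ht hst
    have h2 : s • (fun j => (B / A) ^ t * (b j * h (i.succAbove j))) +
        t • (fun j => (B / A) ^ (-s) * (b j * k (i.succAbove j))) =
        fun j => b j * W (i.succAbove j) := by
      funext j
      rw [hW]
      simp only [Pi.add_apply, Pi.smul_apply, smul_eq_mul]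
      ring
    have h3 : s * ((B / A) ^ t * h i) + t * ((B / A) ^ (-s) * k i) = W i := by rw [hW]
    rw [h2, h3, slab_scale (Real.rpow_pos_of_pos hκ t),
      slab_scale (Real.rpow_pos_of_pos hκ (-s)), mul_div_assoc, mul_div_assoc, ← hA, ← hB,
      lv_end hs ht hst hA0 hB0, div_le_iff₀ (hS W hW0)] at h1
    exact h1
  have step2 := lv_mono hb (w := fun j => h j ^ s * k j ^ t) hw0 hwW
  have hPW : 0 < ∏ j, W (i.succAbove j) := Finset.prod_pos fun j _ => hW0 _
  rw [hvol W hW0, Fin.prod_univ_succAbove W i] at step2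
  have hF0 : 0 ≤ (volume (body v fun j => h j ^ s * k j ^ t)).toReal := ENNReal.toReal_nonneg
  have step3 : c * ∏ j, (h j ^ s * k j ^ t) ≤
      A ^ s * B ^ t * (volume (body v fun j => h j ^ s * k j ^ t)).toReal := by
    have h1 : 0 < (∏ j, W (i.succAbove j)) *
        (volume (slab (W i) fun j => b j * W (i.succAbove j))).toReal :=
      mul_pos hPW (hS W hW0)
    refine le_of_mul_le_mul_left ?_ h1
    calc (∏ j, W (i.succAbove j)) *
          (volume (slab (W i) fun j => b j * W (i.succAbove j))).toReal *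
          (c * ∏ j, (h j ^ s * k j ^ t))
        = (∏ j, (h j ^ s * k j ^ t)) * (c * (∏ j, W (i.succAbove j)) *
          (volume (slab (W i) fun j => b j * W (i.succAbove j))).toReal) := by ring
      _ ≤ W i * (∏ j, W (i.succAbove j)) *
          (volume (body v fun j => h j ^ s * k j ^ t)).toReal := step2
      _ = W i * ((∏ j, W (i.succAbove j)) *
          (volume (body v fun j => h j ^ s * k j ^ t)).toReal) := by ring
      _ ≤ (A ^ s * B ^ t *
          (volume (slab (W i) fun j => b j * W (i.succAbove j))).toReal) *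
          ((∏ j, W (i.succAbove j)) *
          (volume (body v fun j => h j ^ s * k j ^ t)).toReal) :=
        mul_le_mul_of_nonneg_right step1 (mul_nonneg hPW.le hF0)
      _ = _ := by ring
  have hAF : ∀ g : Fin (n + 1) → ℝ, (∀ j, 0 < g j) →
      (volume (body v g)).toReal *
        (g i / (volume (slab (g i) fun j => b j * g (i.succAbove j))).toReal) =
        c * ∏ j, g j := by
    intro g hg
    have h1 := (hS g hg).ne'
    rw [hvol g hg, Fin.prod_univ_succAbove g i]
    field_simp
  have hPh : 0 < ∏ j, h j := Finset.prod_pos fun j _ => hh j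
  have hPk : 0 < ∏ j, k j := Finset.prod_pos fun j _ => hk j
  have hprod : ∏ j, (h j ^ s * k j ^ t) = (∏ j, h j) ^ s * (∏ j, k j) ^ t := by
    rw [Finset.prod_mul_distrib, Real.finsetProd_rpow _ _ (fun j _ => (hh j).le),
      Real.finsetProd_rpow _ _ (fun j _ => (hk j).le)]
  have e1 := hAF h hh
  have e2 := hAF k hk
  rw [← hA] at e1
  rw [← hB] at e2
  have hcc : c = c ^ s * c ^ t := by rw [← Real.rpow_add hc, hst, Real.rpow_one]
  have step4 : A ^ s * B ^ t * ((volume (body v h)).toReal ^ s *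
      (volume (body v k)).toReal ^ t) = c * ∏ j, (h j ^ s * k j ^ t) := by
    calc A ^ s * B ^ t * ((volume (body v h)).toReal ^ s * (volume (body v k)).toReal ^ t)
        = ((volume (body v h)).toReal ^ s * A ^ s) *
          ((volume (body v k)).toReal ^ t * B ^ t) := by ring
      _ = (c * ∏ j, h j) ^ s * (c * ∏ j, k j) ^ t := by
        rw [← Real.mul_rpow ENNReal.toReal_nonneg hA0.le,
          ← Real.mul_rpow ENNReal.toReal_nonneg hB0.le, e1, e2]
      _ = (c ^ s * c ^ t) * ((∏ j, h j) ^ s * (∏ j, k j) ^ t) := by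
        rw [Real.mul_rpow hc.le hPh.le, Real.mul_rpow hc.le hPk.le]
        ring
      _ = _ := by rw [← hcc, hprod]
  rw [← step4] at step3
  exact le_of_mul_le_mul_left step3
    (mul_pos (Real.rpow_pos_of_pos hA0 s) (Real.rpow_pos_of_pos hB0 t))

end Vale.Agent.P227.Slab
end

section

/-!
# P227 / Slab : comparison lemma at an intersection of `n + 1` slabs
-/

open MeasureTheory Set

namespace Vale.Agent.P227

/-- Intersection of `n + 1` origin-symmetric slabs in `R^n`. -/
def IsSlabs {n : ℕ} (K : Set (EuclideanSpace ℝ (Fin n))) : Prop :=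
  ∃ v : Fin (n + 1) → EuclideanSpace ℝ (Fin n), K = {x | ∀ j, |inner ℝ x (v j)| ≤ 1}

open scoped Matrix in
theorem sz_inner {n : ℕ} (x y : EV n) : crd n x ⬝ᵥ crd n y = inner ℝ x y := by
  rw [EuclideanSpace.inner_eq_star_dotProduct, dotProduct_comm]
  rfl

theorem sz_image {n m : ℕ} (v : Fin (m + 1) → EV n) (h : Fin (m + 1) → ℝ) (hm : m = n) :
    crd n '' {x | ∀ j, |inner ℝ x (v j)| ≤ h j} =
      {x | ∀ j, |x ⬝ᵥ crd n (v j)| ≤ h j} := by
  subst hm
  ext x
  constructor
  · rintro ⟨y, hy, rfl⟩ j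
    rw [sz_inner]
    exact hy j
  · intro hx
    refine ⟨(crd m).symm x, fun j => ?_, by simp⟩
    rw [← sz_inner]
    simpa only [ContinuousLinearEquiv.apply_symm_apply] using hx j

theorem sz_abs_inner_le {n : ℕ} {K : Set (EV n)} (hK : SymConvexBody K) {x : EV n} (hx : x ∈ K)
    (u : EV n) : |inner ℝ x u| ≤ supportFn K u := by
  rw [abs_le]
  refine ⟨?_, inner_le_supportFn hK.isCompact hx u⟩
  have h1 := inner_le_supportFn hK.isCompact (hK.symm x hx) u
  rw [inner_neg_left] at h1
  linarith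

/-- positive widths -/
noncomputable def szw {n : ℕ} (K : Set (EV n)) (v : EV n) : ℝ :=
  if v = 0 then 1 else supportFn K v

theorem szw_pos {n : ℕ} {K : Set (EV n)} (hK : SymConvexBody K) (v : EV n) : 0 < szw K v := by
  unfold szw
  split_ifs with h
  · exact one_pos
  · exact hK.supportFn_pos h

theorem szw_le {n : ℕ} {K : Set (EV n)} (hK : SymConvexBody K) {x : EV n} (hx : x ∈ K)
    (v : EV n) : |inner ℝ x v| ≤ szw K v := by
  unfold szw
  split_ifs with h
  · rw [h, inner_zero_right, abs_zero]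
    exact zero_le_one
  · exact sz_abs_inner_le hK hx v

theorem sz_bdd {n : ℕ} (v : Fin (n + 1) → Fin n → ℝ)
    (hb : Bornology.IsBounded (Slab.body v 1)) (h : Fin (n + 1) → ℝ) :
    Bornology.IsBounded (Slab.body v h) := by
  obtain ⟨R, hR⟩ := hb.exists_norm_le
  set r : ℝ := 1 + ∑ j, |h j| with hr
  have hr0 : 0 < r := by (clear * -; positivity)
  refine isBounded_iff_forall_norm_le.2 ⟨r * R, fun x hx => ?_⟩
  have h1 : r⁻¹ • x ∈ Slab.body v 1 := by
    intro j
    have h2 : |x ⬝ᵥ v j| ≤ r := by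
      refine (hx j).trans ((le_abs_self _).trans ?_)
      have := Finset.single_le_sum (f := fun j => |h j|) (fun i _ => abs_nonneg (h i))
        (Finset.mem_univ j)
      (clear * - this; linarith)
    rw [smul_dotProduct, smul_eq_mul, abs_mul, abs_of_pos (inv_pos.2 hr0)]
    show _ ≤ (1 : ℝ)
    rw [inv_mul_le_iff₀ hr0, mul_one]
    exact h2
  have h3 := hR _ h1
  rw [norm_smul, norm_inv, Real.norm_of_nonneg hr0.le, inv_mul_le_iff₀ hr0] at h3
  exact h3

/-- The comparison lemma (compare `lemmaZ_zonoid`). -/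
theorem lemmaZ_slabs {n : ℕ} {s t : ℝ} (hs0 : 0 < s) (ht0 : 0 < t) (hst : s + t = 1)
    {W K L : Set (EV n)} (hW : SymConvexBody W) (hz : IsSlabs W) (hK : SymConvexBody K)
    (hL : SymConvexBody L)
    (h : ∀ u : EV n, ‖u‖ = 1 →
      s * Real.log (supportFn K u) + t * Real.log (supportFn L u) ≤
        Real.log (supportFn W u)) :
    s * Real.log (evol K) + t * Real.log (evol L) ≤ Real.log (evol W) := by
  obtain ⟨v, hv⟩ := hz
  set v' : Fin (n + 1) → Fin n → ℝ := fun j => crd n (v j) with hv'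
  have hWi : crd n '' W = Slab.body v' 1 := by
    rw [hv]
    exact sz_image v 1 rfl
  have hb : Bornology.IsBounded (Slab.body v' 1) := by
    rw [← hWi]
    exact (hW.isCompact.image (crd n).continuous).isBounded
  -- the widths
  have hle : ∀ j, szw K (v j) ^ s * szw L (v j) ^ t ≤ 1 := by
    intro j
    by_cases h0 : v j = 0
    · unfold szw
      rw [if_pos h0, if_pos h0, Real.one_rpow, Real.one_rpow, mul_one]
    · have hnu : 0 < ‖v j‖ := norm_pos_iff.2 h0
      have hKw := hK.supportFn_pos h0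
      have hLw := hL.supportFn_pos h0
      have hWw := hW.supportFn_pos h0
      have h1 : supportFn W (v j) ≤ 1 := by
        apply supportFn_le ⟨0, hW.zero_mem⟩
        intro x hx
        rw [hv] at hx
        exact (le_abs_self _).trans (hx j)
      set w := ‖v j‖⁻¹ • v j with hw
      have hw1 : ‖w‖ = 1 := by rw [hw, norm_smul, norm_inv, norm_norm]; (clear * - h0; field_simp)
      have hw0 : w ≠ 0 := by intro h0; rw [h0] at hw1; simp only [norm_zero, zero_ne_one] at hw1
      have hwu : v j = ‖v j‖ • w := by rw [hw, smul_smul, mul_inv_cancel₀ hnu.ne', one_smul]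
      have e : ∀ {M : Set (EV n)}, SymConvexBody M → Real.log (supportFn M (v j)) =
          Real.log ‖v j‖ + Real.log (supportFn M w) := by
        intro M hM
        conv_lhs => rw [hwu]
        rw [supportFn_smul hM.isCompact ⟨0, hM.zero_mem⟩ hnu.le,
          Real.log_mul hnu.ne' (hM.supportFn_pos hw0).ne']
      have h2 := h w hw1
      have h3 : s * Real.log (supportFn K (v j)) + t * Real.log (supportFn L (v j)) ≤
          Real.log (supportFn W (v j)) := by
        rw [e hK, e hL, e hW]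
        have : s * Real.log ‖v j‖ + t * Real.log ‖v j‖ = Real.log ‖v j‖ := by
          rw [← add_mul, hst, one_mul]
        linarith only [h2, this]
      have h4 : Real.log (supportFn W (v j)) ≤ 0 := Real.log_nonpos hWw.le h1
      unfold szw
      rw [if_neg h0, if_neg h0]
      rw [← Real.log_nonpos_iff (by (clear * - hKw hLw; positivity)), Real.log_mul (by (clear * - hKw; positivity)) (by positivity),
        Real.log_rpow hKw, Real.log_rpow hLw]
      linarith only [h3, h4]
  -- inclusions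
  have hsub : ∀ {M : Set (EV n)}, SymConvexBody M →
      evol M ≤ (volume (Slab.body v' fun j => szw M (v j))).toReal := by
    intro M hM
    rw [← vol_crd hM.isCompact.measurableSet]
    refine ENNReal.toReal_mono (sz_bdd v' hb _).measure_lt_top.ne (measure_mono ?_)
    rintro _ ⟨x, hx, rfl⟩ j
    show |crd n x ⬝ᵥ crd n (v j)| ≤ _
    rw [sz_inner]
    exact szw_le hM hx (v j)
  have hWe : evol W = (volume (Slab.body v' 1)).toReal := by
    rw [← vol_crd hW.isCompact.measurableSet, hWi]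
    rfl
  have hmain := Slab.body_logconcave v' hb (h := fun j => szw K (v j))
    (k := fun j => szw L (v j)) (fun j => szw_pos hK _) (fun j => szw_pos hL _) hs0 ht0 hst
  have hlast : (volume (Slab.body v' fun j => szw K (v j) ^ s * szw L (v j) ^ t)).toReal ≤
      evol W := by
    rw [hWe]
    refine ENNReal.toReal_mono hb.measure_lt_top.ne (measure_mono fun x hx j => ?_)
    exact (hx j).trans (hle j)
  have hKp := evol_pos hK
  have hLp := evol_pos hL
  have hWp := evol_pos hW
  have h5 : evol K ^ s * evol L ^ t ≤ evol W := by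
    refine le_trans ?_ (hmain.trans hlast)
    exact mul_le_mul (Real.rpow_le_rpow hKp.le (hsub hK) hs0.le)
      (Real.rpow_le_rpow hLp.le (hsub hL) ht0.le) (by (clear * - hLp; positivity)) (by (clear * -; positivity))
  have h6 := Real.log_le_log (by (clear * - hKp hLp; positivity)) h5
  rwa [Real.log_mul (by (clear * - hKp; positivity)) (by (clear * - hLp; positivity)), Real.log_rpow hKp, Real.log_rpow hLp] at h6

end Vale.Agent.P227
end

section

open MeasureTheory Set Metric Filter Topology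
open scoped ENNReal

namespace Vale.Agent.P227.Loc

variable {n : ℕ}

/-- linear reflection `x ↦ x - 2 ⟨x, w⟩ v` (with `⟨v, w⟩ = 1`) -/
noncomputable def rfl' (v w : EV n) (x : EV n) : EV n := x - (2 * inner ℝ x w) • v

/-- the reflection as a linear map -/
noncomputable def rflL (v w : EV n) : EV n →ₗ[ℝ] EV n where
  toFun := rfl' v w
  map_add' := by
    intro x y
    unfold rfl'
    rw [inner_add_left, mul_add, add_smul]
    abel
  map_smul' := by
    intro c x
    unfold rfl'
    rw [real_inner_smul_left, RingHom.id_apply, smul_sub, smul_smul]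
    congr 2
    ring

theorem rfl'_rfl' {v w : EV n} (h : inner ℝ v w = (1 : ℝ)) (x : EV n) :
    rfl' v w (rfl' v w x) = x := by
  unfold rfl'
  have : inner ℝ (x - (2 * inner ℝ x w) • v) w = -inner ℝ x w := by
    rw [inner_sub_left, real_inner_smul_left, h]; ring
  rw [this]
  rw [mul_neg, neg_smul]
  abel

theorem inner_rfl' (v w x u : EV n) : inner ℝ (rfl' v w x) u = inner ℝ x (rfl' w v u) := by
  unfold rfl'
  rw [inner_sub_left, inner_sub_right, real_inner_smul_left, inner_smul_right,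
    real_inner_comm v u]
  ring

theorem rfl'_neg (v w x : EV n) : rfl' v w (-x) = -rfl' v w x := by
  unfold rfl'
  rw [inner_neg_left, mul_neg, neg_smul]
  abel

theorem rfl'_smul (v w x : EV n) (c : ℝ) : rfl' v w (c • x) = c • rfl' v w x :=
  (rflL v w).map_smul c x

theorem volume_rfl' {v w : EV n} (h : inner ℝ v w = (1 : ℝ)) (A : Set (EV n)) :
    volume (rfl' v w ⁻¹' A) = volume A := by
  have hcomp : (rflL v w) ∘ₗ (rflL v w) = LinearMap.id := by
    ext1 x
    exact rfl'_rfl' h x
  have hdet : LinearMap.det (rflL v w) * LinearMap.det (rflL v w) = 1 := by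
    rw [← LinearMap.det_comp, hcomp, LinearMap.det_id]
  have hdet0 : LinearMap.det (rflL v w) ≠ 0 := by
    intro h0
    rw [h0] at hdet
    simp at hdet
  have habs : |(LinearMap.det (rflL v w))⁻¹| = 1 := by
    rcases mul_self_eq_one_iff.1 hdet with h1 | h1 <;> rw [h1] <;> norm_num
  have := Measure.addHaar_preimage_linearMap (volume : Measure (EV n)) hdet0 A
  rw [habs, ENNReal.ofReal_one, one_mul] at this
  exact this

/-- bounded on the sphere and homogeneous of degree zero -/
structure Bd (φ : EV n → ℝ) : Prop where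
  bd : ∃ B : ℝ, ∀ u : EV n, ‖u‖ = 1 → |φ u| ≤ B
  hom : ∀ s : ℝ, 0 < s → ∀ u, φ (s • u) = φ u

theorem mem_wexp {K : Set (EV n)} (hK : SymConvexBody K) {φ : EV n → ℝ} (hφ : Bd φ) (x : EV n) :
    x ∈ wexp K φ ↔ ∀ u : EV n, inner ℝ x u ≤ supportFn K u * Real.exp (φ u) := by
  constructor
  · intro hx u
    by_cases hu : u = 0
    · subst hu
      rw [supportFn_zero hK.isCompact ⟨0, hK.zero_mem⟩]
      simp only [inner_zero_right, zero_mul, Std.le_refl]
    · have hun : 0 < ‖u‖ := norm_pos_iff.2 hu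
      have h1 : ‖‖u‖⁻¹ • u‖ = 1 := by rw [norm_smul, norm_inv, norm_norm]; (clear * - hu; field_simp)
      have h2 := hx _ h1
      beta_reduce at h2
      rw [inner_smul_right, hφ.hom _ (inv_pos.2 hun),
        supportFn_smul hK.isCompact ⟨0, hK.zero_mem⟩ (inv_pos.2 hun).le, mul_assoc] at h2
      exact le_of_mul_le_mul_left h2 (inv_pos.2 hun)
  · intro hx u _
    exact hx u

theorem supportFn_rfl' {K : Set (EV n)} (hK : SymConvexBody K) {v w : EV n}
    (hvw : inner ℝ v w = (1 : ℝ)) (hR : ∀ x ∈ K, rfl' v w x ∈ K) (u : EV n) :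
    supportFn K (rfl' w v u) = supportFn K u := by
  have hle : ∀ u : EV n, supportFn K (rfl' w v u) ≤ supportFn K u := by
    intro u
    apply supportFn_le ⟨0, hK.zero_mem⟩
    intro x hx
    rw [← inner_rfl']
    exact inner_le_supportFn hK.isCompact (hR x hx) u
  apply le_antisymm (hle u)
  have h1 := hle (rfl' w v u)
  rwa [rfl'_rfl' (by rw [real_inner_comm]; exact hvw)] at h1

/-- (G1) invariance of the volume -/
theorem wexp_comp {K : Set (EV n)} (hK : SymConvexBody K) {v w : EV n}
    (hvw : inner ℝ v w = (1 : ℝ)) (hR : ∀ x ∈ K, rfl' v w x ∈ K) {φ : EV n → ℝ} (hφ : Bd φ)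
    (hφ' : Bd (fun u => φ (rfl' w v u))) :
    wexp K (fun u => φ (rfl' w v u)) = rfl' v w ⁻¹' (wexp K φ) := by
  have hwv : inner ℝ w v = (1 : ℝ) := by rw [real_inner_comm]; exact hvw
  ext x
  rw [mem_preimage, mem_wexp hK hφ, mem_wexp hK hφ']
  constructor
  · intro h u
    have h1 := h (rfl' w v u)
    rw [rfl'_rfl' hwv, supportFn_rfl' hK hvw hR, ← inner_rfl'] at h1
    exact h1
  · intro h u
    have h1 := h (rfl' w v u)
    rw [inner_rfl', rfl'_rfl' hwv, supportFn_rfl' hK hvw hR] at h1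
    exact h1

/-- (G2) Kato inequality for volumes. -/
theorem kato {K : Set (EV n)} (hK : SymConvexBody K) {v w : EV n}
    (hvw : inner ℝ v w = (1 : ℝ)) (hR : ∀ x ∈ K, rfl' v w x ∈ K) {φ : EV n → ℝ} (hφ : Bd φ)
    (hodd : ∀ u, φ (rfl' w v u) = -φ u) {φs : EV n → ℝ} (hφs : Bd φs) (hφsn : Bd (fun u => -φs u))
    (hs : ∀ u, 0 ≤ inner ℝ v u → φs u = φ u) (hs' : ∀ u, inner ℝ v u ≤ 0 → φs u = -φ u) :
    2 * volume (wexp K φ) ≤ volume (wexp K φs) + volume (wexp K (fun u => -φs u)) := by
  have hwv : inner ℝ w v = (1 : ℝ) := by rw [real_inner_comm]; exact hvw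
  have hφn : Bd (fun u => -φ u) := by
    obtain ⟨B, hB⟩ := hφ.bd
    refine ⟨⟨B, fun u hu => by rw [abs_neg]; exact hB u hu⟩, fun s hs u => by rw [hφ.hom s hs]⟩
  -- symmetry of the folded function
  have hv0 : ∀ u : EV n, inner ℝ v (rfl' w v u) = -inner ℝ v u := by
    intro u
    unfold rfl'
    rw [inner_sub_right, inner_smul_right, hvw, real_inner_comm v u]
    ring
  have hsinv : ∀ u, φs (rfl' w v u) = φs u := by
    intro u
    rcases le_total 0 (inner ℝ v u) with h | h
    · rw [hs u h, hs' _ (by rw [hv0]; linarith), hodd, neg_neg]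
    · rw [hs' u h, hs _ (by rw [hv0]; linarith), hodd]
  set P : Set (EV n) := {x | 0 < inner ℝ x w} with hP
  set N : Set (EV n) := {x | inner ℝ x w < 0} with hN
  set Z : Set (EV n) := {x | inner ℝ x w = (0 : ℝ)} with hZ
  have hPm : MeasurableSet P := (isOpen_lt continuous_const (by fun_prop)).measurableSet
  have hNm : MeasurableSet N := (isOpen_lt (by fun_prop) continuous_const).measurableSet
  have hZ0 : volume Z = 0 := by
    have hker : Z = ((LinearMap.ker (innerSL ℝ w).toLinearMap : Submodule ℝ (EV n)) :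
        Set (EV n)) := by
      ext x
      simp only [hZ, SetLike.mem_coe, LinearMap.mem_ker]
      change inner ℝ x w = (0 : ℝ) ↔ inner ℝ w x = (0 : ℝ)
      rw [real_inner_comm]
    rw [hker]
    apply Measure.addHaar_submodule
    intro htop
    have : v ∈ (LinearMap.ker (innerSL ℝ w).toLinearMap : Submodule ℝ (EV n)) := by
      rw [htop]; trivial
    rw [LinearMap.mem_ker] at this
    change inner ℝ w v = (0 : ℝ) at this
    rw [hwv] at this
    exact one_ne_zero this
  -- reflection exchanges P and N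
  have hPN : ∀ x, rfl' v w x ∈ P ↔ x ∈ N := by
    intro x
    have : inner ℝ (rfl' v w x) w = -inner ℝ x w := by
      unfold rfl'
      rw [inner_sub_left, real_inner_smul_left, hvw]; ring
    simp only [hP, hN, mem_ofPred_eq, this]
    constructor <;> intro h <;> linarith only [h]
  -- half of the folded body
  have half : ∀ {χ : EV n → ℝ}, Bd χ → (∀ u, χ (rfl' w v u) = χ u) →
      2 * volume (wexp K χ ∩ P) ≤ volume (wexp K χ) := by
    intro χ hχ hinv
    have h1 : rfl' v w ⁻¹' (wexp K χ ∩ P) = wexp K χ ∩ N := by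
      have h2 : wexp K (fun u => χ (rfl' w v u)) = wexp K χ := by simp only [hinv]
      have h3 := wexp_comp hK hvw hR hχ (by simp only [hinv]; exact hχ)
      rw [h2] at h3
      ext x
      rw [mem_preimage, mem_inter_iff, mem_inter_iff, hPN]
      constructor
      · rintro ⟨a, b⟩; exact ⟨by rw [h3]; exact a, b⟩
      · rintro ⟨a, b⟩; exact ⟨by rw [h3] at a; exact a, b⟩
    have h4 : volume (wexp K χ ∩ N) = volume (wexp K χ ∩ P) := by
      rw [← h1, volume_rfl' hvw]
    have hdisj : Disjoint (wexp K χ ∩ P) (wexp K χ ∩ N) := by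
      rw [Set.disjoint_left]
      rintro x ⟨_, h5⟩ ⟨_, h6⟩
      simp only [hP, hN, mem_ofPred_eq] at h5 h6
      linarith only [h5, h6]
    have h7 : wexp K χ ∩ P ∪ wexp K χ ∩ N ⊆ wexp K χ := by
      rintro x (h | h) <;> exact h.1
    calc 2 * volume (wexp K χ ∩ P) = volume (wexp K χ ∩ N) + volume (wexp K χ ∩ P) := by
          rw [h4, two_mul]
      _ = volume (wexp K χ ∩ P) + volume (wexp K χ ∩ N) := add_comm _ _
      _ ≤ volume (wexp K χ ∩ P ∪ wexp K χ ∩ N) := by
          have hmeas : MeasurableSet (wexp K χ) := by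
            have : IsClosed (wexp K χ) := by
              have : wexp K χ = ⋂ (u : EV n) (_ : ‖u‖ = 1),
                  {x | inner ℝ x u ≤ supportFn K u * Real.exp (χ u)} := by
                ext x
                simp only [wexp, wulff, mem_ofPred_eq, mem_iInter]
              rw [this]
              refine isClosed_iInter fun u => isClosed_iInter fun _ => ?_
              exact isClosed_le (by fun_prop) continuous_const
            exact this.measurableSet
          rw [measure_union hdisj (hmeas.inter hNm)]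
      _ ≤ volume (wexp K χ) := measure_mono h7
  -- the positive part of the body is contained in the folded body
  have sub1 : ∀ {χ χs : EV n → ℝ}, Bd χ → Bd χs → (∀ u, χ (rfl' w v u) = -χ u) →
      (∀ u, 0 ≤ inner ℝ v u → χs u = χ u) → (∀ u, inner ℝ v u ≤ 0 → χs u = -χ u) →
      wexp K χ ∩ P ⊆ wexp K χs ∩ P := by
    intro χ χs hχ hχs ho h1 h2 x hx
    refine ⟨?_, hx.2⟩
    rw [mem_wexp hK hχs]
    have hx1 := (mem_wexp hK hχ x).1 hx.1
    intro u
    rcases le_total 0 (inner ℝ v u) with h | h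
    · rw [h1 u h]; exact hx1 u
    · rw [h2 u h]
      have h3 := hx1 (rfl' w v u)
      rw [supportFn_rfl' hK hvw hR, ho] at h3
      refine le_trans ?_ h3
      have h4 : inner ℝ x (rfl' w v u) = inner ℝ x u - 2 * inner ℝ v u * inner ℝ x w := by
        unfold rfl'
        rw [inner_sub_right, inner_smul_right, real_inner_comm v u]
      rw [h4]
      have h5 : 0 < inner ℝ x w := hx.2
      linarith [mul_nonneg (sub_nonneg.2 h) (le_of_lt (sub_pos.2 h5))]
  have s1 := sub1 hφ hφs hodd hs hs'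
  have s2 := sub1 (χ := fun u => -φ u) (χs := fun u => -φs u) hφn hφsn
    (fun u => by rw [hodd]) (fun u hu => by rw [hs u hu]) (fun u hu => by rw [hs' u hu])
  have hsplit : volume (wexp K φ) ≤ volume (wexp K φ ∩ P) + volume (wexp K φ ∩ N) := by
    have h1 : wexp K φ ⊆ (wexp K φ ∩ P ∪ wexp K φ ∩ N) ∪ Z := by
      intro x hx
      rcases lt_trichotomy (inner ℝ x w) 0 with h | h | h
      · exact Or.inl (Or.inr ⟨hx, h⟩)
      · exact Or.inr h
      · exact Or.inl (Or.inl ⟨hx, h⟩)
    calc volume (wexp K φ) ≤ volume ((wexp K φ ∩ P ∪ wexp K φ ∩ N) ∪ Z) := measure_mono h1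
      _ ≤ volume (wexp K φ ∩ P ∪ wexp K φ ∩ N) + volume Z := measure_union_le _ _
      _ = volume (wexp K φ ∩ P ∪ wexp K φ ∩ N) := by rw [hZ0, add_zero]
      _ ≤ _ := measure_union_le _ _
  have hN' : volume (wexp K φ ∩ N) = volume (wexp K (fun u => -φ u) ∩ P) := by
    have h1 : rfl' v w ⁻¹' (wexp K (fun u => -φ u) ∩ P) = wexp K φ ∩ N := by
      have h3 := wexp_comp hK hvw hR hφn (by
        have : (fun u => -φ (rfl' w v u)) = φ := by funext u; rw [hodd, neg_neg]
        rw [this]; exact hφ)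
      have h4 : (fun u => -φ (rfl' w v u)) = φ := by funext u; rw [hodd, neg_neg]
      rw [h4] at h3
      ext x
      rw [mem_preimage, mem_inter_iff, mem_inter_iff, hPN]
      constructor
      · rintro ⟨a, b⟩; exact ⟨by rw [h3]; exact a, b⟩
      · rintro ⟨a, b⟩; exact ⟨by rw [h3] at a; exact a, b⟩
    rw [← h1, volume_rfl' hvw]
  calc 2 * volume (wexp K φ) ≤ 2 * (volume (wexp K φ ∩ P) + volume (wexp K φ ∩ N)) :=
        mul_le_mul_right hsplit 2
    _ = 2 * volume (wexp K φ ∩ P) + 2 * volume (wexp K (fun u => -φ u) ∩ P) := by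
        rw [hN', mul_add]
    _ ≤ 2 * volume (wexp K φs ∩ P) + 2 * volume (wexp K (fun u => -φs u) ∩ P) :=
        add_le_add (mul_le_mul_right (measure_mono s1) 2) (mul_le_mul_right (measure_mono s2) 2)
    _ ≤ _ := add_le_add (half hφs hsinv) (half hφsn (fun u => by rw [hsinv]))

end Vale.Agent.P227.Loc
end

section

open MeasureTheory Set Metric Filter Topology
open scoped ENNReal

namespace Vale.Agent.P227.Loc

variable {n : ℕ}

theorem wexp_scb' {K : Set (EV n)} (hK : SymConvexBody K) {φ : EV n → ℝ} (hφ : Bd φ)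
    (heven : ∀ u, φ (-u) = φ u) : SymConvexBody (wexp K φ) := by
  obtain ⟨r, hr0, hr⟩ := hK.exists_ball
  obtain ⟨R, hR0, hR⟩ := hK.exists_bound
  obtain ⟨B, hB⟩ := hφ.bd
  apply wulff_symConvexBody (a := r * Real.exp (-B)) (b := R * Real.exp B) (by positivity)
  · intro u hu
    have h1 := SymConvexBody.supportFn_ge hr0 hK.isCompact hr u
    rw [hu, mul_one] at h1
    apply mul_le_mul h1 _ (Real.exp_pos _).le (by linarith)
    apply Real.exp_le_exp.2
    exact (abs_le.1 (hB u hu)).1
  · intro u hu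
    have h1 := hK.supportFn_le_norm hR u
    rw [hu, mul_one] at h1
    apply mul_le_mul h1 _ (Real.exp_pos _).le hR0.le
    apply Real.exp_le_exp.2
    exact (abs_le.1 (hB u hu)).2
  · intro u
    rw [hK.supportFn_neg, heven]

theorem Bd.neg {φ : EV n → ℝ} (hφ : Bd φ) : Bd (fun u => -φ u) := by
  obtain ⟨B, hB⟩ := hφ.bd
  exact ⟨⟨B, fun u hu => by rw [abs_neg]; exact hB u hu⟩, fun s hs u => by rw [hφ.hom s hs]⟩

/-- (G3) the product inequality from log-Brunn-Minkowski with `n - 2` reflections. -/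
theorem prod_ineq {m : ℕ} {K : Set (EV (m + 2))} (hK : SymConvexBody K)
    (v w : Fin (m + 2) → EV (m + 2))
    (hvw : ∀ i j, inner ℝ (v i) (w j) = if i = j then (1 : ℝ) else 0)
    (hR : ∀ i, ∀ x ∈ K, rfl' (v i) (w i) x ∈ K) (e : Fin m ↪ Fin (m + 2))
    {φ : EV (m + 2) → ℝ} (hφ : Bd φ) (heven : ∀ u, φ (-u) = φ u)
    (hinv : ∀ j, ∀ u, φ (rfl' (w (e j)) (v (e j)) u) = φ u) :
    volume (wexp K φ) * volume (wexp K (fun u => -φ u)) ≤ volume K ^ 2 := by
  have hK1 := wexp_scb' hK hφ heven
  have hK2 := wexp_scb' hK hφ.neg (fun u => by rw [heven])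
  have hii : ∀ i, inner ℝ (v i) (w i) = (1 : ℝ) := by intro i; rw [hvw]; simp
  have inv : ∀ {χ : EV (m + 2) → ℝ}, Bd χ → (∀ j, ∀ u, χ (rfl' (w (e j)) (v (e j)) u) = χ u) →
      ∀ j, ∀ x ∈ wexp K χ, rfl' (v (e j)) (w (e j)) x ∈ wexp K χ := by
    intro χ hχ hi j x hx
    have h1 := wexp_comp hK (hii (e j)) (hR (e j)) hχ (by simp only [hi]; exact hχ)
    simp only [hi] at h1
    rw [h1] at hx
    exact hx
  have key := T1.main_biorth (fun j => v (e j)) (fun j => w (e j))
    (by
      intro i j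
      rw [hvw]
      by_cases h : i = j
      · subst h; simp
      · have : e i ≠ e j := fun h' => h (e.injective h')
        rw [if_neg h, if_neg this])
    (wexp K φ) (wexp K (fun u => -φ u)) hK1 hK2
    (fun j x hx => inv hφ hinv j x hx)
    (fun j x hx => inv hφ.neg (fun j u => by rw [hinv]) j x hx)
    (1 / 2) ⟨by norm_num, by norm_num⟩
  have hsub : logComb (1 / 2) (wexp K φ) (wexp K (fun u => -φ u)) ⊆ K := by
    intro x hx
    apply mem_of_inner_le_supportFn hK.isCompact hK.convex ⟨0, hK.zero_mem⟩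
    intro u hu
    have h1 := hx u hu
    refine h1.trans ?_
    beta_reduce
    have hKu := hK.supportFn_pos (ne0 hu)
    have a1 : supportFn (wexp K φ) u ≤ supportFn K u * Real.exp (φ u) :=
      supportFn_le ⟨0, hK1.zero_mem⟩ fun x hx => hx u hu
    have a2 : supportFn (wexp K (fun u => -φ u)) u ≤ supportFn K u * Real.exp (-φ u) :=
      supportFn_le ⟨0, hK2.zero_mem⟩ fun x hx => hx u hu
    have b1 := hK1.supportFn_nonneg u
    have b2 := hK2.supportFn_nonneg u
    have e12 : (1 : ℝ) - 1 / 2 = 1 / 2 := by norm_num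
    rw [e12, ← Real.mul_rpow b1 b2]
    have h3 : supportFn (wexp K φ) u * supportFn (wexp K (fun u => -φ u)) u ≤
        supportFn K u ^ 2 := by
      calc _ ≤ (supportFn K u * Real.exp (φ u)) * (supportFn K u * Real.exp (-φ u)) :=
            mul_le_mul a1 a2 b2 (by positivity)
        _ = supportFn K u ^ 2 * (Real.exp (φ u) * Real.exp (-φ u)) := by ring
        _ = supportFn K u ^ 2 := by rw [← Real.exp_add, add_neg_cancel, Real.exp_zero, mul_one]
    calc _ ≤ (supportFn K u ^ 2) ^ (1 / 2 : ℝ) :=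
          Real.rpow_le_rpow (mul_nonneg b1 b2) h3 (by norm_num)
      _ = supportFn K u := by
          rw [← Real.sqrt_eq_rpow, Real.sqrt_sq hKu.le]
  have h4 := key.trans (measure_mono hsub)
  have e12 : (1 : ℝ) - 1 / 2 = 1 / 2 := by norm_num
  rw [e12, ← ENNReal.mul_rpow_of_nonneg _ _ (by norm_num : (0 : ℝ) ≤ 1 / 2)] at h4
  have h5 := ENNReal.rpow_le_rpow h4 (by norm_num : (0 : ℝ) ≤ 2)
  rw [← ENNReal.rpow_mul] at h5
  norm_num at h5
  exact h5

theorem zero_of_odd {v w : EV n} {φ : EV n → ℝ}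
    (hodd : ∀ u, φ (rfl' w v u) = -φ u) {u : EV n} (hu : inner ℝ v u = (0 : ℝ)) : φ u = 0 := by
  have h1 := hodd u
  have h2 : rfl' w v u = u := by
    unfold rfl'
    rw [real_inner_comm, hu]
    simp
  rw [h2] at h1
  linarith

/-- folding -/
noncomputable def fold (v : EV n) (φ : EV n → ℝ) (u : EV n) : ℝ := Real.sign (inner ℝ v u) * φ u

theorem Real_sign_abs (x : ℝ) : |Real.sign x| ≤ 1 := by
  rcases lt_trichotomy x 0 with h | h | h
  · rw [Real.sign_of_neg h]; simp
  · rw [h, Real.sign_zero]; simp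
  · rw [Real.sign_of_pos h]; simp

theorem fold_bd {v : EV n} {φ : EV n → ℝ} (hφ : Bd φ) : Bd (fold v φ) := by
  obtain ⟨B, hB⟩ := hφ.bd
  refine ⟨⟨B, fun u hu => ?_⟩, fun s hs u => ?_⟩
  · unfold fold
    rw [abs_mul]
    calc _ ≤ 1 * |φ u| := mul_le_mul_of_nonneg_right (Real_sign_abs _) (abs_nonneg _)
      _ ≤ B := by rw [one_mul]; exact hB u hu
  · unfold fold
    rw [hφ.hom s hs, inner_smul_right]
    congr 1
    rcases lt_trichotomy (inner ℝ v u) 0 with h | h | h
    · rw [Real.sign_of_neg h, Real.sign_of_neg (mul_neg_of_pos_of_neg hs h)]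
    · rw [h, mul_zero]
    · rw [Real.sign_of_pos h, Real.sign_of_pos (mul_pos hs h)]

theorem fold_pos {v w : EV n} {φ : EV n → ℝ} (hodd : ∀ u, φ (rfl' w v u) = -φ u) {u : EV n}
    (hu : 0 ≤ inner ℝ v u) : fold v φ u = φ u := by
  unfold fold
  rcases hu.eq_or_lt with h | h
  · rw [zero_of_odd hodd h.symm, mul_zero]
  · rw [Real.sign_of_pos h, one_mul]

theorem fold_neg {v w : EV n} {φ : EV n → ℝ} (hodd : ∀ u, φ (rfl' w v u) = -φ u) {u : EV n}
    (hu : inner ℝ v u ≤ 0) : fold v φ u = -φ u := by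
  unfold fold
  rcases hu.eq_or_lt with h | h
  · rw [zero_of_odd hodd h, mul_zero, neg_zero]
  · rw [Real.sign_of_neg h, neg_one_mul]

theorem kato_fold {K : Set (EV n)} (hK : SymConvexBody K) {v w : EV n}
    (hvw : inner ℝ v w = (1 : ℝ)) (hR : ∀ x ∈ K, rfl' v w x ∈ K) {φ : EV n → ℝ} (hφ : Bd φ)
    (hodd : ∀ u, φ (rfl' w v u) = -φ u) :
    2 * volume (wexp K φ) ≤ volume (wexp K (fold v φ)) +
      volume (wexp K (fun u => -fold v φ u)) :=
  kato hK hvw hR hφ hodd (fold_bd hφ) (fold_bd hφ).neg (fun _ hu => fold_pos hodd hu)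
    (fun _ hu => fold_neg hodd hu)

theorem fold_comp_same {v w : EV n} (hvw : inner ℝ v w = (1 : ℝ)) {φ : EV n → ℝ}
    (hodd : ∀ u, φ (rfl' w v u) = -φ u) (u : EV n) : fold v φ (rfl' w v u) = fold v φ u := by
  unfold fold
  have h1 : inner ℝ v (rfl' w v u) = -inner ℝ v u := by
    unfold rfl'
    rw [inner_sub_right, inner_smul_right, hvw, real_inner_comm v u]
    ring
  rw [h1, hodd]
  rcases lt_trichotomy (inner ℝ v u) 0 with h | h | h
  · rw [Real.sign_of_neg h, Real.sign_of_pos (by linarith)]; ring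
  · rw [h, neg_zero, Real.sign_zero]; ring
  · rw [Real.sign_of_pos h, Real.sign_of_neg (by linarith)]; ring

theorem fold_comp_other {v v' w' : EV n} (hvw : inner ℝ v w' = (0 : ℝ)) {φ : EV n → ℝ} {c : ℝ}
    (h : ∀ u, φ (rfl' w' v' u) = c * φ u) (u : EV n) :
    fold v φ (rfl' w' v' u) = c * fold v φ u := by
  unfold fold
  have h1 : inner ℝ v (rfl' w' v' u) = inner ℝ v u := by
    unfold rfl'
    rw [inner_sub_right, inner_smul_right, hvw]
    ring
  rw [h1, h]
  ring

/-- (G4) monotonicity for mixed parity types -/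
theorem type_ineq {m : ℕ} {K : Set (EV (m + 2))} (hK : SymConvexBody K)
    (v w : Fin (m + 2) → EV (m + 2))
    (hvw : ∀ i j, inner ℝ (v i) (w j) = if i = j then (1 : ℝ) else 0)
    (hR : ∀ i, ∀ x ∈ K, rfl' (v i) (w i) x ∈ K) (k : ℕ) :
    ∀ (S : Finset (Fin (m + 2))), S.card = 2 * (k + 1) → ∀ φ : EV (m + 2) → ℝ, Bd φ →
      (∀ u, φ (-u) = φ u) → (∀ i ∈ S, ∀ u, φ (rfl' (w i) (v i) u) = -φ u) →
      (∀ i ∉ S, ∀ u, φ (rfl' (w i) (v i) u) = φ u) → volume (wexp K φ) ≤ volume K := by
  have hii : ∀ i, inner ℝ (v i) (w i) = (1 : ℝ) := by intro i; rw [hvw]; simp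
  induction k with
  | zero =>
    intro S hS φ hφ heven hodd hev
    have hc : Sᶜ.card = m := by
      rw [Finset.card_compl, hS, Fintype.card_fin]
      omega
    set e : Fin m ↪ Fin (m + 2) := (Sᶜ.orderEmbOfFin hc).toEmbedding with he
    have hee : ∀ j, e j ∉ S := by
      intro j
      have := Sᶜ.orderEmbOfFin_mem hc j
      exact Finset.mem_compl.1 this
    have h1 := prod_ineq hK v w hvw hR e hφ heven (fun j u => hev _ (hee j) u)
    have hne : S.Nonempty := by
      rw [← Finset.card_pos, hS]; norm_num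
    obtain ⟨a, ha⟩ := hne
    have h2 : volume (wexp K (fun u => -φ u)) = volume (wexp K φ) := by
      have h3 : (fun u => -φ u) = fun u => φ (rfl' (w a) (v a) u) := by
        funext u; rw [hodd a ha]
      have h4 := wexp_comp hK (hii a) (hR a) hφ (by rw [← h3]; exact hφ.neg)
      rw [h3, h4, volume_rfl' (hii a)]
    rw [h2, ← sq] at h1
    exact (ENNReal.pow_le_pow_left_iff two_ne_zero).1 h1
  | succ k ih =>
    intro S hS φ hφ heven hodd hev
    have h2lt : 1 < S.card := by omega
    obtain ⟨i, hi, j, hj, hij⟩ := Finset.one_lt_card.1 h2lt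
    set φ₁ := fold (v i) φ with hφ₁
    have hvij : inner ℝ (v i) (w j) = (0 : ℝ) := by rw [hvw, if_neg hij]
    have hodd1 : ∀ u, φ₁ (rfl' (w j) (v j) u) = -φ₁ u := by
      intro u
      have := fold_comp_other (v := v i) (v' := v j) (w' := w j) (φ := φ) hvij (c := -1)
        (fun u => by rw [hodd j hj]; ring) u
      rw [← hφ₁] at this
      linarith
    set φ₂ := fold (v j) φ₁ with hφ₂
    have hb1 : Bd φ₁ := fold_bd hφ
    have hb2 : Bd φ₂ := fold_bd hb1
    -- properties of the twice folded function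
    have heven2 : ∀ u, φ₂ (-u) = φ₂ u := by
      intro u
      rw [hφ₂, hφ₁]
      unfold fold
      rw [heven, inner_neg_right, inner_neg_right]
      have hs : ∀ x : ℝ, Real.sign (-x) = -Real.sign x := by
        intro x
        rcases lt_trichotomy x 0 with h | h | h
        · rw [Real.sign_of_neg h, Real.sign_of_pos (by linarith)]; ring
        · rw [h, neg_zero, Real.sign_zero, neg_zero]
        · rw [Real.sign_of_pos h, Real.sign_of_neg (by linarith)]
      rw [hs, hs]
      ring
    have hinv_j : ∀ u, φ₂ (rfl' (w j) (v j) u) = φ₂ u := fold_comp_same (hii j) hodd1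
    have hinv_i : ∀ u, φ₂ (rfl' (w i) (v i) u) = φ₂ u := by
      intro u
      have h1 : ∀ u, φ₁ (rfl' (w i) (v i) u) = 1 * φ₁ u := by
        intro u
        rw [one_mul]
        exact fold_comp_same (hii i) (hodd i hi) u
      have hvji : inner ℝ (v j) (w i) = (0 : ℝ) := by rw [hvw, if_neg (Ne.symm hij)]
      have := fold_comp_other (v := v j) (v' := v i) (w' := w i) hvji h1 u
      rw [one_mul] at this
      exact this
    have hother : ∀ l, l ≠ i → l ≠ j → ∀ c : ℝ, (∀ u, φ (rfl' (w l) (v l) u) = c * φ u) →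
        ∀ u, φ₂ (rfl' (w l) (v l) u) = c * φ₂ u := by
      intro l hli hlj c hc
      apply fold_comp_other
      · rw [hvw, if_neg (Ne.symm hlj)]
      · apply fold_comp_other
        · rw [hvw, if_neg (Ne.symm hli)]
        · exact hc
    set S' : Finset (Fin (m + 2)) := (S.erase i).erase j with hS'
    have hcard : S'.card = 2 * (k + 1) := by
      rw [hS', Finset.card_erase_of_mem (Finset.mem_erase.2 ⟨Ne.symm hij, hj⟩),
        Finset.card_erase_of_mem hi, hS]
      omega
    have hin : ∀ l ∈ S', ∀ u, φ₂ (rfl' (w l) (v l) u) = -φ₂ u := by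
      intro l hl u
      rw [hS', Finset.mem_erase, Finset.mem_erase] at hl
      have := hother l hl.2.1 hl.1 (-1) (fun u => by rw [hodd l hl.2.2]; ring) u
      linarith
    have hout : ∀ l ∉ S', ∀ u, φ₂ (rfl' (w l) (v l) u) = φ₂ u := by
      intro l hl u
      by_cases hli : l = i
      · subst hli; exact hinv_i u
      by_cases hlj : l = j
      · subst hlj; exact hinv_j u
      have hlS : l ∉ S := by
        intro h
        apply hl
        rw [hS', Finset.mem_erase, Finset.mem_erase]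
        exact ⟨hlj, hli, h⟩
      have := hother l hli hlj 1 (fun u => by rw [hev l hlS]; ring) u
      linarith
    have ih1 := ih S' hcard φ₂ hb2 heven2 hin hout
    have ih2 := ih S' hcard (fun u => -φ₂ u) hb2.neg (fun u => by rw [heven2])
      (fun l hl u => by rw [hin l hl]) (fun l hl u => by rw [hout l hl])
    have k0 := kato_fold hK (hii i) (hR i) hφ (hodd i hi)
    have k1 := kato_fold hK (hii j) (hR j) hb1 hodd1
    have k2 := kato_fold hK (hii j) (hR j) hb1.neg (fun u => by rw [hodd1])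
    have hfn : fold (v j) (fun u => -φ₁ u) = fun u => -φ₂ u := by
      funext u
      rw [hφ₂]
      unfold fold
      ring
    rw [hfn] at k2
    simp only [neg_neg] at k2
    rw [← hφ₁] at k0
    rw [← hφ₂] at k1
    have two : ∀ {x y : ℝ≥0∞}, 2 * x ≤ y + y → x ≤ y := by
      intro x y h
      rw [← two_mul] at h
      exact (ENNReal.mul_le_mul_iff_right (by norm_num) (by norm_num)).1 h
    have l1 : volume (wexp K φ₁) ≤ volume K := two (k1.trans (add_le_add ih1 ih2))
    have l2 : volume (wexp K (fun u => -φ₁ u)) ≤ volume K :=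
      two (k2.trans (add_le_add ih2 ih1))
    exact two (k0.trans (add_le_add l1 l2))

end Vale.Agent.P227.Loc
end

section

open MeasureTheory Set Metric Filter Topology
open scoped ENNReal

namespace Vale.Agent.P227.Loc

variable {n : ℕ}

theorem adm_smul {φ : EV n → ℝ} (hφ : Adm φ) (t : ℝ) : Adm (fun u => t * φ u) where
  even := by intro u; rw [hφ.even]
  cont := continuousOn_const.mul hφ.cont
  hom := by intro s hs u; rw [hφ.hom s hs]

theorem adm_zero : Adm (fun _ : EV n => (0 : ℝ)) where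
  even := by intro u; rfl
  cont := continuousOn_const
  hom := by intro s hs u; rfl

theorem fam_linear {K : Set (EV n)} (hK : SymConvexBody K) {g : EV n → ℝ} (hg : Pt g) :
    Fam K g (fun _ => 0) (fun t u => t * psi K g u) where
  adm := Filter.Eventually.of_forall fun t => adm_smul (psi_adm hK hg) t
  chi := adm_zero
  exp := by
    intro ε hε
    refine Filter.Eventually.of_forall fun t u _ => ?_
    simp only [sub_self, mul_zero, abs_zero]
    positivity

/-- integrability of the dual quadratic form -/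
theorem qf_integrable (hn : 0 < n) {K : Set (EV n)} (hK : SymConvexBody K) (hC : C2Plus K)
    {S : EV n → ((EV n →L[ℝ] ℝ) →ₗ[ℝ] EV n)} (hS : IsDual K S) {ν : EV n → EV n}
    (hν : IsConeNormal K ν) {g : EV n → ℝ} (hg : Pt g) :
    Integrable (fun x => qf K S g (ν x)) (volume.restrict (interior K)) := by
  have hfin := finite_restrict hK
  set ρ : Measure (EV n) := volume.restrict (interior K) with hρ
  have hne0 : ∀ᵐ x ∂ρ, x ≠ 0 := ae_ne_zero hn _
  have haeν : ∀ᵐ x ∂ρ, ‖ν x‖ = 1 ∧ inner ℝ x (ν x) = gauge K x * supportFn K (ν x) :=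
    ae_restrict_of_ae_restrict_of_subset interior_subset hν.2
  have hF := fam_linear hK hg
  obtain ⟨M, hM0, hdom⟩ := fam_dom hn hK hC hg hF
  have hψm : Measurable (fun x => psi K g (ν x)) := (measurable_adm (psi_adm hK hg)).comp hν.1
  have hlim : ∀ᵐ x ∂ρ, Tendsto (fun t => (lrat K (fun u => t * psi K g u) x -
      t * psi K g (ν x)) / t ^ 2) (𝓝[≠] 0) (𝓝 (0 - qf K S g (ν x) / 2)) := by
    filter_upwards [hne0, haeν] with x hx hνx
    have hν0 := ne0 hνx.1
    obtain ⟨hq1, hq2⟩ := hS (ν x) hν0 (fderiv ℝ (psi K g) (ν x))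
      (psi_fderiv_self hK hC hg hν0)
    exact fam_tendsto hn hK hC hg hF hx hνx.1 hνx.2 (q := qf K S g (ν x)) hq1 hq2
  have hseq : Tendsto (fun k : ℕ => 1 / ((k : ℝ) + 1)) atTop (𝓝[≠] 0) := by
    rw [tendsto_nhdsWithin_iff]
    refine ⟨tendsto_one_div_add_atTop_nhds_zero_nat, Filter.Eventually.of_forall fun k => ?_⟩
    have : (0 : ℝ) < 1 / ((k : ℝ) + 1) := by positivity
    exact this.ne'
  have hmeas : AEMeasurable (fun x => 0 - qf K S g (ν x) / 2) ρ := by
    apply aemeasurable_of_tendsto_metrizable_ae atTop (f := fun (k : ℕ) x =>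
      (lrat K (fun u => (1 / ((k : ℝ) + 1)) * psi K g u) x -
        (1 / ((k : ℝ) + 1)) * psi K g (ν x)) / (1 / ((k : ℝ) + 1)) ^ 2)
    · intro k
      apply Measurable.aemeasurable
      apply Measurable.div_const
      apply Measurable.sub
      · exact lrat_measurable hK (adm_smul (psi_adm hK hg) _)
      · exact hψm.const_mul _
    · filter_upwards [hlim] with x hx
      exact hx.comp hseq
  have hmeas2 : AEMeasurable (fun x => qf K S g (ν x)) ρ := by
    have := (hmeas.neg.const_mul (2 : ℝ))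
    refine this.congr (Filter.Eventually.of_forall fun x => ?_)
    simp only [Pi.neg_apply]
    ring
  apply Integrable.of_bound hmeas2.aestronglyMeasurable (2 * M)
  filter_upwards [hlim, hne0, haeν] with x hx hx0 hνx
  have hb : ∀ᶠ t in 𝓝[≠] (0 : ℝ), |(lrat K (fun u => t * psi K g u) x -
      t * psi K g (ν x)) / t ^ 2| ≤ M := by
    filter_upwards [hdom.filter_mono (nhdsWithin_le_nhds (s := {(0 : ℝ)}ᶜ)),
      self_mem_nhdsWithin] with t ht ht0
    have ht0' : t ≠ 0 := ht0
    rw [abs_div, abs_of_pos (show 0 < t ^ 2 by positivity), div_le_iff₀ (by positivity)]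
    exact (ht x (ν x) hx0 hνx.1 hνx.2).1
  have h1 := le_of_tendsto hx.abs hb
  rw [Real.norm_eq_abs]
  have h2 : |qf K S g (ν x)| = 2 * |0 - qf K S g (ν x) / 2| := by
    rw [zero_sub, abs_neg, abs_div, abs_of_pos (show (0 : ℝ) < 2 by norm_num)]
    ring
  rw [h2]
  linarith

/-- first order coefficient of the volume -/
noncomputable def V1 (K : Set (EV n)) (ν : EV n → EV n) (g : EV n → ℝ) : ℝ :=
  n * ∫ x in interior K, psi K g (ν x)

/-- integral of the dual quadratic form -/
noncomputable def IQ (K : Set (EV n)) (S : EV n → ((EV n →L[ℝ] ℝ) →ₗ[ℝ] EV n))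
    (ν : EV n → EV n) (g : EV n → ℝ) : ℝ := ∫ x in interior K, qf K S g (ν x)

/-- integral of the square -/
noncomputable def IP (K : Set (EV n)) (ν : EV n → EV n) (g : EV n → ℝ) : ℝ :=
  ∫ x in interior K, psi K g (ν x) ^ 2

/-- second order coefficient of the volume along `t ψ` -/
noncomputable def V2 (K : Set (EV n)) (S : EV n → ((EV n →L[ℝ] ℝ) →ₗ[ℝ] EV n))
    (ν : EV n → EV n) (g : EV n → ℝ) : ℝ :=
  -(n / 2) * IQ K S ν g + (n : ℝ) ^ 2 / 2 * IP K ν g

/-- the local log-Brunn-Minkowski quadratic form -/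
noncomputable def QQ (K : Set (EV n)) (S : EV n → ((EV n →L[ℝ] ℝ) →ₗ[ℝ] EV n))
    (ν : EV n → EV n) (g : EV n → ℝ) : ℝ :=
  V1 K ν g ^ 2 - 2 * evol K * V2 K S ν g

theorem psi_integrable {K : Set (EV n)} (hK : SymConvexBody K) {ν : EV n → EV n}
    (hν : IsConeNormal K ν) {φ : EV n → ℝ} (hφ : Adm φ) :
    Integrable (fun x => φ (ν x)) (volume.restrict (interior K)) := by
  have hfin := finite_restrict hK
  obtain ⟨P, hP0, hP⟩ := hφ.bound
  have haeν : ∀ᵐ x ∂(volume.restrict (interior K)), ‖ν x‖ = 1 ∧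
      inner ℝ x (ν x) = gauge K x * supportFn K (ν x) :=
    ae_restrict_of_ae_restrict_of_subset interior_subset hν.2
  apply Integrable.of_bound ((measurable_adm hφ).comp hν.1).aestronglyMeasurable P
  filter_upwards [haeν] with x hx
  exact hP _ hx.1

theorem adm_mul {φ χ : EV n → ℝ} (hφ : Adm φ) (hχ : Adm χ) : Adm (fun u => φ u * χ u) where
  even := by intro u; rw [hφ.even, hχ.even]
  cont := hφ.cont.mul hχ.cont
  hom := by intro s hs u; rw [hφ.hom s hs, hχ.hom s hs]

theorem adm_sq {φ : EV n → ℝ} (hφ : Adm φ) : Adm (fun u => φ u ^ 2) where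
  even := by intro u; rw [hφ.even]
  cont := hφ.cont.pow 2
  hom := by intro s hs u; rw [hφ.hom s hs]

/-- general second order expansion with the coefficients separated -/
theorem vol_exp2 (hn : 0 < n) {K : Set (EV n)} (hK : SymConvexBody K) (hC : C2Plus K)
    {S : EV n → ((EV n →L[ℝ] ℝ) →ₗ[ℝ] EV n)} (hS : IsDual K S) {ν : EV n → EV n}
    (hν : IsConeNormal K ν) {g χ : EV n → ℝ} {φ : ℝ → EV n → ℝ} (hg : Pt g)
    (hF : Fam K g χ φ) :
    Tendsto (fun t => (Vol K (φ t) - evol K - t * V1 K ν g) / t ^ 2) (𝓝[≠] 0)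
      (𝓝 (n * (∫ x in interior K, χ (ν x)) + V2 K S ν g)) := by
  have h := vol_expansion hn hK hC hS hν hg hF
  have i1 := psi_integrable hK hν hF.chi
  have i2 := qf_integrable hn hK hC hS hν hg
  have i3 := psi_integrable hK hν (adm_sq (psi_adm hK hg))
  have e : ∫ x in interior K, (n * (χ (ν x) - qf K S g (ν x) / 2) +
        (n : ℝ) ^ 2 / 2 * psi K g (ν x) ^ 2) =
      n * (∫ x in interior K, χ (ν x)) + V2 K S ν g := by
    have e1 : ∀ x, (n * (χ (ν x) - qf K S g (ν x) / 2) +
        (n : ℝ) ^ 2 / 2 * psi K g (ν x) ^ 2) =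
        (n * χ (ν x) + (-(n / 2 : ℝ)) * qf K S g (ν x)) +
          (n : ℝ) ^ 2 / 2 * psi K g (ν x) ^ 2 := by
      intro x; ring
    have j1 : Integrable (fun x => (n : ℝ) * χ (ν x)) (volume.restrict (interior K)) :=
      i1.const_mul _
    have j2 : Integrable (fun x => (-(n / 2 : ℝ)) * qf K S g (ν x))
      (volume.restrict (interior K)) := i2.const_mul _
    have j3 : Integrable (fun x => (n : ℝ) ^ 2 / 2 * psi K g (ν x) ^ 2)
      (volume.restrict (interior K)) := i3.const_mul _
    have j12 : Integrable (fun x => (n : ℝ) * χ (ν x) + (-(n / 2 : ℝ)) * qf K S g (ν x))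
      (volume.restrict (interior K)) := j1.add j2
    simp only [e1]
    rw [integral_add j12 j3, integral_add j1 j2, integral_const_mul, integral_const_mul,
      integral_const_mul]
    unfold V2 IQ IP
    ring
  rw [e] at h
  exact h

theorem vol_exp_linear (hn : 0 < n) {K : Set (EV n)} (hK : SymConvexBody K) (hC : C2Plus K)
    {S : EV n → ((EV n →L[ℝ] ℝ) →ₗ[ℝ] EV n)} (hS : IsDual K S) {ν : EV n → EV n}
    (hν : IsConeNormal K ν) {g : EV n → ℝ} (hg : Pt g) :
    Tendsto (fun t => (Vol K (fun u => t * psi K g u) - evol K - t * V1 K ν g) / t ^ 2) (𝓝[≠] 0)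
      (𝓝 (V2 K S ν g)) := by
  have h := vol_exp2 hn hK hC hS hν hg (fam_linear hK hg)
  simpa using h

/-- parallelogram law -/
theorem QQ_parallelogram (hn : 0 < n) {K : Set (EV n)} (hK : SymConvexBody K) (hC : C2Plus K)
    {S : EV n → ((EV n →L[ℝ] ℝ) →ₗ[ℝ] EV n)} (hS : IsDual K S) {ν : EV n → EV n}
    (hν : IsConeNormal K ν) {g₁ g₂ : EV n → ℝ} (h₁ : Pt g₁) (h₂ : Pt g₂) :
    QQ K S ν (fun u => g₁ u + g₂ u) + QQ K S ν (fun u => g₁ u - g₂ u) =
      2 * QQ K S ν g₁ + 2 * QQ K S ν g₂ := by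
  have haeν : ∀ᵐ x ∂(volume.restrict (interior K)), ‖ν x‖ = 1 ∧
      inner ℝ x (ν x) = gauge K x * supportFn K (ν x) :=
    ae_restrict_of_ae_restrict_of_subset interior_subset hν.2
  have ip : ∀ {g : EV n → ℝ}, Pt g →
      Integrable (fun x => psi K g (ν x)) (volume.restrict (interior K)) :=
    fun hg => psi_integrable hK hν (psi_adm hK hg)
  have is : ∀ {g : EV n → ℝ}, Pt g →
      Integrable (fun x => psi K g (ν x) ^ 2) (volume.restrict (interior K)) :=
    fun hg => psi_integrable hK hν (adm_sq (psi_adm hK hg))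
  have iq : ∀ {g : EV n → ℝ}, Pt g →
      Integrable (fun x => qf K S g (ν x)) (volume.restrict (interior K)) :=
    fun hg => qf_integrable hn hK hC hS hν hg
  have e1 : V1 K ν (fun u => g₁ u + g₂ u) = V1 K ν g₁ + V1 K ν g₂ := by
    unfold V1
    rw [psi_add, integral_add (ip h₁) (ip h₂)]
    ring
  have e2 : V1 K ν (fun u => g₁ u - g₂ u) = V1 K ν g₁ - V1 K ν g₂ := by
    unfold V1
    rw [psi_sub, integral_sub (ip h₁) (ip h₂)]
    ring
  have e3 : IP K ν (fun u => g₁ u + g₂ u) + IP K ν (fun u => g₁ u - g₂ u) =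
      2 * IP K ν g₁ + 2 * IP K ν g₂ := by
    unfold IP
    rw [← integral_add (is (h₁.add h₂)) (is (h₁.sub h₂)), ← integral_const_mul,
      ← integral_const_mul, ← integral_add ((is h₁).const_mul 2) ((is h₂).const_mul 2)]
    apply integral_congr_ae
    refine Filter.Eventually.of_forall fun x => ?_
    simp only [psi_add, psi_sub]
    ring
  have e4 : IQ K S ν (fun u => g₁ u + g₂ u) + IQ K S ν (fun u => g₁ u - g₂ u) =
      2 * IQ K S ν g₁ + 2 * IQ K S ν g₂ := by
    unfold IQ
    rw [← integral_add (iq (h₁.add h₂)) (iq (h₁.sub h₂)), ← integral_const_mul,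
      ← integral_const_mul, ← integral_add ((iq h₁).const_mul 2) ((iq h₂).const_mul 2)]
    apply integral_congr_ae
    filter_upwards [haeν] with x hνx
    have hν0 := ne0 hνx.1
    have d1 := (psi_diff hK hC h₁ hν0).differentiableAt
    have d2 := (psi_diff hK hC h₂ hν0).differentiableAt
    have f1 : fderiv ℝ (psi K fun u => g₁ u + g₂ u) (ν x) =
        fderiv ℝ (psi K g₁) (ν x) + fderiv ℝ (psi K g₂) (ν x) := by
      rw [psi_add]
      exact fderiv_fun_add d1 d2
    have f2 : fderiv ℝ (psi K fun u => g₁ u - g₂ u) (ν x) =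
        fderiv ℝ (psi K g₁) (ν x) - fderiv ℝ (psi K g₂) (ν x) := by
      rw [psi_sub]
      exact fderiv_fun_sub d1 d2
    simp only [qf]
    rw [f1, f2]
    simp only [map_add, map_sub, add_apply, sub_apply]
    ring
  unfold QQ V2
  rw [e1, e2]
  linear_combination (2 * evol K) * (n / 2) * e4 - (2 * evol K) * ((n : ℝ) ^ 2 / 2) * e3

/-- uniqueness of second order expansions -/
theorem expansion_unique {f : ℝ → ℝ} {c a b a' b' : ℝ}
    (h : Tendsto (fun t => (f t - c - t * a) / t ^ 2) (𝓝[≠] 0) (𝓝 b))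
    (h' : Tendsto (fun t => (f t - c - t * a') / t ^ 2) (𝓝[≠] 0) (𝓝 b')) :
    a = a' ∧ b = b' := by
  have ht : Tendsto (fun t : ℝ => t) (𝓝[≠] 0) (𝓝 0) :=
    tendsto_nhdsWithin_of_tendsto_nhds tendsto_id
  have h1 := (h'.sub h).mul ht
  rw [mul_zero] at h1
  have h2 : Tendsto (fun _ : ℝ => a - a') (𝓝[≠] (0 : ℝ)) (𝓝 0) := by
    refine h1.congr' ?_
    filter_upwards [self_mem_nhdsWithin] with t ht0
    have : t ≠ 0 := ht0
    field_simp
    ring
  have h3 : a - a' = 0 := tendsto_nhds_unique tendsto_const_nhds h2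
  have h4 : a = a' := by linarith
  subst h4
  exact ⟨rfl, tendsto_nhds_unique h h'⟩

/-- the form only depends on the volumes `Vol (t ψ)` -/
theorem QQ_congr (hn : 0 < n) {K : Set (EV n)} (hK : SymConvexBody K) (hC : C2Plus K)
    {S : EV n → ((EV n →L[ℝ] ℝ) →ₗ[ℝ] EV n)} (hS : IsDual K S) {ν : EV n → EV n}
    (hν : IsConeNormal K ν) {g₁ g₂ : EV n → ℝ} (h₁ : Pt g₁) (h₂ : Pt g₂)
    (h : ∀ t : ℝ, Vol K (fun u => t * psi K g₁ u) = Vol K (fun u => t * psi K g₂ u)) :
    QQ K S ν g₁ = QQ K S ν g₂ := by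
  have e1 := vol_exp_linear hn hK hC hS hν h₁
  have e2 := vol_exp_linear hn hK hC hS hν h₂
  simp only [h] at e1
  obtain ⟨ha, hb⟩ := expansion_unique e1 e2
  unfold QQ
  rw [ha, hb]

/-- nonnegativity from the product inequality -/
theorem QQ_nonneg_of_mul (hn : 0 < n) {K : Set (EV n)} (hK : SymConvexBody K) (hC : C2Plus K)
    {S : EV n → ((EV n →L[ℝ] ℝ) →ₗ[ℝ] EV n)} (hS : IsDual K S) {ν : EV n → EV n}
    (hν : IsConeNormal K ν) {g : EV n → ℝ} (hg : Pt g)
    (h : ∀ t : ℝ, Vol K (fun u => t * psi K g u) * Vol K (fun u => -t * psi K g u) ≤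
      evol K ^ 2) : 0 ≤ QQ K S ν g := by
  have e1 := vol_exp_linear hn hK hC hS hν hg
  have ht : Tendsto (fun t : ℝ => t) (𝓝[≠] 0) (𝓝 0) :=
    tendsto_nhdsWithin_of_tendsto_nhds tendsto_id
  have hneg : Tendsto (fun t : ℝ => -t) (𝓝[≠] 0) (𝓝[≠] 0) := by
    rw [tendsto_nhdsWithin_iff]
    refine ⟨by simpa using ht.neg, ?_⟩
    filter_upwards [self_mem_nhdsWithin] with t ht0
    have : t ≠ 0 := ht0
    simpa using this
  have e2 := e1.comp hneg
  -- f(t) f(-t) = V0^2 + (2 V0 V2 - V1^2) t^2 + o(t^2)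
  set A : ℝ → ℝ := fun t => (Vol K (fun u => t * psi K g u) - evol K - t * V1 K ν g) / t ^ 2
    with hA
  have e3 : Tendsto (fun t => evol K * (A t + A (-t)) - V1 K ν g ^ 2 +
      t * (V1 K ν g * (A (-t) - A t)) + t * t * (A t * A (-t))) (𝓝[≠] 0)
      (𝓝 (evol K * (V2 K S ν g + V2 K S ν g) - V1 K ν g ^ 2 +
        0 * (V1 K ν g * (V2 K S ν g - V2 K S ν g)) + 0 * 0 * (V2 K S ν g * V2 K S ν g))) := by
    have a1 : Tendsto A (𝓝[≠] 0) (𝓝 (V2 K S ν g)) := e1
    have a2 : Tendsto (fun t => A (-t)) (𝓝[≠] 0) (𝓝 (V2 K S ν g)) := e2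
    exact ((((a1.add a2).const_mul _).sub tendsto_const_nhds).add
      (ht.mul ((a2.sub a1).const_mul _))).add ((ht.mul ht).mul (a1.mul a2))
  have e4 : ∀ᶠ t in 𝓝[≠] (0 : ℝ), evol K * (A t + A (-t)) - V1 K ν g ^ 2 +
      t * (V1 K ν g * (A (-t) - A t)) + t * t * (A t * A (-t)) ≤ 0 := by
    filter_upwards [self_mem_nhdsWithin] with t ht0
    have ht0' : t ≠ 0 := ht0
    have ht2 : 0 < t ^ 2 := by positivity
    have h1 := h t
    have b1 : Vol K (fun u => t * psi K g u) = evol K + t * V1 K ν g + t ^ 2 * A t := by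
      simp only [hA]; field_simp; ring
    have b2 : Vol K (fun u => -t * psi K g u) = evol K - t * V1 K ν g + t ^ 2 * A (-t) := by
      simp only [hA]; field_simp; ring
    rw [b1, b2] at h1
    have h2 : t ^ 2 * (evol K * (A t + A (-t)) - V1 K ν g ^ 2 +
      t * (V1 K ν g * (A (-t) - A t)) + t * t * (A t * A (-t))) ≤ 0 := by
      linarith only [h1]
    by_contra hcon
    push Not at hcon
    have := mul_pos ht2 hcon
    linarith only [this, h2]
  have h5 := le_of_tendsto e3 e4
  unfold QQ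
  linarith

end Vale.Agent.P227.Loc
end

section
attribute [-instance] ProperSMul.toContinuousSMul IsTopologicalTorsor.toContinuousSMul IdemSemiring.toCanonicallyOrderedAdd IdemSemiring.toMulLeftMono IdemSemiring.toMulRightMono AddQuantale.instAddLeftMono AddQuantale.instAddRightMono Quantale.instMulLeftMono Quantale.instMulRightMono FiniteDimensional.rclike_to_real IsScalarTower.complexToReal FiniteDimensional.complexToReal

open MeasureTheory Set Metric Filter Topology
open scoped ENNReal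

namespace Vale.Agent.P227.Loc

variable {n : ℕ}

theorem log_bound {z : ℝ} (hz : |z| ≤ 1 / 2) : |Real.log (1 + z) - z + z ^ 2 / 2| ≤ 2 * |z| ^ 3 := by
  have h1 : |-z| < 1 := by rw [abs_neg]; linarith
  have h2 := Real.abs_log_sub_add_sum_range_le h1 2
  simp only [Finset.sum_range_succ, Finset.sum_range_zero] at h2
  norm_num at h2
  have e : -z + z ^ 2 / 2 + Real.log (1 + z) = Real.log (1 + z) - z + z ^ 2 / 2 := by ring
  rw [e] at h2
  refine h2.trans ?_
  rw [div_le_iff₀ (by linarith)]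
  have : 0 ≤ |z| ^ 3 := by positivity
  linarith only [mul_nonneg (sub_nonneg.2 hz) (sub_nonneg.2 this)]

theorem log_tendsto {y : ℝ → ℝ} {a : ℝ} (h : Tendsto (fun t => y t / t) (𝓝[≠] 0) (𝓝 a)) :
    Tendsto (fun t => (Real.log (1 + y t) - y t) / t ^ 2) (𝓝[≠] 0) (𝓝 (-(a ^ 2 / 2))) := by
  have ht : Tendsto (fun t : ℝ => t) (𝓝[≠] 0) (𝓝 0) := tendsto_nhdsWithin_of_tendsto_nhds tendsto_id
  have hR : Tendsto y (𝓝[≠] 0) (𝓝 0) := by
    have h1 := h.mul ht
    rw [mul_zero] at h1
    refine h1.congr' ?_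
    filter_upwards [self_mem_nhdsWithin] with t ht0
    have : t ≠ 0 := ht0
    field_simp
  have hsq : Tendsto (fun t => -((y t / t) ^ 2 / 2)) (𝓝[≠] 0) (𝓝 (-(a ^ 2 / 2))) :=
    ((h.pow 2).div_const 2).neg
  have herr : Tendsto (fun t => (Real.log (1 + y t) - y t) / t ^ 2 - -((y t / t) ^ 2 / 2))
      (𝓝[≠] 0) (𝓝 0) := by
    have hb : Tendsto (fun t => 2 * (|y t| * (y t / t) ^ 2)) (𝓝[≠] 0) (𝓝 0) := by
      have := (hR.abs.mul (h.pow 2)).const_mul 2
      rwa [abs_zero, zero_mul, mul_zero] at this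
    apply squeeze_zero_norm' _ hb
    have hsm : ∀ᶠ t in 𝓝[≠] (0 : ℝ), |y t| < 1 / 2 := by
      have := hR.abs
      rw [abs_zero] at this
      exact this.eventually_lt_const (by norm_num)
    filter_upwards [hsm, self_mem_nhdsWithin] with t ht1 ht0
    have ht0' : t ≠ 0 := ht0
    have h2 := log_bound ht1.le
    have e : (Real.log (1 + y t) - y t) / t ^ 2 - -((y t / t) ^ 2 / 2) =
        (Real.log (1 + y t) - y t + y t ^ 2 / 2) / t ^ 2 := by
      field_simp
      ring
    rw [e, Real.norm_eq_abs, abs_div, abs_of_pos (show 0 < t ^ 2 by positivity),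
      div_le_iff₀ (by positivity)]
    have e2 : 2 * (|y t| * (y t / t) ^ 2) * t ^ 2 = 2 * |y t| ^ 3 := by
      have : |y t| ^ 3 = |y t| * |y t| ^ 2 := by ring
      rw [this, sq_abs]
      field_simp
    rw [e2]
    exact h2
  have := herr.add hsq
  simpa using this

/-- second order expansion of a power -/
theorem rpow_tendsto {y : ℝ → ℝ} {a b l : ℝ}
    (h : Tendsto (fun t => (y t - t * a) / t ^ 2) (𝓝[≠] 0) (𝓝 b)) :
    Tendsto (fun t => ((1 + y t) ^ l - 1 - t * (l * a)) / t ^ 2) (𝓝[≠] 0)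
      (𝓝 (l * b - l * (1 - l) * a ^ 2 / 2)) := by
  have ht : Tendsto (fun t : ℝ => t) (𝓝[≠] 0) (𝓝 0) := tendsto_nhdsWithin_of_tendsto_nhds tendsto_id
  have h1 : Tendsto (fun t => y t / t) (𝓝[≠] 0) (𝓝 a) := by
    have h2 := (h.mul ht).add_const a
    rw [mul_zero, zero_add] at h2
    refine h2.congr' ?_
    filter_upwards [self_mem_nhdsWithin] with t ht0
    have : t ≠ 0 := ht0
    field_simp
    ring
  have hR : Tendsto y (𝓝[≠] 0) (𝓝 0) := by
    have h2 := h1.mul ht
    rw [mul_zero] at h2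
    refine h2.congr' ?_
    filter_upwards [self_mem_nhdsWithin] with t ht0
    have : t ≠ 0 := ht0
    field_simp
  have h2 := log_tendsto h1
  set R : ℝ → ℝ := fun t => l * Real.log (1 + y t) with hRdef
  have h3 : Tendsto (fun t => (R t - t * (l * a)) / t ^ 2) (𝓝[≠] 0)
      (𝓝 (l * (-(a ^ 2 / 2) + b))) := by
    have h4 := (h2.add h).const_mul l
    refine h4.congr fun t => ?_
    simp only [hRdef]
    ring
  have h5 : Tendsto (fun t => R t / t) (𝓝[≠] 0) (𝓝 (l * a)) := by
    have h6 := (h3.mul ht).add_const (l * a)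
    rw [mul_zero, zero_add] at h6
    refine h6.congr' ?_
    filter_upwards [self_mem_nhdsWithin] with t ht0
    have : t ≠ 0 := ht0
    field_simp
    ring
  have h7 := (exp_tendsto h5).add h3
  have e : (l * a) ^ 2 / 2 + l * (-(a ^ 2 / 2) + b) = l * b - l * (1 - l) * a ^ 2 / 2 := by ring
  rw [e] at h7
  refine h7.congr' ?_
  have hsm : ∀ᶠ t in 𝓝[≠] (0 : ℝ), |y t| < 1 / 2 := by
    have := hR.abs
    rw [abs_zero] at this
    exact this.eventually_lt_const (by norm_num)
  filter_upwards [hsm] with t ht1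
  have hpos : 0 < 1 + y t := by
    have := (abs_lt.1 ht1).1
    linarith only [this]
  rw [Real.rpow_def_of_pos hpos, ← add_div]
  congr 1
  simp only [hRdef]
  rw [mul_comm (Real.log _) l]
  ring

/-- the exponent of the log-combination -/
noncomputable def ph (K : Set (EV n)) (g : EV n → ℝ) (l t : ℝ) (u : EV n) : ℝ :=
  l * Real.log (1 + t * psi K g u)

theorem psi_smul (K : Set (EV n)) (g : EV n → ℝ) (c : ℝ) :
    psi K (fun u => c * g u) = fun u => c * psi K g u := by
  funext u
  unfold psi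
  ring

theorem fam_ph {K : Set (EV n)} (hK : SymConvexBody K) {g : EV n → ℝ} (hg : Pt g) (l : ℝ) :
    Fam K (fun u => l * g u) (fun u => -(l / 2) * psi K g u ^ 2) (ph K g l) := by
  have hA := psi_adm hK hg
  obtain ⟨P, hP0, hP⟩ := hA.bound
  have hsm : ∀ η : ℝ, 0 < η → ∀ᶠ t in 𝓝 (0 : ℝ), (P + 1) * |t| < η := by
    intro η hη
    have : Tendsto (fun t : ℝ => (P + 1) * |t|) (𝓝 0) (𝓝 ((P + 1) * |(0 : ℝ)|)) := by
      have hc : Continuous (fun t : ℝ => (P + 1) * |t|) := by fun_prop
      exact hc.tendsto 0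
    rw [abs_zero, mul_zero] at this
    exact this.eventually_lt_const hη
  have hz : ∀ t : ℝ, ∀ u : EV n, ‖u‖ = 1 → |t * psi K g u| ≤ (P + 1) * |t| := by
    intro t u hu
    rw [abs_mul, mul_comm]
    apply mul_le_mul_of_nonneg_right _ (abs_nonneg _)
    have := hP u hu
    linarith
  refine ⟨?_, ?_, ?_⟩
  · filter_upwards [hsm (1 / 2) (by norm_num)] with t ht
    refine ⟨?_, ?_, ?_⟩
    · intro u
      unfold ph
      rw [hA.even]
    · unfold ph
      apply continuousOn_const.mul
      apply ContinuousOn.log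
      · exact continuousOn_const.add (continuousOn_const.mul hA.cont)
      · intro u hu
        have hu0 : u ≠ 0 := hu
        have hun : 0 < ‖u‖ := norm_pos_iff.2 hu0
        have h1 : ‖‖u‖⁻¹ • u‖ = 1 := by rw [norm_smul, norm_inv, norm_norm]; field_simp
        have h2 := hz t _ h1
        rw [hA.hom _ (inv_pos.2 hun)] at h2
        have h3 := (abs_le.1 h2).1
        have : 0 < 1 + t * psi K g u := by linarith
        exact this.ne'
    · intro s hs u
      unfold ph
      rw [hA.hom s hs]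
  · refine ⟨?_, ?_, ?_⟩
    · intro u
      rw [hA.even]
    · exact continuousOn_const.mul (hA.cont.pow 2)
    · intro s hs u
      rw [hA.hom s hs]
  · intro ε hε
    have hη : 0 < ε / (2 * (|l| + 1) * (P + 1) ^ 2) := by positivity
    filter_upwards [hsm (1 / 2) (by norm_num), hsm _ hη] with t ht1 ht2
    intro u hu
    have h1 := hz t u hu
    set z := t * psi K g u with hzd
    have h2 := log_bound (z := z) (by linarith only [h1, ht1])
    have e : ph K g l t u - t * psi K (fun u => l * g u) u - t ^ 2 * (-(l / 2) * psi K g u ^ 2) =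
        l * (Real.log (1 + z) - z + z ^ 2 / 2) := by
      unfold ph
      rw [psi_smul, hzd]
      ring
    rw [e, abs_mul]
    have h3 : |z| ^ 3 ≤ (P + 1) ^ 2 * t ^ 2 * ((P + 1) * |t|) := by
      calc |z| ^ 3 ≤ ((P + 1) * |t|) ^ 3 := pow_le_pow_left₀ (abs_nonneg _) h1 3
        _ = (P + 1) ^ 2 * |t| ^ 2 * ((P + 1) * |t|) := by ring
        _ = _ := by rw [sq_abs]
    have h4 : (P + 1) * |t| * (2 * (|l| + 1) * (P + 1) ^ 2) ≤ ε := by
      rw [lt_div_iff₀ (by positivity)] at ht2
      exact ht2.le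
    have hl := abs_nonneg l
    calc |l| * |Real.log (1 + z) - z + z ^ 2 / 2| ≤ (|l| + 1) * (2 * |z| ^ 3) :=
          mul_le_mul (by linarith only []) h2 (abs_nonneg _) (by positivity)
      _ ≤ (|l| + 1) * (2 * ((P + 1) ^ 2 * t ^ 2 * ((P + 1) * |t|))) := by
          apply mul_le_mul_of_nonneg_left _ (by positivity)
          linarith only [h3]
      _ = ((P + 1) * |t| * (2 * (|l| + 1) * (P + 1) ^ 2)) * t ^ 2 := by ring
      _ ≤ ε * t ^ 2 := mul_le_mul_of_nonneg_right h4 (sq_nonneg _)

theorem wulff_congr {f f' : EV n → ℝ} (h : ∀ u : EV n, ‖u‖ = 1 → f u = f' u) :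
    wulff f = wulff f' := by
  ext x
  constructor
  · intro hx u hu
    rw [← h u hu]; exact hx u hu
  · intro hx u hu
    rw [h u hu]; exact hx u hu

/-- identification of the log-combination and of the perturbed body -/
theorem logComb_eq {K : Set (EV n)} (hK : SymConvexBody K) (hC : C2Plus K) {g : EV n → ℝ}
    (hg : Pt g) : ∀ᶠ t in 𝓝 (0 : ℝ),
      SymConvexBody (wulff (fun u => supportFn K u + t * g u)) ∧
      wulff (fun u => supportFn K u + t * g u) = wexp K (ph K g 1 t) ∧
      ∀ l : ℝ, logComb l K (wulff (fun u => supportFn K u + t * g u)) = wexp K (ph K g l t) := by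
  have hA := psi_adm hK hg
  obtain ⟨P, hP0, hP⟩ := hA.bound
  have hsm : ∀ᶠ t in 𝓝 (0 : ℝ), (P + 1) * |t| < 1 / 2 := by
    have : Tendsto (fun t : ℝ => (P + 1) * |t|) (𝓝 0) (𝓝 ((P + 1) * |(0 : ℝ)|)) := by
      have hc : Continuous (fun t : ℝ => (P + 1) * |t|) := by fun_prop
      exact hc.tendsto 0
    rw [abs_zero, mul_zero] at this
    exact this.eventually_lt_const (by norm_num)
  filter_upwards [hsm, supportFn_pert hK hC hg.hom1 hg.even] with t ht1 ht2
  obtain ⟨hW, hs⟩ := ht2
  have hpos : ∀ u : EV n, ‖u‖ = 1 → 0 < 1 + t * psi K g u := by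
    intro u hu
    have h1 : |t * psi K g u| ≤ (P + 1) * |t| := by
      rw [abs_mul, mul_comm]
      apply mul_le_mul_of_nonneg_right _ (abs_nonneg _)
      have := hP u hu
      linarith
    have := (abs_le.1 h1).1
    linarith
  have hfac : ∀ u : EV n, ‖u‖ = 1 → supportFn K u + t * g u =
      supportFn K u * (1 + t * psi K g u) := by
    intro u hu
    have := hK.supportFn_pos (ne0 hu)
    unfold psi
    field_simp
  refine ⟨hW, ?_, fun l => ?_⟩
  · unfold wexp
    apply wulff_congr
    intro u hu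
    unfold ph
    rw [hfac u hu, one_mul, Real.exp_log (hpos u hu)]
  · unfold wexp logComb
    apply wulff_congr
    intro u hu
    have hKu := hK.supportFn_pos (ne0 hu)
    unfold ph
    rw [hs u hu, hfac u hu, Real.mul_rpow hKu.le (hpos u hu).le, ← mul_assoc,
      ← Real.rpow_add hKu, sub_add_cancel, Real.rpow_one, Real.rpow_def_of_pos (hpos u hu)]
    rw [mul_comm (Real.log _) l]

theorem V1_smul (K : Set (EV n)) (ν : EV n → EV n) (g : EV n → ℝ) (c : ℝ) :
    V1 K ν (fun u => c * g u) = c * V1 K ν g := by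
  unfold V1
  rw [psi_smul, integral_const_mul]
  ring

theorem V2_smul {K : Set (EV n)} (hK : SymConvexBody K) (hC : C2Plus K)
    (S : EV n → ((EV n →L[ℝ] ℝ) →ₗ[ℝ] EV n)) {ν : EV n → EV n}
    (hν : IsConeNormal K ν) {g : EV n → ℝ} (hg : Pt g) (c : ℝ) :
    V2 K S ν (fun u => c * g u) = c ^ 2 * V2 K S ν g := by
  have haeν : ∀ᵐ x ∂(volume.restrict (interior K)), ‖ν x‖ = 1 ∧
      inner ℝ x (ν x) = gauge K x * supportFn K (ν x) :=
    ae_restrict_of_ae_restrict_of_subset interior_subset hν.2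
  have e1 : IP K ν (fun u => c * g u) = c ^ 2 * IP K ν g := by
    unfold IP
    rw [← integral_const_mul]
    congr 1
    funext x
    rw [psi_smul]
    ring
  have e2 : IQ K S ν (fun u => c * g u) = c ^ 2 * IQ K S ν g := by
    unfold IQ
    rw [← integral_const_mul]
    apply integral_congr_ae
    filter_upwards [haeν] with x hνx
    have hν0 := ne0 hνx.1
    have d1 := (psi_diff hK hC hg hν0).differentiableAt
    have f1 : fderiv ℝ (psi K fun u => c * g u) (ν x) = c • fderiv ℝ (psi K g) (ν x) := by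
      rw [psi_smul]
      exact fderiv_const_mul d1 c
    simp only [qf]
    rw [f1]
    simp only [map_smul, smul_apply, smul_eq_mul]
    ring
  unfold V2
  rw [e1, e2]
  ring

/-- **Second order comparison**: the limit of the difference in the log-Brunn-Minkowski
inequality. -/
theorem local_limit (hn : 0 < n) {K : Set (EV n)} (hK : SymConvexBody K) (hC : C2Plus K)
    {S : EV n → ((EV n →L[ℝ] ℝ) →ₗ[ℝ] EV n)} (hS : IsDual K S) {ν : EV n → EV n}
    (hν : IsConeNormal K ν) {g : EV n → ℝ} (hg : Pt g) (l : ℝ) :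
    Tendsto (fun t => (evol (logComb l K (wulff (fun u => supportFn K u + t * g u))) -
        evol K ^ (1 - l) * evol (wulff (fun u => supportFn K u + t * g u)) ^ l) / t ^ 2)
      (𝓝[≠] 0) (𝓝 (l * (1 - l) * (QQ K S ν g / (2 * evol K)))) := by
  have hV0 := evol_pos hK
  set V₀ := evol K with hV₀
  have A := vol_exp2 hn hK hC hS hν (hg.smul l) (fam_ph hK hg l)
  have B := vol_exp2 hn hK hC hS hν (hg.smul 1) (fam_ph hK hg 1)
  rw [V1_smul, V2_smul hK hC S hν hg] at A B
  rw [integral_const_mul] at A B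
  change Tendsto _ _ (𝓝 (n * (-(l / 2) * IP K ν g) + l ^ 2 * V2 K S ν g)) at A
  change Tendsto _ _ (𝓝 (n * (-(1 / 2) * IP K ν g) + 1 ^ 2 * V2 K S ν g)) at B
  -- normalised volume of the perturbed body
  set y : ℝ → ℝ := fun t => Vol K (ph K g 1 t) / V₀ - 1 with hy
  have hy1 : Tendsto (fun t => (y t - t * (V1 K ν g / V₀)) / t ^ 2) (𝓝[≠] 0)
      (𝓝 ((n * (-(1 / 2) * IP K ν g) + 1 ^ 2 * V2 K S ν g) / V₀)) := by
    have := B.div_const V₀
    refine this.congr fun t => ?_
    simp only [hy]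
    field_simp
    ring
  have C := rpow_tendsto (l := l) hy1
  have D := A.sub (C.const_mul V₀)
  have e : n * (-(l / 2) * IP K ν g) + l ^ 2 * V2 K S ν g -
      V₀ * (l * ((n * (-(1 / 2) * IP K ν g) + 1 ^ 2 * V2 K S ν g) / V₀) -
        l * (1 - l) * (V1 K ν g / V₀) ^ 2 / 2) = l * (1 - l) * (QQ K S ν g / (2 * V₀)) := by
    unfold QQ
    rw [← hV₀]
    field_simp
    ring
  rw [e] at D
  refine D.congr' ?_
  filter_upwards [(logComb_eq hK hC hg).filter_mono (nhdsWithin_le_nhds (s := {(0 : ℝ)}ᶜ))]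
    with t ht
  obtain ⟨hW, h1, h2⟩ := ht
  have h3 := evol_pos hW
  rw [h2 l]
  rw [h1] at h3 ⊢
  change 0 < Vol K (ph K g 1 t) at h3
  have h4 : 1 + y t = Vol K (ph K g 1 t) / V₀ := by simp only [hy]; ring
  have h5 : V₀ * (1 + y t) ^ l = V₀ ^ (1 - l) * Vol K (ph K g 1 t) ^ l := by
    rw [h4, Real.div_rpow h3.le hV0.le, Real.rpow_sub hV0, Real.rpow_one]
    have : V₀ ^ l ≠ 0 := (Real.rpow_pos_of_pos hV0 l).ne'
    field_simp
  change _ = (Vol K (ph K g l t) - V₀ ^ (1 - l) * Vol K (ph K g 1 t) ^ l) / t ^ 2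
  rw [← h5]
  have h6 : V₀ * (V1 K ν g / V₀) = V1 K ν g := by field_simp
  have h7 : V₀ * (((1 + y t) ^ l - 1 - t * (l * (V1 K ν g / V₀))) / t ^ 2) =
      (V₀ * (1 + y t) ^ l - V₀ - t * (l * (V₀ * (V1 K ν g / V₀)))) / t ^ 2 := by ring
  rw [h7, h6]
  ring

end Vale.Agent.P227.Loc
end

section

open MeasureTheory Set Metric Filter Topology
open scoped ENNReal

namespace Vale.Agent.P227.Loc

variable {n : ℕ}

theorem Adm.toBd {φ : EV n → ℝ} (hφ : Adm φ) : Bd φ where
  bd := by
    obtain ⟨B, _, hB⟩ := hφ.bound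
    exact ⟨B, hB⟩
  hom := hφ.hom

/-- composition with a reflection -/
theorem Pt.comp {g : EV n → ℝ} (hg : Pt g) {v w : EV n} (hvw : inner ℝ v w = (1 : ℝ)) :
    Pt (fun u => g (rfl' w v u)) where
  hom1 :=
    { hom := by
        intro s hs x
        rw [rfl'_smul, hg.hom1.hom s hs]
      smooth := by
        have hwv : inner ℝ w v = (1 : ℝ) := by rw [real_inner_comm]; exact hvw
        have h1 : ContDiffOn ℝ 2 (rfl' w v) {0}ᶜ := by
          have : ContDiff ℝ 2 (rfl' w v) := by
            unfold rfl'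
            exact contDiff_id.sub ((contDiff_const.mul
              (contDiff_id.inner ℝ contDiff_const)).smul contDiff_const)
          exact this.contDiffOn
        refine hg.hom1.smooth.comp h1 ?_
        intro u hu h
        apply hu
        have h0 : rfl' w v u = 0 := h
        have h2 := rfl'_rfl' hwv u
        rw [h0] at h2
        rw [mem_singleton_iff, ← h2]
        unfold rfl'
        simp }
  even := by
    intro u
    rw [rfl'_neg, hg.even]

theorem psi_comp {K : Set (EV n)} (hK : SymConvexBody K) {v w : EV n}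
    (hvw : inner ℝ v w = (1 : ℝ)) (hR : ∀ x ∈ K, rfl' v w x ∈ K) (g : EV n → ℝ) (u : EV n) :
    psi K (fun u => g (rfl' w v u)) u = psi K g (rfl' w v u) := by
  unfold psi
  rw [supportFn_rfl' hK hvw hR]

theorem QQ_comp (hn : 0 < n) {K : Set (EV n)} (hK : SymConvexBody K) (hC : C2Plus K)
    {S : EV n → ((EV n →L[ℝ] ℝ) →ₗ[ℝ] EV n)} (hS : IsDual K S) {ν : EV n → EV n}
    (hν : IsConeNormal K ν) {v w : EV n} (hvw : inner ℝ v w = (1 : ℝ))
    (hR : ∀ x ∈ K, rfl' v w x ∈ K) {g : EV n → ℝ} (hg : Pt g) :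
    QQ K S ν (fun u => g (rfl' w v u)) = QQ K S ν g := by
  apply QQ_congr hn hK hC hS hν (hg.comp hvw) hg
  intro t
  have h1 : (fun u => t * psi K (fun u => g (rfl' w v u)) u) =
      fun u => (fun u => t * psi K g u) (rfl' w v u) := by
    funext u
    simp only [psi_comp hK hvw hR]
  have hb := (adm_smul (psi_adm hK hg) t).toBd
  have hb' := (adm_smul (psi_adm hK (hg.comp hvw)) t).toBd
  rw [h1] at hb'
  have h2 := wexp_comp hK hvw hR hb hb'
  unfold Vol evol
  rw [h1, h2, volume_rfl' hvw]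

/-- splitting of the form with respect to a reflection -/
theorem QQ_split (hn : 0 < n) {K : Set (EV n)} (hK : SymConvexBody K) (hC : C2Plus K)
    {S : EV n → ((EV n →L[ℝ] ℝ) →ₗ[ℝ] EV n)} (hS : IsDual K S) {ν : EV n → EV n}
    (hν : IsConeNormal K ν) {v w : EV n} (hvw : inner ℝ v w = (1 : ℝ))
    (hR : ∀ x ∈ K, rfl' v w x ∈ K) {g : EV n → ℝ} (hg : Pt g) :
    QQ K S ν g = QQ K S ν (fun u => 1 / 2 * (g u + g (rfl' w v u))) +
      QQ K S ν (fun u => 1 / 2 * (g u - g (rfl' w v u))) := by
  have hp : Pt (fun u => 1 / 2 * (g u + g (rfl' w v u))) := (hg.add (hg.comp hvw)).smul (1 / 2)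
  have hm : Pt (fun u => 1 / 2 * (g u - g (rfl' w v u))) := (hg.sub (hg.comp hvw)).smul (1 / 2)
  have h1 := QQ_parallelogram hn hK hC hS hν hp hm
  have e1 : (fun u => 1 / 2 * (g u + g (rfl' w v u)) + 1 / 2 * (g u - g (rfl' w v u))) = g := by
    funext u; ring
  have e2 : (fun u => 1 / 2 * (g u + g (rfl' w v u)) - 1 / 2 * (g u - g (rfl' w v u))) =
      fun u => g (rfl' w v u) := by
    funext u; ring
  rw [e1, e2, QQ_comp hn hK hC hS hν hvw hR hg] at h1
  linarith only [h1]

/-- the composition of all reflections is the antipodal map -/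
theorem all_refl {v w : Fin n → EV n}
    (hvw : ∀ i j, inner ℝ (v i) (w j) = if i = j then (1 : ℝ) else 0) (u : EV n) :
    ∑ i, inner ℝ (v i) u • w i = u := by
  have hli : LinearIndependent ℝ w := by
    rw [Fintype.linearIndependent_iff]
    intro c hc j
    have h1 := congrArg (fun x => inner ℝ (v j) x) hc
    simp only [inner_sum, inner_smul_right, hvw, inner_zero_right] at h1
    simpa only [mul_ite, mul_one, mul_zero, Finset.sum_ite_eq, Finset.mem_univ, ↓reduceIte] using h1
  by_cases hn : Nonempty (Fin n)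
  · set b := basisOfLinearIndependentOfCardEqFinrank hli
      (by rw [finrank_euclideanSpace_fin, Fintype.card_fin]) with hb
    have hbw : ∀ i, b i = w i := by
      intro i
      rw [hb, coe_basisOfLinearIndependentOfCardEqFinrank]
    have h1 := b.sum_repr u
    have h2 : ∀ i, inner ℝ (v i) u = b.repr u i := by
      intro i
      conv_lhs => rw [← h1]
      rw [inner_sum]
      simp only [hbw, inner_smul_right, hvw]
      simp only [mul_ite, mul_one, mul_zero, Finset.sum_ite_eq, Finset.mem_univ, ↓reduceIte]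
    conv_rhs => rw [← h1]
    apply Finset.sum_congr rfl
    intro i _
    rw [h2, hbw]
  · have hn0 : n = 0 := by
      by_contra h
      exact hn ⟨⟨0, Nat.pos_of_ne_zero h⟩⟩
    subst hn0
    exact Subsingleton.elim _ _

theorem pure_neg {v w : Fin n → EV n}
    (hvw : ∀ i j, inner ℝ (v i) (w j) = if i = j then (1 : ℝ) else 0) {g : EV n → ℝ}
    (A : Finset (Fin n)) (hodd : ∀ i ∈ A, ∀ u, g (rfl' (w i) (v i) u) = -g u)
    (hev : ∀ i ∉ A, ∀ u, g (rfl' (w i) (v i) u) = g u) (u : EV n) :
    g (-u) = (-1) ^ A.card * g u := by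
  have key : ∀ B : Finset (Fin n), ∀ u : EV n,
      g (u - ∑ i ∈ B, (2 * inner ℝ (v i) u) • w i) = (-1) ^ (B ∩ A).card * g u := by
    intro B
    induction B using Finset.induction_on with
    | empty => intro u; simp only [Finset.sum_empty, sub_zero, Finset.empty_inter, Finset.card_empty, pow_zero, one_mul]
    | insert a B ha ih =>
      intro u
      set u' : EV n := u - ∑ i ∈ B, (2 * inner ℝ (v i) u) • w i with hu'
      have h1 : inner ℝ u' (v a) = inner ℝ (v a) u := by
        rw [hu', inner_sub_left, sum_inner]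
        have : ∑ i ∈ B, inner ℝ ((2 * inner ℝ (v i) u) • w i) (v a) = (0 : ℝ) := by
          apply Finset.sum_eq_zero
          intro i hi
          have hne : a ≠ i := fun h => ha (h ▸ hi)
          rw [real_inner_smul_left, real_inner_comm (v a) (w i), hvw, if_neg hne, mul_zero]
        rw [this, sub_zero, real_inner_comm]
      have h2 : u - ∑ i ∈ insert a B, (2 * inner ℝ (v i) u) • w i = rfl' (w a) (v a) u' := by
        rw [Finset.sum_insert ha]
        unfold rfl'
        rw [h1, hu']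
        abel
      rw [h2]
      by_cases haA : a ∈ A
      · rw [hodd a haA, ih u, Finset.insert_inter_of_mem haA,
          Finset.card_insert_of_notMem (fun h => ha (Finset.mem_inter.1 h).1), pow_succ]
        ring
      · rw [hev a haA, ih u, Finset.insert_inter_of_notMem haA]
  have h3 := key Finset.univ u
  have h4 : u - ∑ i, (2 * inner ℝ (v i) u) • w i = -u := by
    have h5 : ∑ i, (2 * inner ℝ (v i) u) • w i = (2 : ℝ) • u := by
      conv_rhs => rw [← all_refl hvw u, Finset.smul_sum]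
      apply Finset.sum_congr rfl
      intro i _
      rw [smul_smul]
    rw [h5, two_smul]
    abel
  rw [h4, Finset.univ_inter] at h3
  exact h3

theorem wexp_zero {K : Set (EV n)} (hK : SymConvexBody K) : wexp K (fun _ => 0) = K := by
  unfold wexp
  simp only [Real.exp_zero, mul_one]
  exact hK.wulff_supportFn

/-- nonnegativity on pure types -/
theorem QQ_pure {m : ℕ} {K : Set (EV (m + 2))} (hK : SymConvexBody K) (hC : C2Plus K)
    {S : EV (m + 2) → ((EV (m + 2) →L[ℝ] ℝ) →ₗ[ℝ] EV (m + 2))} (hS : IsDual K S)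
    {ν : EV (m + 2) → EV (m + 2)} (hν : IsConeNormal K ν) (v w : Fin (m + 2) → EV (m + 2))
    (hvw : ∀ i j, inner ℝ (v i) (w j) = if i = j then (1 : ℝ) else 0)
    (hR : ∀ i, ∀ x ∈ K, rfl' (v i) (w i) x ∈ K) {g : EV (m + 2) → ℝ} (hg : Pt g)
    (A : Finset (Fin (m + 2))) (hodd : ∀ i ∈ A, ∀ u, g (rfl' (w i) (v i) u) = -g u)
    (hev : ∀ i ∉ A, ∀ u, g (rfl' (w i) (v i) u) = g u) : 0 ≤ QQ K S ν g := by
  have hii : ∀ i, inner ℝ (v i) (w i) = (1 : ℝ) := by intro i; rw [hvw]; simp
  apply QQ_nonneg_of_mul (by omega) hK hC hS hν hg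
  intro t
  set φ : EV (m + 2) → ℝ := fun u => t * psi K g u with hφ
  have hneg : (fun u => -t * psi K g u) = fun u => -φ u := by
    funext u; simp only [hφ]; ring
  rw [hneg]
  have hA : Adm φ := adm_smul (psi_adm hK hg) t
  have hfin : volume K ≠ ∞ := hK.isCompact.measure_lt_top.ne
  have hφodd : ∀ i ∈ A, ∀ u, φ (rfl' (w i) (v i) u) = -φ u := by
    intro i hi u
    simp only [hφ]
    rw [← psi_comp hK (hii i) (hR i)]
    unfold psi
    beta_reduce
    rw [hodd i hi]
    ring
  have hφev : ∀ i ∉ A, ∀ u, φ (rfl' (w i) (v i) u) = φ u := by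
    intro i hi u
    simp only [hφ]
    rw [← psi_comp hK (hii i) (hR i)]
    unfold psi
    beta_reduce
    rw [hev i hi]
  have conv : volume (wexp K φ) * volume (wexp K (fun u => -φ u)) ≤ volume K ^ 2 →
      Vol K φ * Vol K (fun u => -φ u) ≤ evol K ^ 2 := by
    intro h
    unfold Vol evol
    rw [← ENNReal.toReal_mul, ← ENNReal.toReal_pow]
    exact ENNReal.toReal_mono (ENNReal.pow_ne_top hfin) h
  apply conv
  rcases Nat.even_or_odd A.card with he | ho
  · obtain ⟨k, hk⟩ := he
    rcases Nat.eq_zero_or_pos k with h0 | hpos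
    · have hA0 : A = ∅ := by
        rw [← Finset.card_eq_zero, hk, h0]
      apply prod_ineq hK v w hvw hR (Fin.castLEEmb (by omega)) hA.toBd hA.even
      intro j u
      exact hφev _ (by rw [hA0]; simp) u
    · obtain ⟨k', rfl⟩ : ∃ k', k = k' + 1 := ⟨k - 1, by omega⟩
      have h1 := type_ineq hK v w hvw hR k' A (by omega) φ hA.toBd hA.even hφodd hφev
      have h2 := type_ineq hK v w hvw hR k' A (by omega) (fun u => -φ u) hA.toBd.neg
        (fun u => by rw [hA.even]) (fun i hi u => by rw [hφodd i hi])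
        (fun i hi u => by rw [hφev i hi])
      rw [sq]
      exact mul_le_mul' h1 h2
  · -- odd type: the function vanishes
    have hz : ∀ u, φ u = 0 := by
      intro u
      have h1 := pure_neg hvw A hφodd hφev u
      rw [hA.even, ho.neg_one_pow] at h1
      linarith
    have e1 : φ = fun _ => 0 := by funext u; exact hz u
    have e2 : (fun u => -φ u) = fun _ => 0 := by funext u; rw [hz u, neg_zero]
    rw [e2, e1, wexp_zero hK, sq]

/-- nonnegativity of the form for an unconditional body -/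
theorem QQ_nonneg {m : ℕ} {K : Set (EV (m + 2))} (hK : SymConvexBody K) (hC : C2Plus K)
    {S : EV (m + 2) → ((EV (m + 2) →L[ℝ] ℝ) →ₗ[ℝ] EV (m + 2))} (hS : IsDual K S)
    {ν : EV (m + 2) → EV (m + 2)} (hν : IsConeNormal K ν) (v w : Fin (m + 2) → EV (m + 2))
    (hvw : ∀ i j, inner ℝ (v i) (w j) = if i = j then (1 : ℝ) else 0)
    (hR : ∀ i, ∀ x ∈ K, rfl' (v i) (w i) x ∈ K) (U : Finset (Fin (m + 2))) :
    ∀ (A : Finset (Fin (m + 2))), A ⊆ Uᶜ → ∀ {g : EV (m + 2) → ℝ}, Pt g →
      (∀ i ∈ A, ∀ u, g (rfl' (w i) (v i) u) = -g u) →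
      (∀ i ∈ Uᶜ \ A, ∀ u, g (rfl' (w i) (v i) u) = g u) → 0 ≤ QQ K S ν g := by
  have hii : ∀ i, inner ℝ (v i) (w i) = (1 : ℝ) := by intro i; rw [hvw]; simp
  -- commutation of the reflections
  have hcomm : ∀ i j, ∀ u : EV (m + 2), rfl' (w i) (v i) (rfl' (w j) (v j) u) =
      rfl' (w j) (v j) (rfl' (w i) (v i) u) := by
    intro i j u
    by_cases hij : i = j
    · subst hij; rfl
    · have e1 : inner ℝ (w i) (v j) = (0 : ℝ) := by
        rw [real_inner_comm, hvw, if_neg (Ne.symm hij)]
      have e2 : inner ℝ (w j) (v i) = (0 : ℝ) := by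
        rw [real_inner_comm, hvw, if_neg hij]
      unfold rfl'
      rw [inner_sub_left, inner_sub_left, real_inner_smul_left, real_inner_smul_left, e1, e2,
        mul_zero, mul_zero, sub_zero, sub_zero]
      abel
  induction U using Finset.induction_on with
  | empty =>
    intro A _ g hg hodd hev
    apply QQ_pure hK hC hS hν v w hvw hR hg A hodd
    intro i hi
    exact hev i (by simp [hi])
  | insert a U ha ih =>
    intro A hA g hg hodd hev
    have haA : a ∉ A := by
      intro h
      have := Finset.mem_compl.1 (hA h)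
      exact this (Finset.mem_insert_self a U)
    have hsub : A ⊆ Uᶜ := by
      intro i hi
      rw [Finset.mem_compl]
      intro h
      exact Finset.mem_compl.1 (hA hi) (Finset.mem_insert_of_mem h)
    have hwv : inner ℝ (w a) (v a) = (1 : ℝ) := by rw [real_inner_comm]; exact hii a
    rw [QQ_split (by omega) hK hC hS hν (hii a) (hR a) hg]
    have hp : Pt (fun u => 1 / 2 * (g u + g (rfl' (w a) (v a) u))) :=
      (hg.add (hg.comp (hii a))).smul (1 / 2)
    have hm : Pt (fun u => 1 / 2 * (g u - g (rfl' (w a) (v a) u))) :=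
      (hg.sub (hg.comp (hii a))).smul (1 / 2)
    apply add_nonneg
    · apply ih A hsub hp
      · intro i hi u
        rw [hodd i hi, hcomm, hodd i hi]
        ring
      · intro i hi u
        by_cases hia : i = a
        · subst hia
          rw [rfl'_rfl' hwv]
          ring
        · have hi' : i ∈ (insert a U)ᶜ \ A := by
            rw [Finset.mem_sdiff, Finset.mem_compl] at hi ⊢
            refine ⟨?_, hi.2⟩
            rw [Finset.mem_insert]
            push Not
            exact ⟨hia, hi.1⟩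
          rw [hev i hi', hcomm, hev i hi']
    · apply ih (insert a A) _ hm
      · intro i hi u
        rw [Finset.mem_insert] at hi
        rcases hi with rfl | hi
        · rw [rfl'_rfl' hwv]
          ring
        · rw [hodd i hi, hcomm, hodd i hi]
          ring
      · intro i hi u
        rw [Finset.mem_sdiff, Finset.mem_compl, Finset.mem_insert] at hi
        obtain ⟨h1, h2⟩ := hi
        push Not at h2
        have hi' : i ∈ (insert a U)ᶜ \ A := by
          rw [Finset.mem_sdiff, Finset.mem_compl, Finset.mem_insert]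
          push Not
          exact ⟨⟨h2.1, h1⟩, h2.2⟩
        rw [hev i hi', hcomm, hev i hi']
      · intro i hi
        rw [Finset.mem_insert] at hi
        rcases hi with rfl | hi
        · exact Finset.mem_compl.2 ha
        · exact hsub hi

/-- homogeneous extension of a function on the sphere -/
noncomputable def hext (g : EV n → ℝ) (u : EV n) : ℝ := ‖u‖ * g (‖u‖⁻¹ • u)

theorem hext_pt {g : EV n → ℝ} (hg : ContDiffOn ℝ 2 g {0}ᶜ) (heven : ∀ u, g (-u) = g u) :
    Pt (hext g) where
  hom1 :=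
    { hom := by
        intro s hs x
        unfold hext
        rw [norm_smul, Real.norm_of_nonneg hs.le, smul_smul, mul_assoc]
        congr 3
        rw [mul_inv, mul_assoc, mul_comm ‖x‖⁻¹ s, ← mul_assoc, inv_mul_cancel₀ hs.ne', one_mul]
      smooth := by
        intro u hu
        have hu0 : u ≠ 0 := hu
        have h1 : ContDiffAt ℝ 2 (fun u : EV n => ‖u‖) u := contDiffAt_norm ℝ hu0
        have h2 : ContDiffAt ℝ 2 (fun u : EV n => ‖u‖⁻¹ • u) u :=
          (h1.inv (norm_ne_zero_iff.2 hu0)).smul contDiffAt_id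
        have hne : ‖u‖⁻¹ • u ≠ 0 := smul_ne_zero (inv_ne_zero (norm_ne_zero_iff.2 hu0)) hu0
        have h3 : ContDiffAt ℝ 2 g (‖u‖⁻¹ • u) :=
          hg.contDiffAt (isOpen_compl_singleton.mem_nhds hne)
        exact (h1.mul (ContDiffAt.comp (g := g) (f := fun u : EV n => ‖u‖⁻¹ • u) u h3
          h2)).contDiffWithinAt }
  even := by
    intro u
    unfold hext
    rw [norm_neg, smul_neg, heven]

theorem hext_unit (g : EV n → ℝ) {u : EV n} (hu : ‖u‖ = 1) : hext g u = g u := by
  unfold hext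
  rw [hu, inv_one, one_smul, one_mul]

/-- **Local log-Brunn-Minkowski inequality at unconditional bodies of class `C²₊`.** -/
theorem local_log_bm {m : ℕ} {K : Set (EV (m + 2))} (hK : SymConvexBody K) (hC : C2Plus K)
    (v w : Fin (m + 2) → EV (m + 2))
    (hvw : ∀ i j, inner ℝ (v i) (w j) = if i = j then (1 : ℝ) else 0)
    (hR : ∀ i, ∀ x ∈ K, x - (2 * inner ℝ x (w i)) • v i ∈ K) {g : EV (m + 2) → ℝ}
    (hg : ContDiffOn ℝ 2 g {0}ᶜ) (heven : ∀ u, g (-u) = g u) :
    ∃ c : ℝ, 0 ≤ c ∧ ∀ l : ℝ,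
      Tendsto (fun t => (evol (logComb l K (wulff (fun u => supportFn K u + t * g u))) -
        evol K ^ (1 - l) * evol (wulff (fun u => supportFn K u + t * g u)) ^ l) / t ^ 2)
      (𝓝[≠] 0) (𝓝 (l * (1 - l) * c)) := by
  obtain ⟨S, hS⟩ := exists_dual hK hC
  obtain ⟨ν, hν⟩ := exists_measurable_normal (by omega) hK
  have hpt := hext_pt hg heven
  have hQ : 0 ≤ QQ K S ν (hext g) :=
    QQ_nonneg hK hC hS hν v w hvw hR Finset.univ ∅ (by simp) hpt (by simp) (by simp only [Finset.compl_univ, _root_.sdiff_self, Finset.bot_eq_empty, Finset.notMem_empty, IsEmpty.forall_iff, implies_true])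
  refine ⟨QQ K S ν (hext g) / (2 * evol K), ?_, fun l => ?_⟩
  · have := evol_pos hK
    (clear * - hQ this; positivity)
  · have h := local_limit (by omega) hK hC hS hν hpt l
    have e : ∀ t : ℝ, wulff (fun u => supportFn K u + t * hext g u) =
        wulff (fun u => supportFn K u + t * g u) := by
      intro t
      apply wulff_congr
      intro u hu
      rw [hext_unit g hu]
    simp only [e] at h
    exact h

end Vale.Agent.P227.Loc
end

section

open MeasureTheory Filter Topology

namespace Vale.Agent.P227.Fin2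

variable {n : ℕ}

lemma comb_eq (x : E n) (c : ℝ) (y : E n) : comb x c y = x + c • y := rfl

lemma neg_eq (x : E n) : neg x = -x := rfl

lemma scb {K : Set (E n)} (h : SymConvexBody K) : Vale.Agent.P227.SymConvexBody K :=
  ⟨h.convex, h.isCompact, h.nonempty_interior, h.symm⟩

lemma evol_eq (K : Set (E n)) : evol K = Vale.Agent.P227.evol K := rfl

lemma supportFn_eq (K : Set (E n)) (u : E n) : supportFn K u = Vale.Agent.P227.supportFn K u := rfl

lemma logComb_eq (t : ℝ) (K L : Set (E n)) : logComb t K L = Vale.Agent.P227.logComb t K L := rfl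

lemma zonoid {K : Set (E n)} (h : IsZonoid K) : Vale.Agent.P227.IsZonoid K := h

lemma coneNormal_iff {K : Set (E n)} (hK : SymConvexBody K) (ν : E n → E n) :
    IsConeNormal K ν ↔ Vale.Agent.P227.IsConeNormal K ν := by
  unfold IsConeNormal Vale.Agent.P227.IsConeNormal
  refine and_congr_right fun _ => ?_
  have hfin : volume K < ⊤ := hK.isCompact.measure_lt_top
  have hmeas : MeasurableSet K := hK.isCompact.measurableSet
  rw [ae_iff, Measure.restrict_apply' hmeas]
  have hset : {x ∈ K | ¬ (‖ν x‖ = 1 ∧ ip x (ν x) = gauge K x * supportFn K (ν x))} =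
      {a | ¬ (‖ν a‖ = 1 ∧ inner ℝ a (ν a) = gauge K a * Vale.Agent.P227.supportFn K (ν a))} ∩ K := by
    ext x
    exact and_comm
  have hle : volume ({a | ¬ (‖ν a‖ = 1 ∧ inner ℝ a (ν a) =
      gauge K a * Vale.Agent.P227.supportFn K (ν a))} ∩ K) ≠ ⊤ :=
    ((measure_mono Set.inter_subset_right).trans_lt hfin).ne
  unfold evol vol
  rw [hset, ENNReal.toReal_eq_zero_iff]
  exact ⟨fun h => h.resolve_right hle, fun h => Or.inl h⟩

lemma reflection_eq (v w x : E n) : reflection v w x = x - (2 * inner ℝ x w) • v := by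
  rw [reflection, comb_eq, neg_smul, sub_eq_add_neg]
  rfl

lemma inv_mem {m : ℕ} {v w : Fin m → E n} {K : Set (E n)} (h : Invariant v w K) :
    ∀ i, ∀ x ∈ K, x - (2 * inner ℝ x (w i)) • v i ∈ K := by
  intro i x hx
  have := h.mem i x hx
  rwa [reflection_eq] at this

lemma ip_self {x : E n} : ip x x ≠ 0 ↔ x ≠ 0 := by
  unfold ip
  rw [Ne, inner_self_eq_zero]

lemma evenSmooth {f : E n → ℝ} (h : EvenSmooth f) :
    (∀ u, f (-u) = f u) ∧ ContDiffOn ℝ 2 f {u | u ≠ 0} := by
  refine ⟨h.even, ?_⟩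
  have hs : {u : E n | ip u u ≠ 0} = {u | u ≠ 0} := by
    ext u
    exact ip_self
  have := h.smooth
  rwa [hs] at this

lemma slabs {K : Set (E n)} (h : IsSlabs K) : Vale.Agent.P227.IsSlabs K := h

lemma good {K : Set (E n)} (hn : 0 < n) (hK : SymConvexBody K) (h : IsZonoid K ∨ IsSlabs K) :
    Vale.Agent.P227.Good K := by
  intro s t hs ht hst P L hP hL hle
  rcases h with h | h
  · exact Vale.Agent.P227.lemmaZ_zonoid hn hs ht hst (scb hK) h hP hL hle
  · exact Vale.Agent.P227.lemmaZ_slabs hs ht hst (scb hK) h hP hL hle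

theorem part1 (n : ℕ) (K L : Set (E n)) (t : ℝ) (hn : 0 < n) (hK : SymConvexBody K)
    (hL : SymConvexBody L) (ht0 : 0 ≤ t) (ht1 : t ≤ 1)
    (hz : IsZonoid (logComb t K L) ∨ IsSlabs (logComb t K L)) :
    evol K ^ (1 - t) * evol L ^ t ≤ evol (logComb t K L) := by
  have hW := (Vale.Agent.P227.logComb_facts hn (scb hK) (scb hL) ht0 ht1).1
  exact Vale.Agent.P227.log_bm_good (scb hK) (scb hL) ⟨ht0, ht1⟩
    (good hn ⟨hW.convex, hW.isCompact, hW.nonempty_interior, hW.symm⟩ hz)

theorem part2 (n : ℕ) (K L : Set (E n)) (hn : 0 < n) (hK : SymConvexBody K)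
    (hz : IsZonoid K ∨ IsSlabs K) (hL : SymConvexBody L) :
    (∃ ν, IsConeNormal K ν) ∧
      ∀ ν, IsConeNormal K ν → evol K / n * Real.log (evol L / evol K) ≤ coneLogInt K L ν := by
  refine ⟨?_, fun ν hν => ?_⟩
  · obtain ⟨ν, hν⟩ := Vale.Agent.P227.exists_measurable_normal hn (scb hK)
    exact ⟨ν, (coneNormal_iff hK ν).2 hν⟩
  · exact Vale.Agent.P227.log_minkowski_good hn (scb hK) (good hn hK hz) (scb hL) ν
      ((coneNormal_iff hK ν).1 hν).2

theorem part3 (n m : ℕ) (v w : Fin m → E n) (A : E n → E n) (K L : Set (E n)) (hn : n = m + 3)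
    (hK : SymConvexBody K) (hL : SymConvexBody L)
    (iK : Invariant v w K) (iL : Invariant v w L) (hA : ExtraSymmetry v w A)
    (aK : A '' K = K) (aL : A '' L = L) (t : ℝ) (ht0 : 0 ≤ t) (ht1 : t ≤ 1) :
    evol K ^ (1 - t) * evol L ^ t ≤ evol (logComb t K L) := by
  subst hn
  have h0 : A 0 = 0 := by
    have h := hA.linear 0 (-1) 0
    rw [comb_eq, comb_eq] at h
    simpa using h
  let A' : E (m + 3) →ₗ[ℝ] E (m + 3) :=
    { toFun := A
      map_add' := fun x y => by
        have h := hA.linear x 1 y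
        rw [comb_eq, comb_eq] at h
        simpa using h
      map_smul' := fun c y => by
        have h := hA.linear 0 c y
        rw [comb_eq, comb_eq, h0] at h
        simpa using h }
  have h := Vale.Agent.P227.C2.dim_main v w iK.biorth A' (by
      intro i x
      have h := hA.comm i x
      rw [reflection_eq, reflection_eq] at h
      exact h) hA.ne_one hA.ne_neg (scb hK)
    (scb hL) (inv_mem iK) (inv_mem iL) aK aL ht0 ht1
  have hfin : volume (Vale.Agent.P227.logComb t K L) ≠ ⊤ :=
    (Vale.Agent.P227.logComb_facts (by omega) (scb hK) (scb hL) ht0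
      ht1).1.isCompact.measure_lt_top.ne
  have h2 := ENNReal.toReal_mono hfin h
  rw [ENNReal.toReal_mul, ← ENNReal.toReal_rpow, ← ENNReal.toReal_rpow] at h2
  exact h2

theorem part4 (n : ℕ) (v w : Fin n → E n) (K : Set (E n)) (hn : 2 ≤ n)
    (hK : SymConvexBody K) (rK : Invariant v w K) (hC : C2Plus K) (g : E n → ℝ)
    (hg : EvenSmooth g) :
    ∃ c : ℝ, 0 ≤ c ∧ ∀ l : ℝ, 0 ≤ l → l ≤ 1 → LimZero (deficit K g l) (l * (1 - l) * c) := by
  obtain ⟨m, rfl⟩ : ∃ m, n = m + 2 := ⟨n - 2, by omega⟩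
  have hC' : Vale.Agent.P227.Loc.C2Plus K :=
    ⟨(evenSmooth hC.smooth).2, fun u v hu hv h => hC.curv u v (ip_self.2 hu) (ip_self.2 hv) h⟩
  obtain ⟨c, hc, h⟩ := Vale.Agent.P227.Loc.local_log_bm (scb hK) hC' v w rK.biorth (inv_mem rK)
    (evenSmooth hg).2 (evenSmooth hg).1
  exact ⟨c, hc, fun l _ _ => h l⟩

end Vale.Agent.P227.Fin2
end
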